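import Vale.Agent.P309.MathlibUsed
import Vale.Agent.P309.LearnerDefs
import Vale.Agent.P309.HorizonDefs
attribute [-instance] ProperSMul.toContinuousSMul IsTopologicalTorsor.toContinuousSMul IdemSemiring.toCanonicallyOrderedAdd IdemSemiring.toMulLeftMono IdemSemiring.toMulRightMono AddQuantale.instAddLeftMono AddQuantale.instAddRightMono Quantale.instMulLeftMono Quantale.instMulRightMono FiniteDimensional.rclike_to_real IsScalarTower.complexToReal FiniteDimensional.complexToReal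

set_option linter.all false

section

section

/-!
# P309: definitions for the block argument
-/

open MeasureTheory ProbabilityTheory Metric Set
open scoped ENNReal NNReal RealInnerProductSpace

namespace P309

/-- Law of `n` independent standard Gaussian rows. -/
noncomputable def rows (E : Type*) [NormedAddCommGroup E] [InnerProductSpace ℝ E]
    [FiniteDimensional ℝ E] [MeasurableSpace E] (n : ℕ) : Measure (Fin n → E) :=
  Measure.pi fun _ => stdGaussian E

variable {E : Type*} [NormedAddCommGroup E] [InnerProductSpace ℝ E] [FiniteDimensional ℝ E]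
  [MeasurableSpace E] [BorelSpace E]

/-- The labels of the rows `G` for the signal `s`. -/
noncomputable def lab {n : ℕ} (G : Fin n → E) (s : E) : Fin n → ℝ := fun i => ⟪G i, s⟫

/-- `μ` is supported in a closed ball of radius `2^{-b}` and has density at most `D` with respect
to the reference measure `σ`. -/
structure Piece (σ μ : Measure E) (b : ℕ) (D : ℝ≥0∞) : Prop where
  supp : ∃ c : E, μ (closedBall c ((1 / 2) ^ b))ᶜ = 0
  dens : μ ≤ D • σ

/-- A piece which is moreover `κ`-regular with constant `A`. -/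
structure Comp (σ : Measure E) (κ : ℕ) (μ : Measure E) (b : ℕ) (D A : ℝ≥0∞) : Prop
    extends Piece σ μ b D where
  reg : ∀ (w : E) (i : ℕ), μ (closedBall w ((1 / 2) ^ (b + i))) ≤ A * (1 / 2) ^ (κ * i) * μ univ

/-- The win function `w` satisfies the `(a, B)`-bound on all pieces. -/
def Bd (σ : Measure E) (κ₁ : ℕ) (w : E → ℝ≥0∞) (a B : ℝ≥0∞) : Prop :=
  ∀ (μ : Measure E) (b : ℕ) (D : ℝ≥0∞), D ≠ ⊤ → Piece σ μ b D →
    ∫⁻ s, w s ∂μ ≤ a * μ univ + B * D * (1 / 2) ^ (κ₁ * b)

/-- The win function `w` satisfies the `(a, B)`-bound on all regular components. -/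
def BdReg (σ : Measure E) (κ κ₁ : ℕ) (w : E → ℝ≥0∞) (a B : ℝ≥0∞) : Prop :=
  ∀ (μ : Measure E) (b : ℕ) (D A : ℝ≥0∞), D ≠ ⊤ → 1 ≤ A → A ≠ ⊤ → Comp σ κ μ b D A →
    ∫⁻ s, w s ∂μ ≤ a * μ univ + B * A * D * (1 / 2) ^ (κ₁ * b)

end P309
end
end

section

section

/-!
# P309: block representations of win functions
-/

open MeasureTheory ProbabilityTheory Metric Set
open scoped ENNReal NNReal RealInnerProductSpace

namespace P309

variable {E : Type*} [NormedAddCommGroup E] [InnerProductSpace ℝ E] [FiniteDimensional ℝ E]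
  [MeasurableSpace E] [BorelSpace E]

/-- `w` is a mixture of the functions `W z`, with weights given by a kernel reading `n` pairs. -/
def Rep (n : ℕ) {Z : Type*} [Fintype Z] (W : Z → E → ℝ≥0∞) (w : E → ℝ≥0∞) : Prop :=
  ∃ k : Z → (Fin n → E) × (Fin n → ℝ) → ℝ≥0∞, (∀ z, Measurable (k z)) ∧ (∀ x, ∑ z, k z x ≤ 1) ∧
    ∀ s, w s = ∫⁻ G, ∑ z, k z (G, lab G s) * W z s ∂(rows E n)

instance Rep.isProbabilityMeasure_rows (n : ℕ) : IsProbabilityMeasure (rows E n) := by
  unfold rows; infer_instance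

lemma Rep.zero {Z : Type*} [Fintype Z] (W : Z → E → ℝ≥0∞) (z : Z) : Rep 0 W (W z) := by
  classical
  refine ⟨fun z' _ => if z' = z then 1 else 0, fun z' => measurable_const, fun x => by simp only [Finset.sum_ite_eq', Finset.mem_univ, ↓reduceIte, Std.le_refl], ?_⟩
  intro s
  simp only [ite_mul, one_mul, zero_mul, Finset.sum_ite_eq', Finset.mem_univ, ↓reduceIte, lintegral_const, measure_univ, mul_one]

/-- Composition: reading one more pair. -/
lemma Rep.succ {n : ℕ} {Z O : Type*} [Fintype Z] [Fintype O] (W : Z → E → ℝ≥0∞)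
    (v : O → E → ℝ≥0∞) (hv : ∀ o, Rep n W (v o)) (k : O → E × ℝ → ℝ≥0∞)
    (hk : ∀ o, Measurable (k o)) (hk1 : ∀ x, ∑ o, k o x ≤ 1) (w : E → ℝ≥0∞)
    (hw : ∀ s, w s = ∫⁻ x, ∑ o, k o (x, ⟪x, s⟫) * v o s ∂(stdGaussian E)) :
    Rep (n + 1) W w := by
  choose K hK hK1 hKv using hv
  refine ⟨fun z p => ∑ o, k o (p.1 0, p.2 0) * K o z (fun i => p.1 i.succ, fun i => p.2 i.succ),
    ?_, ?_, ?_⟩
  · intro z
    apply Finset.measurable_sum
    intro o _
    apply Measurable.mul
    · exact (hk o).comp (by fun_prop)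
    · exact (hK o z).comp (by fun_prop)
  · intro p
    rw [Finset.sum_comm]
    calc ∑ o, ∑ z, k o (p.1 0, p.2 0) * K o z (fun i => p.1 i.succ, fun i => p.2 i.succ)
        = ∑ o, k o (p.1 0, p.2 0) * ∑ z, K o z (fun i => p.1 i.succ, fun i => p.2 i.succ) := by
          simp_rw [Finset.mul_sum]
      _ ≤ ∑ o, k o (p.1 0, p.2 0) * 1 := by
          gcongr with o _
          exact hK1 o _
      _ ≤ 1 := by simpa only [mul_one] using hk1 _
  · intro s
    rw [hw s]
    have hmp := measurePreserving_piFinSuccAbove (fun _ : Fin (n + 1) => stdGaussian E) 0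
    set F : (Fin (n + 1) → E) → ℝ≥0∞ := fun G => ∑ z, (∑ o, k o (G 0, lab G s 0) *
      K o z (fun i => G i.succ, fun i => lab G s i.succ)) * W z s with hF
    have hFm : Measurable F := by
      apply Finset.measurable_sum
      intro z _
      apply Measurable.mul_const
      apply Finset.measurable_sum
      intro o _
      apply Measurable.mul
      · exact (hk o).comp (by unfold lab; (clear W v k hk hk1 w hw K hK hK1 hKv hmp F hF; fun_prop))
      · exact (hK o z).comp (by unfold lab; fun_prop)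
    change _ = ∫⁻ G, F G ∂(rows E (n + 1))
    have h1 : ∫⁻ G, F G ∂(rows E (n + 1)) =
        ∫⁻ p : E × (Fin n → E), F ((MeasurableEquiv.piFinSuccAbove (fun _ => E) 0).symm p)
          ∂((stdGaussian E).prod (rows E n)) := by
      unfold rows
      rw [← hmp.symm.lintegral_comp hFm]
    have hFm' : Measurable fun p : E × (Fin n → E) =>
        F ((MeasurableEquiv.piFinSuccAbove (fun _ => E) 0).symm p) :=
      hFm.comp (MeasurableEquiv.measurable _)
    rw [h1, lintegral_prod _ hFm'.aemeasurable]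
    apply lintegral_congr
    intro x
    have h2 : ∀ G : Fin n → E, F ((MeasurableEquiv.piFinSuccAbove (fun _ => E) 0).symm (x, G)) =
        ∑ o, k o (x, ⟪x, s⟫) * ∑ z, K o z (G, lab G s) * W z s := by
      intro G
      simp only [hF, lab]
      have e0 : (MeasurableEquiv.piFinSuccAbove (fun _ => E) 0).symm (x, G) 0 = x := rfl
      have e1 : ∀ i : Fin n,
          (MeasurableEquiv.piFinSuccAbove (fun _ => E) 0).symm (x, G) i.succ = G i := fun i => rfl
      simp only [e0, e1]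
      simp_rw [Finset.sum_mul, Finset.mul_sum]
      rw [Finset.sum_comm]
      apply Finset.sum_congr rfl
      intro o _
      apply Finset.sum_congr rfl
      intro z _
      rw [mul_assoc]
      rfl
    simp_rw [h2]
    rw [lintegral_finsetSum]
    · apply Finset.sum_congr rfl
      intro o _
      rw [lintegral_const_mul, ← hKv o s]
      apply Finset.measurable_sum
      intro z _
      apply Measurable.mul_const
      exact (hK o z).comp (by unfold lab; (clear W v k hk hk1 w hw K hK hK1 hKv hmp F hF hFm h1 hFm' x h2; fun_prop))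
    · intro o _
      apply Measurable.const_mul
      apply Finset.measurable_sum
      intro z _
      apply Measurable.mul_const
      exact (hK o z).comp (by unfold lab; fun_prop)

/-- Reading more pairs and ignoring them. -/
lemma Rep.succ_self {n : ℕ} {Z : Type*} [Fintype Z] (W : Z → E → ℝ≥0∞) (w : E → ℝ≥0∞)
    (h : Rep n W w) : Rep (n + 1) W w := by
  refine Rep.succ (O := Unit) W (fun _ => w) (fun _ => h) (fun _ _ => 1)
    (fun _ => measurable_const) (fun _ => by simp) w ?_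
  intro s
  simp only [Finset.univ_unique, PUnit.default_eq_unit, one_mul, Finset.sum_const, Finset.card_singleton, one_smul, lintegral_const, measure_univ, mul_one]

lemma Rep.mono {n m : ℕ} (hnm : n ≤ m) {Z : Type*} [Fintype Z] (W : Z → E → ℝ≥0∞) (w : E → ℝ≥0∞)
    (h : Rep n W w) : Rep m W w := by
  induction m, hnm using Nat.le_induction with
  | base => exact h
  | succ m _ ih => exact Rep.succ_self W w ih

lemma Rep.self (n : ℕ) {Z : Type*} [Fintype Z] (W : Z → E → ℝ≥0∞) (z : Z) : Rep n W (W z) :=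
  Rep.mono (Nat.zero_le n) W _ (Rep.zero W z)

end P309
end
end

section

section

/-!
# P309: mass of caps for the uniform probability measure on the unit sphere
-/

open MeasureTheory Metric Set
open scoped ENNReal Pointwise

namespace P309

variable (E : Type*) [NormedAddCommGroup E] [InnerProductSpace ℝ E] [FiniteDimensional ℝ E]
  [MeasurableSpace E] [BorelSpace E]

/-- The uniform probability measure on the unit sphere, as a measure on `E`. -/
noncomputable def sphereProb : Measure E :=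
  ((volume : Measure E).toSphere univ)⁻¹ •
    ((volume : Measure E).toSphere.map (Subtype.val : sphere (0 : E) 1 → E))

variable {E}

lemma sphereProb_apply {A : Set E} (hA : MeasurableSet A) :
    sphereProb E A = ((volume : Measure E).toSphere univ)⁻¹ *
      (volume : Measure E).toSphere ((Subtype.val : sphere (0 : E) 1 → E) ⁻¹' A) := by
  rw [sphereProb, Measure.smul_apply, smul_eq_mul, Measure.map_apply measurable_subtype_coe hA]

instance isProbabilityMeasure_sphereProb [Nontrivial E] : IsProbabilityMeasure (sphereProb E) := by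
  constructor
  rw [sphereProb_apply MeasurableSet.univ, preimage_univ]
  apply ENNReal.inv_mul_cancel
  · exact (Measure.measure_univ_ne_zero).mpr (Measure.toSphere_ne_zero _)
  · exact measure_ne_top _ _

lemma sphereProb_compl_sphere : sphereProb E (sphere (0 : E) 1)ᶜ = 0 := by
  rw [sphereProb_apply isClosed_sphere.measurableSet.compl]
  have : (Subtype.val : sphere (0 : E) 1 → E) ⁻¹' (sphere (0 : E) 1)ᶜ = ∅ := by
    ext x
    simp
  rw [this, measure_empty, mul_zero]

/-- The mass of a set through the cone over it. -/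
lemma sphereProb_eq_cone [Nontrivial E] {A : Set E} (hA : MeasurableSet A) :
    sphereProb E A = (volume : Measure E) (Ioo (0 : ℝ) 1 • (A ∩ sphere (0 : E) 1)) /
      (volume : Measure E) (ball 0 1) := by
  rw [sphereProb_apply hA, Measure.toSphere_apply_univ,
    Measure.toSphere_apply' _ (measurable_subtype_coe hA), Subtype.image_preimage_coe,
    inter_comm]
  have hd : (Module.finrank ℝ E : ℝ≥0∞) ≠ 0 := by
    simpa only [ne_eq, Nat.cast_eq_zero] using Module.finrank_pos.ne'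
  have hd' : (Module.finrank ℝ E : ℝ≥0∞) ≠ ⊤ := ENNReal.natCast_ne_top _
  rw [ENNReal.mul_inv (Or.inl hd) (Or.inl hd'), div_eq_mul_inv]
  calc _ = ((Module.finrank ℝ E : ℝ≥0∞)⁻¹ * (Module.finrank ℝ E : ℝ≥0∞)) *
        ((volume : Measure E) (Ioo (0 : ℝ) 1 • (A ∩ sphere (0 : E) 1)) *
          ((volume : Measure E) (ball 0 1))⁻¹) := by ring
    _ = _ := by rw [ENNReal.inv_mul_cancel hd hd', one_mul]

/-- Upper bound for the mass of caps. -/
theorem sphereProb_closedBall_le [Nontrivial E] (z : E) (r : ℝ) (hr : 0 < r) :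
    sphereProb E (closedBall z r) ≤
      ENNReal.ofReal (6 ^ (Module.finrank ℝ E) * r ^ (Module.finrank ℝ E - 1)) := by
  set d := Module.finrank ℝ E with hd
  have hd1 : 1 ≤ d := Module.finrank_pos
  rcases le_or_gt 1 r with h1 | h1
  · refine le_trans prob_le_one ?_
    rw [← ENNReal.ofReal_one]
    apply ENNReal.ofReal_le_ofReal
    have ha : (1 : ℝ) ≤ 6 ^ d := one_le_pow₀ (by norm_num)
    have hb : (1 : ℝ) ≤ r ^ (d - 1) := one_le_pow₀ h1
    nlinarith only [ha, hb]
  · rw [sphereProb_eq_cone isClosed_closedBall.measurableSet]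
    rcases (closedBall z r ∩ sphere (0 : E) 1).eq_empty_or_nonempty with h0 | ⟨y0, hy0⟩
    · rw [h0]; simp only [smul_empty, measure_empty, ENNReal.zero_div, Nat.ofNat_nonneg, pow_nonneg, ENNReal.ofReal_mul, ENNReal.ofReal_pow, ENNReal.ofReal_ofNat, zero_le]
    · set N : ℕ := ⌊1 / r⌋₊ with hN
      have hsub : Ioo (0 : ℝ) 1 • (closedBall z r ∩ sphere (0 : E) 1) ⊆
          ⋃ k ∈ Finset.range (N + 1), closedBall (((k : ℝ) * r) • y0) (3 * r) := by
        intro w hw
        obtain ⟨t, ht, y, hy, rfl⟩ := Set.mem_smul.mp hw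
        simp only [mem_iUnion]
        have hk0 : 0 ≤ t / r := div_nonneg ht.1.le hr.le
        refine ⟨⌊t / r⌋₊, ?_, ?_⟩
        · rw [Finset.mem_range, Nat.lt_succ_iff]
          apply Nat.floor_mono
          exact div_le_div_of_nonneg_right ht.2.le hr.le
        · rw [mem_closedBall, dist_eq_norm]
          have e1 : t • y - ((⌊t / r⌋₊ : ℝ) * r) • y0 = t • (y - y0) +
              (t - (⌊t / r⌋₊ : ℝ) * r) • y0 := by
            rw [smul_sub, sub_smul]; abel
          rw [e1]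
          have hyy : ‖y - y0‖ ≤ 2 * r := by
            have a1 := hy.1
            have a2 := hy0.1
            rw [mem_closedBall, dist_eq_norm] at a1 a2
            calc ‖y - y0‖ = ‖(y - z) - (y0 - z)‖ := by congr 1; abel
              _ ≤ ‖y - z‖ + ‖y0 - z‖ := norm_sub_le _ _
              _ ≤ 2 * r := by linarith only [a1, a2]
          have hy0n : ‖y0‖ = 1 := by simpa using hy0.2
          have hfl : |t - (⌊t / r⌋₊ : ℝ) * r| ≤ r := by
            have b1 := Nat.floor_le hk0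
            have b2 := Nat.lt_floor_add_one (t / r)
            rw [le_div_iff₀ hr] at b1
            rw [div_lt_iff₀ hr] at b2
            rw [abs_le]
            constructor <;> nlinarith only [b2, hr, b1]
          calc ‖t • (y - y0) + (t - (⌊t / r⌋₊ : ℝ) * r) • y0‖
              ≤ ‖t • (y - y0)‖ + ‖(t - (⌊t / r⌋₊ : ℝ) * r) • y0‖ := norm_add_le _ _
            _ = |t| * ‖y - y0‖ + |t - (⌊t / r⌋₊ : ℝ) * r| * 1 := by
                rw [norm_smul, norm_smul, hy0n, Real.norm_eq_abs, Real.norm_eq_abs]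
            _ ≤ 1 * (2 * r) + r * 1 := by
                gcongr
                rw [abs_of_pos ht.1]; exact ht.2.le
            _ = 3 * r := by ring
      have hvol : (volume : Measure E) (Ioo (0 : ℝ) 1 • (closedBall z r ∩ sphere (0 : E) 1)) ≤
          ENNReal.ofReal (6 ^ d * r ^ (d - 1)) * (volume : Measure E) (ball 0 1) := by
        calc _ ≤ (volume : Measure E)
              (⋃ k ∈ Finset.range (N + 1), closedBall (((k : ℝ) * r) • y0) (3 * r)) :=
              measure_mono hsub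
          _ ≤ ∑ k ∈ Finset.range (N + 1),
              (volume : Measure E) (closedBall (((k : ℝ) * r) • y0) (3 * r)) :=
              measure_biUnion_finset_le _ _
          _ = ∑ k ∈ Finset.range (N + 1),
              ENNReal.ofReal ((3 * r) ^ d) * (volume : Measure E) (ball 0 1) := by
              apply Finset.sum_congr rfl
              intro k _
              rw [Measure.addHaar_closedBall _ _ (by positivity)]
          _ = ENNReal.ofReal (((N : ℝ) + 1) * (3 * r) ^ d) * (volume : Measure E) (ball 0 1) := by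
              rw [Finset.sum_const, nsmul_eq_mul, Finset.card_range, ← mul_assoc,
                ENNReal.ofReal_mul (by (clear * -; positivity))]
              congr 2
              rw [← Nat.cast_one (R := ℝ), ← Nat.cast_add, ENNReal.ofReal_natCast]
          _ ≤ _ := by
              apply mul_le_mul_left
              apply ENNReal.ofReal_le_ofReal
              have hN1 : (N : ℝ) ≤ 1 / r := Nat.floor_le (by positivity)
              have hN2 : (N : ℝ) + 1 ≤ 2 / r := by
                have : 1 ≤ 1 / r := by rw [le_div_iff₀ hr]; linarith only [h1]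
                calc (N : ℝ) + 1 ≤ 1 / r + 1 / r := by linarith only [hN1, this]
                  _ = 2 / r := by ring
              calc ((N : ℝ) + 1) * (3 * r) ^ d ≤ (2 / r) * (3 * r) ^ d := by (clear * - hN2 hr; gcongr)
                _ = 2 * 3 ^ d * r ^ (d - 1) := by
                    obtain ⟨e, he⟩ : ∃ e, d = e + 1 := ⟨d - 1, by omega⟩
                    rw [he]
                    simp only [Nat.add_sub_cancel]
                    rw [mul_pow, pow_succ r e]
                    field_simp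
                _ ≤ 6 ^ d * r ^ (d - 1) := by
                    gcongr
                    have : (6 : ℝ) ^ d = 2 ^ d * 3 ^ d := by rw [← mul_pow]; norm_num
                    rw [this]
                    gcongr
                    calc (2 : ℝ) = 2 ^ 1 := by norm_num
                      _ ≤ 2 ^ d := pow_le_pow_right₀ (by norm_num) hd1
      exact ENNReal.div_le_of_le_mul hvol

end P309
end
end

section

section

/-!
# P309: the final numerical step
-/

open Real

namespace P309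

lemma log_four_le : Real.log 4 ≤ 1.4 := by
  have h : Real.log 4 = 2 * Real.log 2 := by
    rw [show (4 : ℝ) = 2 ^ 2 by norm_num, Real.log_pow]; norm_num
  have := Real.log_two_lt_d9
  rw [h]; linarith only [this]

lemma log_ten_le : Real.log 10 ≤ 2.4 := by
  have h : Real.log 10 ≤ Real.log 16 - Real.log 1.6 := by
    rw [← Real.log_div (by norm_num) (by norm_num)]
    norm_num
  have h16 : Real.log 16 = 4 * Real.log 2 := by
    rw [show (16 : ℝ) = 2 ^ 4 by norm_num, Real.log_pow]; norm_num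
  have h3 : (0.375 : ℝ) ≤ Real.log 1.6 := by
    have := Real.one_sub_inv_le_log_of_pos (by norm_num : (0 : ℝ) < 1.6)
    norm_num at this ⊢
    linarith only [this]
  have := Real.log_two_lt_d9
  linarith only [h, h16, h3, this]

lemma log_six_le : Real.log 6 ≤ 2 := by
  rw [Real.log_le_iff_le_exp (by norm_num)]
  have h1 : Real.exp 2 = Real.exp 1 * Real.exp 1 := by rw [← Real.exp_add]; norm_num
  have := Real.exp_one_gt_d9
  rw [h1]; nlinarith

lemma log_200_le : Real.log 200 ≤ 6 := by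
  rw [Real.log_le_iff_le_exp (by norm_num)]
  have h1 : Real.exp 6 = (Real.exp 1) ^ 6 := by rw [← Real.exp_nat_mul]; norm_num
  have := Real.exp_one_gt_d9
  rw [h1]
  calc (200 : ℝ) ≤ 2.7 ^ 6 := by norm_num
    _ ≤ (Real.exp 1) ^ 6 := by gcongr; linarith

/-- volumetric bound: `log (1/ε) = O(d)` -/
lemma numeric_vol (C : ℝ) (hC : 0 < C) (d : ℕ) (hd : (16384 : ℝ) ≤ d) (ε Λ : ℝ) (hε : 0 < ε)
    (hlogε : Real.log ε = -Λ) (hΛpos : 0 < Λ) (N : ℕ) (hN : 1 ≤ N)
    (hNC : (N : ℝ) ≤ (2:ℝ) ^ (C * (d:ℝ) ^ 2)) (T : ℕ)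
    (hT : (T : ℝ) < d * Λ / (64 * (50 + 23 * C)))
    (hvol : (2/3 : ℝ) ≤ N * (T + 1) * (6 ^ d * ε ^ (d - 1))) : Λ ≤ (2 * C + 6) * d := by
  have hdpos : (0 : ℝ) < d := by linarith only [hd]
  have hd1 : 1 ≤ d := by exact_mod_cast (by linarith only [hd] : (1 : ℝ) ≤ d)
  have hNpos : (0 : ℝ) < N := by exact_mod_cast hN
  have hlogN : Real.log N ≤ C * (d : ℝ) ^ 2 := by
    have h1 := Real.log_le_log hNpos hNC
    rw [Real.log_rpow (by norm_num)] at h1
    have h2 : Real.log 2 ≤ 1 := by have := Real.log_two_lt_d9; linarith only [this]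
    have h3 : 0 ≤ C * (d : ℝ) ^ 2 := by positivity
    nlinarith only [h1, h2, h3]
  have h1 := Real.log_le_log (by norm_num : (0 : ℝ) < 2 / 3) hvol
  have hT1 : (0 : ℝ) < T + 1 := by positivity
  rw [Real.log_mul (by positivity) (by positivity), Real.log_mul (by positivity) (by positivity),
    Real.log_mul (by positivity) (by positivity), Real.log_pow, Real.log_pow, hlogε] at h1
  have h2 : -(1 / 2 : ℝ) ≤ Real.log (2 / 3) := by
    have := Real.one_sub_inv_le_log_of_pos (by norm_num : (0 : ℝ) < 2 / 3)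
    norm_num at this ⊢
    linarith only [this]
  have h3 : Real.log ((T : ℝ) + 1) ≤ d * Λ / (64 * (50 + 23 * C)) := by
    have := Real.log_le_sub_one_of_pos hT1
    linarith only [hT, this]
  have h4 : d * Λ / (64 * (50 + 23 * C)) ≤ d * Λ / 3200 := by
    apply div_le_div_of_nonneg_left (by positivity) (by norm_num)
    nlinarith only [hC]
  have h5 : (((d - 1 : ℕ) : ℕ) : ℝ) = d - 1 := by
    rw [Nat.cast_sub hd1]; norm_num
  rw [h5] at h1
  have h6 : (d : ℝ) * Real.log 6 ≤ d * 2 := by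
    apply mul_le_mul_of_nonneg_left log_six_le hdpos.le
  -- (d - 1 - d/3200) Λ ≤ C d^2 + 2d + 1/2
  have h7 : ((d : ℝ) / 2) * Λ ≤ C * (d : ℝ) ^ 2 + 2 * d + 1 / 2 := by nlinarith only [hd, hlogN, h1, h2, h3, h4, h6, hC, hΛpos]
  have h8 : ((d : ℝ) / 2) * Λ ≤ (d / 2) * ((2 * C + 6) * d) := by nlinarith only [hd, h7]
  exact le_of_mul_le_mul_left h8 (by positivity)

/-- choice of the memory parameter -/
lemma numeric_mem (C : ℝ) (d n : ℕ) (hn16 : (d : ℝ) / 16 ≤ n) (N : ℕ)
    (hNC : (N : ℝ) ≤ (2:ℝ) ^ (C * (d:ℝ) ^ 2)) :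
    ((N * (n + 1) : ℕ) : ℝ) ≤ 2 ^ ((⌈16 * C * d⌉₊ + 1) * n) := by
  push_cast
  have h1 : ((n : ℝ) + 1) ≤ 2 ^ n := by
    have := one_add_mul_le_pow (by norm_num : (-2 : ℝ) ≤ 1) n
    have e : (1 + 1 : ℝ) = 2 := by norm_num
    rw [e] at this
    linarith only [this]
  have h2 : (N : ℝ) ≤ 2 ^ (⌈16 * C * d⌉₊ * n) := by
    refine le_trans hNC ?_
    rw [← Real.rpow_natCast (2 : ℝ) (⌈16 * C * d⌉₊ * n)]
    apply Real.rpow_le_rpow_of_exponent_le (by norm_num)
    push_cast
    calc C * (d : ℝ) ^ 2 = 16 * C * d * (d / 16) := by ring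
      _ ≤ (⌈16 * C * d⌉₊ : ℝ) * n := by
          apply mul_le_mul (Nat.le_ceil _) hn16 (by positivity) (by positivity)
  calc (N : ℝ) * (n + 1) ≤ 2 ^ (⌈16 * C * d⌉₊ * n) * 2 ^ n := by gcongr
    _ = 2 ^ ((⌈16 * C * d⌉₊ + 1) * n) := by rw [← pow_add]; congr 1; ring

/-- the loss factor of one block -/
lemma numeric_logA (C : ℝ) (hC : 0 < C) (d n J m : ℕ) (hd : (16384 : ℝ) ≤ d)
    (hnr : (8 : ℝ) * n ≤ d) (hJ1 : (1 : ℝ) ≤ J) (hJ2d : (J : ℝ) ≤ 2 * d)
    (hmr : (m : ℝ) ≤ 16 * C * d + 2) :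
    Real.log (4 * 10 ^ (10 * d + 17 * n) * (1 / (1 / (100 * (J : ℝ)))) ^ 11 * 4 ^ m) ≤
      (50 + 23 * C) * d := by
  have hdpos : (0 : ℝ) < d := by linarith
  rw [Real.log_mul (by positivity) (by positivity), Real.log_mul (by positivity)
    (by positivity), Real.log_mul (by positivity) (by positivity), Real.log_pow, Real.log_pow,
    Real.log_pow, one_div_one_div]
  push_cast
  have h4 := log_four_le
  have h10 := log_ten_le
  have hJlog : Real.log (100 * J) ≤ 6 + d := by
    have h1 : (100 : ℝ) * J ≤ 200 * d := by linarith only [hJ2d]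
    have h2 := Real.log_le_log (by positivity) h1
    have h2' : Real.log (200 * (d : ℝ)) = Real.log 200 + Real.log d :=
      Real.log_mul (by norm_num) (by positivity)
    have h3 := Real.log_le_sub_one_of_pos hdpos
    have h5 := log_200_le
    linarith only [h2, h2', h3, h5]
  have h4' : 0 ≤ Real.log 4 := Real.log_nonneg (by norm_num)
  have h10' : 0 ≤ Real.log 10 := Real.log_nonneg (by norm_num)
  have t1 : (10 * (d : ℝ) + 17 * n) * Real.log 10 ≤ (12.125 * d) * 2.4 := by
    apply mul_le_mul _ h10 h10' (by positivity)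
    linarith only [hnr]
  have t2 : (m : ℝ) * Real.log 4 ≤ (16 * C * d + 2) * 1.4 := by
    apply mul_le_mul hmr h4 h4' (by positivity)
  have t3 : (11 : ℝ) * Real.log (100 * J) ≤ 11 * (6 + d) := by linarith only [hJlog]
  have hCd : 0 < C * d := by positivity
  linarith

/-- the number of blocks -/
lemma numeric_blocks (C₂ : ℝ) (hC₂ : 0 < C₂) (d n T : ℕ) (Λ : ℝ) (hd : (16384 : ℝ) ≤ d)
    (hn : 1 ≤ n) (hn16 : (d : ℝ) / 16 ≤ n) (hΛ : 0 < Λ)
    (hT : (T : ℝ) < d * Λ / (64 * C₂)) :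
    T ≤ (T / n + 1) * n ∧ (((T / n + 1 : ℕ) : ℕ) : ℝ) ≤ Λ / (4 * C₂) + 1 := by
  constructor
  · have := Nat.lt_div_mul_add (a := T) (b := n) (by omega)
    nlinarith only [this]
  · push_cast
    have hnpos : (0 : ℝ) < n := by exact_mod_cast hn
    have h1 : ((T / n : ℕ) : ℝ) ≤ (T : ℝ) / n := Nat.cast_div_le
    have h2 : (T : ℝ) / n ≤ (d * Λ / (64 * C₂)) / (d / 16) := by
      apply div_le_div₀ (by positivity) hT.le (by linarith only [hd]) hn16
    have h3 : (d * Λ / (64 * C₂)) / (d / 16) = Λ / (4 * C₂) := by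
      have : (d : ℝ) ≠ 0 := by linarith only [hd]
      field_simp; norm_num
    linarith only [h1, h2, h3]

/-- the error terms -/
lemma numeric_err (d n J : ℕ) (hd : (16384 : ℝ) ≤ d) (hn16 : (d : ℝ) / 16 ≤ n)
    (hJ1 : (1 : ℝ) ≤ J) (hJ2d : (J : ℝ) ≤ 2 * d) :
    (J : ℝ) * (8 * (1 / (100 * (J : ℝ))) + Real.exp (-(n : ℝ))) ≤ 1 / 3 := by
  have herr1 : (J : ℝ) * (8 * (1 / (100 * J))) = 0.08 := by
    field_simp; norm_num
  have hexp : (J : ℝ) * Real.exp (-(n : ℝ)) ≤ 0.1 := by
    have hnpos : (0 : ℝ) < n := by linarith only [hd, hn16]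
    have h1 : (n : ℝ) ^ 2 / 2 ≤ Real.exp n := by
      have := Real.quadratic_le_exp_of_nonneg hnpos.le
      linarith only [this]
    have h2 : (d : ℝ) ^ 2 / 512 ≤ Real.exp n := by
      refine le_trans ?_ h1
      have : ((d : ℝ) / 16) ^ 2 ≤ n ^ 2 := by gcongr
      nlinarith only [this]
    rw [Real.exp_neg, ← div_eq_mul_inv, div_le_iff₀ (Real.exp_pos _)]
    calc (J : ℝ) ≤ 2 * d := hJ2d
      _ ≤ 0.1 * ((d : ℝ) ^ 2 / 512) := by nlinarith only [hd]
      _ ≤ 0.1 * Real.exp n := by (clear * - h2; gcongr)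
  rw [mul_add, herr1]
  linarith only [hexp]

/-- the contradiction -/
lemma numeric_final (C₂ : ℝ) (hC₂ : 0 < C₂) (d e J : ℕ) (hd : (16384 : ℝ) ≤ d) (ε Λ A : ℝ)
    (hε : 0 < ε) (hlogε : Real.log ε = -Λ) (hΛ : 4 * (C₂ + 4) ≤ Λ) (hA : 0 < A)
    (hlogA : Real.log A ≤ C₂ * d) (hJr : (J : ℝ) ≤ Λ / (4 * C₂) + 1)
    (her : (d : ℝ) / 2 ≤ e) (hX : (1 / 3 : ℝ) ≤ A ^ J * (6 ^ d * ε ^ e)) : False := by
  have hdpos : (0 : ℝ) < d := by linarith only [hd]
  have hlogX := Real.log_le_log (by norm_num : (0 : ℝ) < 1 / 3) hX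
  rw [Real.log_mul (by positivity) (by positivity), Real.log_mul (by positivity) (by positivity),
    Real.log_pow, Real.log_pow, Real.log_pow, hlogε] at hlogX
  have hlog3 : -(2 : ℝ) ≤ Real.log (1 / 3) := by
    have := Real.one_sub_inv_le_log_of_pos (by norm_num : (0 : ℝ) < 1 / 3)
    norm_num at this ⊢
    linarith only [this]
  have hmain : (J : ℝ) * Real.log A ≤ (Λ / (4 * C₂) + 1) * (C₂ * d) := by
    calc (J : ℝ) * Real.log A ≤ J * (C₂ * d) := by (clear * - hlogA; gcongr)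
      _ ≤ _ := by gcongr
  have hmain2 : (Λ / (4 * C₂) + 1) * (C₂ * d) = d * Λ / 4 + C₂ * d := by
    (clear * - hC₂ hd; field_simp)
  have h6 : (d : ℝ) * Real.log 6 ≤ d * 2 := mul_le_mul_of_nonneg_left log_six_le hdpos.le
  have heΛ : (d : ℝ) / 2 * Λ ≤ e * Λ := by
    apply mul_le_mul_of_nonneg_right her
    linarith only [hC₂, hΛ]
  have hfinal : d * Λ / 4 + C₂ * d + d * 2 - (d : ℝ) / 2 * Λ ≤ -(2 * d) := by nlinarith only [heΛ, hΛ]
  linarith only [hd, hlogX, hlog3, hmain, hmain2, h6, heΛ, hfinal]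

theorem numeric (C : ℝ) (hC : 0 < C) : ∃ c : ℝ, 0 < c ∧ ∃ d₀ : ℕ, 16 ≤ d₀ ∧ ∃ ε₀ : ℝ, 0 < ε₀ ∧ ε₀ < 1 ∧
  ∀ (d : ℕ), d₀ ≤ d → ∀ ε : ℝ, 0 < ε → ε ≤ ε₀ → ∀ N : ℕ, 1 ≤ N → (N : ℝ) ≤ (2:ℝ) ^ (C * (d:ℝ) ^ 2) → ∀ T : ℕ,
  (2/3 : ℝ) ≤ N * (T + 1) * (6 ^ d * ε ^ (d - 1)) →
  (∀ (J m : ℕ) (η : ℝ), T ≤ J * (d / 8) → 0 < η → η ≤ 1 → ((N * (d / 8 + 1) : ℕ) : ℝ) ≤ 2 ^ (m * (d / 8)) →
     (2/3 : ℝ) ≤ J * (8 * η + Real.exp (-((d / 8 : ℕ) : ℝ))) +
       (4 * 10 ^ (10 * d + 17 * (d / 8)) * (1 / η) ^ 11 * 4 ^ m) ^ J * (6 ^ d * ε ^ (d - 1 - (3 * (d / 8) + 3)))) →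
  c * d * Real.log (1 / ε) ≤ T := by
  have hC₂pos : (0 : ℝ) < 50 + 23 * C := by positivity
  refine ⟨1 / (64 * (50 + 23 * C)), by positivity, 16384, by norm_num,
    Real.exp (-(4 * ((50 + 23 * C) + 4))),
    Real.exp_pos _, by rw [Real.exp_lt_one_iff]; linarith, ?_⟩
  intro d hd ε hε hε₀ N hN hNC T hvol hblock
  by_contra hcon
  push Not at hcon
  obtain ⟨Λ, hΛdef⟩ : ∃ Λ : ℝ, Λ = Real.log (1 / ε) := ⟨_, rfl⟩
  rw [← hΛdef] at hcon
  have hlogε : Real.log ε = -Λ := by rw [hΛdef, one_div, Real.log_inv]; ring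
  have hΛ : 4 * ((50 + 23 * C) + 4) ≤ Λ := by
    have := Real.log_le_log hε hε₀
    rw [Real.log_exp, hlogε] at this
    linarith only [this]
  have hΛpos : 0 < Λ := by linarith only [hC, hΛ]
  have hd' : (16384 : ℝ) ≤ d := by exact_mod_cast hd
  obtain ⟨n, hn⟩ : ∃ n : ℕ, n = d / 8 := ⟨_, rfl⟩
  rw [← hn] at hblock
  have hn8 : 8 * n ≤ d := by omega
  have hn8' : d < 8 * n + 8 := by omega
  have hn1 : 1 ≤ n := by omega
  have hnr : (8 : ℝ) * n ≤ d := by exact_mod_cast hn8
  have hnr' : (d : ℝ) < 8 * n + 8 := by exact_mod_cast hn8'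
  have hn16 : (d : ℝ) / 16 ≤ n := by linarith only [hd', hnr']
  have hT : (T : ℝ) < d * Λ / (64 * (50 + 23 * C)) := by
    calc (T : ℝ) < 1 / (64 * (50 + 23 * C)) * d * Λ := hcon
      _ = d * Λ / (64 * (50 + 23 * C)) := by ring
  have hΛd : Λ ≤ (2 * C + 6) * d :=
    numeric_vol C hC d hd' ε Λ hε hlogε hΛpos N hN hNC T hT hvol
  obtain ⟨hTJ, hJr⟩ := numeric_blocks (50 + 23 * C) hC₂pos d n T Λ hd' hn1 hn16 hΛpos hT
  obtain ⟨J, hJ⟩ : ∃ J : ℕ, J = T / n + 1 := ⟨_, rfl⟩
  rw [← hJ] at hTJ hJr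
  have hJ1 : (1 : ℝ) ≤ J := by
    have : 1 ≤ J := by rw [hJ]; exact Nat.le_add_left _ _
    exact_mod_cast this
  have hJ2d : (J : ℝ) ≤ 2 * d := by
    have h1 : Λ / (4 * (50 + 23 * C)) ≤ d := by
      rw [div_le_iff₀ (by positivity)]
      calc Λ ≤ (2 * C + 6) * d := hΛd
        _ ≤ d * (4 * (50 + 23 * C)) := by nlinarith only [hC]
    linarith only [hd', hJr, h1]
  have hmr : ((⌈16 * C * d⌉₊ + 1 : ℕ) : ℝ) ≤ 16 * C * d + 2 := by
    push_cast
    have := Nat.ceil_lt_add_one (by positivity : (0 : ℝ) ≤ 16 * C * d)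
    linarith only [this]
  have hη : (0 : ℝ) < 1 / (100 * J) := by (clear * - hJ1; positivity)
  have hη1 : (1 : ℝ) / (100 * J) ≤ 1 := by
    rw [div_le_one (by (clear * - hJ1; positivity))]; linarith only [hJ1]
  have hfin := hblock J (⌈16 * C * d⌉₊ + 1) (1 / (100 * J)) hTJ hη hη1
    (numeric_mem C d n hn16 N hNC)
  have herr := numeric_err d n J hd' hn16 hJ1 hJ2d
  have her : (d : ℝ) / 2 ≤ (d - 1 - (3 * n + 3) : ℕ) := by
    rw [Nat.cast_sub (by (clear * - hd hn; omega)), Nat.cast_sub (by omega)]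
    push_cast
    linarith only [hd', hnr]
  exact numeric_final (50 + 23 * C) hC₂pos d _ J hd' ε Λ _ hε hlogε hΛ (by (clear * - hJ1; positivity))
    (numeric_logA C hC d n J (⌈16 * C * d⌉₊ + 1) hd' hnr hJ1 hJ2d hmr) hJr her
    (by linarith only [hfin, herr])

end P309
end
end

section

section

/-!
# P309: L1 approximation by functions of (rows, cell)
-/

open MeasureTheory ProbabilityTheory Metric Set Filter Topology
open scoped ENNReal NNReal RealInnerProductSpace

namespace P309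

variable {E : Type*} [NormedAddCommGroup E] [InnerProductSpace ℝ E] [FiniteDimensional ℝ E]
  [MeasurableSpace E] [BorelSpace E]

/-- The label at the corner of the cell. -/
noncomputable def corner {n : ℕ} (c : E) (l : ℝ) (m : ℕ) (G : Fin n → E) (b : Fin n → ℤ) :
    Fin n → ℝ := fun a => ⟪G a, c⟫ + (b a : ℝ) * (l / m)

/-- The cell. -/
noncomputable def cellOf {n : ℕ} (c : E) (l : ℝ) (m : ℕ) (G : Fin n → E) (s : E) : Fin n → ℤ :=
  fun a => ⌊⟪G a, s - c⟫ * m / l⌋

omit [FiniteDimensional ℝ E] [MeasurableSpace E] [BorelSpace E] in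
lemma corner_close {n : ℕ} (c : E) {l : ℝ} (hl : 0 < l) {m : ℕ} (hm : 1 ≤ m)
    (G : Fin n → E) (s : E) (a : Fin n) :
    |corner c l m G (cellOf c l m G s) a - lab G s a| ≤ l / m := by
  unfold corner cellOf lab
  have hm' : (0 : ℝ) < m := by exact_mod_cast hm
  set x : ℝ := ⟪G a, s - c⟫ with hx
  have h1 : ⟪G a, s⟫ = ⟪G a, c⟫ + x := by
    rw [hx, inner_sub_right]; ring
  have h2 := Int.floor_le (x * m / l)
  have h3 := Int.lt_floor_add_one (x * m / l)
  set f : ℝ := (⌊x * m / l⌋ : ℝ) with hf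
  rw [h1]
  have h4 : ⟪G a, c⟫ + f * (l / m) - (⟪G a, c⟫ + x) = (f - x * m / l) * (l / m) := by
    field_simp
    ring
  rw [h4, abs_mul, abs_of_pos (div_pos hl hm')]
  have h5 : |f - x * m / l| ≤ 1 := by
    rw [abs_le]; constructor <;> linarith only [h2, h3]
  calc |f - x * m / l| * (l / m) ≤ 1 * (l / m) :=
        mul_le_mul_of_nonneg_right h5 (div_pos hl hm').le
    _ = l / m := one_mul _

lemma measurable_lab {n : ℕ} : Measurable (fun p : (Fin n → E) × E => lab p.1 p.2) := by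
  unfold lab
  refine measurable_pi_lambda _ fun a => ?_
  exact ((measurable_pi_apply a).comp measurable_fst).inner measurable_snd

lemma measurable_cellOf {n : ℕ} (c : E) (l : ℝ) (m : ℕ) :
    Measurable (fun p : (Fin n → E) × E => cellOf c l m p.1 p.2) := by
  unfold cellOf
  refine measurable_pi_lambda _ fun a => ?_
  refine Int.measurable_floor.comp ?_
  refine Measurable.div_const (Measurable.mul_const ?_ _) _
  exact ((measurable_pi_apply a).comp measurable_fst).inner (measurable_snd.sub_const c)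

lemma measurable_corner {n : ℕ} (c : E) (l : ℝ) (m : ℕ) :
    Measurable (fun p : (Fin n → E) × (Fin n → ℤ) => corner c l m p.1 p.2) := by
  unfold corner
  refine measurable_pi_lambda _ fun a => ?_
  refine Measurable.add ?_ ?_
  · exact ((measurable_pi_apply a).comp measurable_fst).inner measurable_const
  · refine Measurable.mul_const ?_ _
    exact (measurable_of_countable (fun z : ℤ => (z : ℝ))).comp
      ((measurable_pi_apply a).comp measurable_snd)

/-- Clip to [0,1]. -/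
noncomputable def clip (x : ℝ) : ℝ := max 0 (min x 1)

lemma continuous_clip : Continuous clip :=
  continuous_const.max (continuous_id.min continuous_const)

lemma clip_nonneg (x : ℝ) : 0 ≤ clip x := le_max_left _ _

lemma clip_le_one (x : ℝ) : clip x ≤ 1 := max_le zero_le_one (min_le_right _ _)

lemma abs_clip_sub_le {x y : ℝ} (h0 : 0 ≤ x) (h1 : x ≤ 1) : |x - clip y| ≤ |x - y| := by
  unfold clip
  rcases le_total y 0 with h | h
  · rw [min_eq_left (h.trans zero_le_one), max_eq_left h, sub_zero, abs_of_nonneg h0,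
      abs_of_nonneg (by linarith)]
    linarith
  · rcases le_total y 1 with h' | h'
    · rw [min_eq_left h', max_eq_right h]
    · rw [min_eq_right h', max_eq_right zero_le_one, abs_of_nonpos (by linarith),
        abs_of_nonpos (by linarith)]
      linarith

instance isProb_rows (n : ℕ) : IsProbabilityMeasure (rows E n) := by
  unfold rows; infer_instance

theorem approx_cells (n : ℕ) (ν : Measure E) [IsProbabilityMeasure ν] (c : E) (l : ℝ) (hl : 0 < l)
    {Z : Type*} [Fintype Z] (k : Z → (Fin n → E) × (Fin n → ℝ) → ℝ≥0∞)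
    (hk : ∀ z, Measurable (k z)) (hk1 : ∀ z x, k z x ≤ 1) (η : ℝ≥0∞) (hη : 0 < η) :
    ∃ m : ℕ, 1 ≤ m ∧ ∃ k' : Z → (Fin n → E) × (Fin n → ℤ) → ℝ≥0∞, (∀ z, Measurable (k' z)) ∧
      (∀ z x, k' z x ≤ 1) ∧
      ∑ z, ∫⁻ p, (k z (p.1, lab p.1 p.2) -
        k' z (p.1, fun a => ⌊⟪p.1 a, p.2 - c⟫ * m / l⌋)) ∂((rows E n).prod ν) ≤ η ∧
      ∑ z, ∫⁻ p, (k' z (p.1, fun a => ⌊⟪p.1 a, p.2 - c⟫ * m / l⌋) -
        k z (p.1, lab p.1 p.2)) ∂((rows E n).prod ν) ≤ η := by
  classical
  set M := (rows E n).prod ν with hM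
  -- the pair (rows, label)
  set F : (Fin n → E) × E → (Fin n → E) × (Fin n → ℝ) := fun p => (p.1, lab p.1 p.2) with hF
  have hFm : Measurable F := measurable_fst.prodMk measurable_lab
  set Λ := M.map F with hΛ
  have hΛp : IsProbabilityMeasure Λ := Measure.isProbabilityMeasure_map hFm.aemeasurable
  set δ : ℝ≥0∞ := η / (2 * ((Fintype.card Z : ℝ≥0∞) + 1)) with hδ
  have hcard : (2 * ((Fintype.card Z : ℝ≥0∞) + 1)) ≠ ∞ := by
    finiteness
  have hδ0 : δ ≠ 0 := by
    rw [hδ]
    exact (ENNReal.div_pos hη.ne' hcard).ne'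
  -- continuous approximation
  have key : ∀ z, ∃ g : (Fin n → E) × (Fin n → ℝ) → ℝ, Continuous g ∧ (∀ x, 0 ≤ g x) ∧
      (∀ x, g x ≤ 1) ∧ ∫⁻ x, ENNReal.ofReal |(k z x).toReal - g x| ∂Λ ≤ δ := by
    intro z
    have hint : Integrable (fun x => (k z x).toReal) Λ := by
      refine Integrable.of_bound (hk z).ennreal_toReal.aestronglyMeasurable 1 ?_
      refine Eventually.of_forall fun x => ?_
      rw [Real.norm_of_nonneg ENNReal.toReal_nonneg]
      exact ENNReal.toReal_le_of_le_ofReal zero_le_one (by simpa using hk1 z x)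
    obtain ⟨g, hg, -⟩ := hint.exists_boundedContinuous_lintegral_sub_le hδ0
    refine ⟨fun x => clip (g x), continuous_clip.comp g.continuous, fun x => clip_nonneg _,
      fun x => clip_le_one _, le_trans (lintegral_mono fun x => ?_) hg⟩
    rw [← Real.norm_eq_abs, ofReal_norm, Real.enorm_eq_ofReal_abs,
      Real.enorm_eq_ofReal_abs]
    apply ENNReal.ofReal_le_ofReal
    apply abs_clip_sub_le ENNReal.toReal_nonneg
    exact ENNReal.toReal_le_of_le_ofReal zero_le_one (by simpa using hk1 z x)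
  choose g hgc hg0 hg1 hgd using key
  -- convergence
  have conv : ∀ z, Tendsto (fun m : ℕ => ∫⁻ p, ENNReal.ofReal
      |g z (p.1, corner c l m p.1 (cellOf c l m p.1 p.2)) - g z (F p)| ∂M) atTop (𝓝 0) := by
    intro z
    have : (0 : ℝ≥0∞) = ∫⁻ p, 0 ∂M := by simp only [lintegral_const, measure_univ, mul_one]
    rw [this]
    refine tendsto_lintegral_of_dominated_convergence (fun _ => 2) ?_ ?_ ?_ ?_
    · intro m
      have h1 : Measurable (fun p : (Fin n → E) × E =>
          (p.1, corner c l m p.1 (cellOf c l m p.1 p.2))) :=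
        measurable_fst.prodMk ((measurable_corner c l m).comp
          (measurable_fst.prodMk (measurable_cellOf c l m)))
      exact ((((hgc z).measurable.comp h1).sub ((hgc z).measurable.comp hFm)).abs).ennreal_ofReal
    · intro m
      refine Eventually.of_forall fun p => ?_
      rw [show (2 : ℝ≥0∞) = ENNReal.ofReal 2 by simp]
      apply ENNReal.ofReal_le_ofReal
      rw [abs_le]
      constructor <;> linarith only [hg0 z (p.1, corner c l m p.1 (cellOf c l m p.1 p.2)), hg1 z (F p), hg1 z (p.1, corner c l m p.1 (cellOf c l m p.1 p.2)), hg0 z (F p)]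
    · simp only [lintegral_const, measure_univ, mul_one, ne_eq, ENNReal.ofNat_ne_top, not_false_eq_true]
    · refine Eventually.of_forall fun p => ?_
      have h1 : Tendsto (fun m : ℕ => (p.1, corner c l m p.1 (cellOf c l m p.1 p.2))) atTop
          (𝓝 (F p)) := by
        rw [hF]
        refine Tendsto.prodMk_nhds tendsto_const_nhds ?_
        rw [tendsto_pi_nhds]
        intro a
        rw [tendsto_iff_dist_tendsto_zero]
        have h2 : Tendsto (fun m : ℕ => l / (m : ℝ)) atTop (𝓝 0) :=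
          tendsto_const_div_atTop_nhds_zero_nat l
        refine squeeze_zero' (Eventually.of_forall fun m => dist_nonneg) ?_ h2
        filter_upwards [eventually_ge_atTop 1] with m hm
        rw [Real.dist_eq]
        exact corner_close c hl hm p.1 p.2 a
      have h3 : Tendsto (fun m : ℕ => g z (p.1, corner c l m p.1 (cellOf c l m p.1 p.2))) atTop
          (𝓝 (g z (F p))) := ((hgc z).tendsto _).comp h1
      have h4 : Tendsto (fun m : ℕ =>
          |g z (p.1, corner c l m p.1 (cellOf c l m p.1 p.2)) - g z (F p)|) atTop (𝓝 0) := by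
        have := (h3.sub_const (g z (F p))).abs
        simpa using this
      have h5 := (ENNReal.continuous_ofReal.tendsto 0).comp h4
      simpa [Function.comp_def] using h5
  have ev : ∀ᶠ m : ℕ in atTop, ∀ z, ∫⁻ p, ENNReal.ofReal
      |g z (p.1, corner c l m p.1 (cellOf c l m p.1 p.2)) - g z (F p)| ∂M ≤ δ := by
    rw [Filter.eventually_all]
    intro z
    exact (conv z).eventually (eventually_le_nhds (pos_iff_ne_zero.mpr hδ0))
  obtain ⟨m, hm1, hm⟩ := ((eventually_ge_atTop 1).and ev).exists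
  refine ⟨m, hm1, fun z x => ENNReal.ofReal (g z (x.1, corner c l m x.1 x.2)), ?_, ?_, ?_⟩
  · intro z
    exact ((hgc z).measurable.comp (measurable_fst.prodMk (measurable_corner c l m))).ennreal_ofReal
  · intro z x
    rw [← ENNReal.ofReal_one]
    exact ENNReal.ofReal_le_ofReal (hg1 z _)
  -- the total error
  set κ : Z → (Fin n → E) × E → ℝ := fun z p => (k z (F p)).toReal with hκ
  set γ : Z → (Fin n → E) × E → ℝ := fun z p =>
    g z (p.1, corner c l m p.1 (cellOf c l m p.1 p.2)) with hγ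
  have hγm : ∀ z, Measurable (γ z) := by
    intro z
    have h1 : Measurable (fun p : (Fin n → E) × E =>
        (p.1, corner c l m p.1 (cellOf c l m p.1 p.2))) :=
      measurable_fst.prodMk ((measurable_corner c l m).comp
        (measurable_fst.prodMk (measurable_cellOf c l m)))
    exact (hgc z).measurable.comp h1
  have tot : ∑ z, ∫⁻ p, ENNReal.ofReal |κ z p - γ z p| ∂M ≤ η := by
    have h1 : ∀ z, ∫⁻ p, ENNReal.ofReal |κ z p - γ z p| ∂M ≤ δ + δ := by
      intro z
      have e1 : ∫⁻ p, ENNReal.ofReal |κ z p - g z (F p)| ∂M ≤ δ := by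
        have := hgd z
        rw [hΛ, lintegral_map _ hFm] at this
        · exact this
        · exact (((hk z).ennreal_toReal.sub (hgc z).measurable).abs).ennreal_ofReal
      calc ∫⁻ p, ENNReal.ofReal |κ z p - γ z p| ∂M
          ≤ ∫⁻ p, (ENNReal.ofReal |κ z p - g z (F p)| +
              ENNReal.ofReal |γ z p - g z (F p)|) ∂M := by
            refine lintegral_mono fun p => ?_
            rw [← ENNReal.ofReal_add (abs_nonneg _) (abs_nonneg _)]
            apply ENNReal.ofReal_le_ofReal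
            have : κ z p - γ z p = (κ z p - g z (F p)) + -(γ z p - g z (F p)) := by ring
            rw [this]
            refine (abs_add_le _ _).trans ?_
            rw [abs_neg]
        _ = ∫⁻ p, ENNReal.ofReal |κ z p - g z (F p)| ∂M +
              ∫⁻ p, ENNReal.ofReal |γ z p - g z (F p)| ∂M := by
            apply lintegral_add_right
            exact (((hγm z).sub ((hgc z).measurable.comp hFm)).abs).ennreal_ofReal
        _ ≤ δ + δ := add_le_add e1 (hm z)
    calc ∑ z, ∫⁻ p, ENNReal.ofReal |κ z p - γ z p| ∂M ≤ ∑ _z : Z, (δ + δ) :=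
          Finset.sum_le_sum fun z _ => h1 z
      _ = (2 * (Fintype.card Z : ℝ≥0∞)) * δ := by
          rw [Finset.sum_const, Finset.card_univ, nsmul_eq_mul]; ring
      _ ≤ (2 * ((Fintype.card Z : ℝ≥0∞) + 1)) * δ := by
          gcongr
          exact le_self_add
      _ ≤ η := by
          rw [hδ]
          exact ENNReal.mul_div_le
  have hkf : ∀ z p, k z (F p) = ENNReal.ofReal (κ z p) := by
    intro z p
    rw [hκ, ENNReal.ofReal_toReal]
    exact ne_top_of_le_ne_top ENNReal.one_ne_top (hk1 z _)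
  constructor
  · refine le_trans (Finset.sum_le_sum fun z _ => lintegral_mono fun p => ?_) tot
    change k z (F p) - ENNReal.ofReal (γ z p) ≤ _
    rw [hkf, ← ENNReal.ofReal_sub _ (hg0 z _)]
    exact ENNReal.ofReal_le_ofReal (le_abs_self _)
  · refine le_trans (Finset.sum_le_sum fun z _ => lintegral_mono fun p => ?_) tot
    change ENNReal.ofReal (γ z p) - k z (F p) ≤ _
    rw [hkf, ← ENNReal.ofReal_sub _ ENNReal.toReal_nonneg]
    apply ENNReal.ofReal_le_ofReal
    rw [abs_sub_comm]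
    exact le_abs_self _

end P309
end
end

section

section

/-!
# P309: chi-square tail for Gaussian rows
-/

open MeasureTheory ProbabilityTheory Metric Set
open scoped ENNReal NNReal RealInnerProductSpace

namespace P309

variable {E : Type*} [NormedAddCommGroup E] [InnerProductSpace ℝ E] [FiniteDimensional ℝ E]
  [MeasurableSpace E] [BorelSpace E]

lemma exp_mul_gaussianPDF (v : ℝ≥0) (hv : v ≠ 0) (y : ℝ) :
    ENNReal.ofReal (Real.exp (y ^ 2 / (4 * v))) * gaussianPDF 0 v y =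
      ENNReal.ofReal (√2) * gaussianPDF 0 (2 * v) y := by
  unfold gaussianPDF
  rw [← ENNReal.ofReal_mul (by positivity), ← ENNReal.ofReal_mul (by positivity)]
  congr 1
  rw [gaussianPDFReal, gaussianPDFReal]
  have hv' : (0 : ℝ) < v := by positivity
  have h1 : √(2 * Real.pi * ((2 * v : ℝ≥0) : ℝ)) = √2 * √(2 * Real.pi * v) := by
    rw [← Real.sqrt_mul (by norm_num)]
    congr 1
    push_cast
    ring
  rw [h1]
  have h2 : Real.exp (y ^ 2 / (4 * v)) * Real.exp (-(y - 0) ^ 2 / (2 * v)) =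
      Real.exp (-(y - 0) ^ 2 / (2 * ((2 * v : ℝ≥0) : ℝ))) := by
    rw [← Real.exp_add]
    congr 1
    push_cast
    field_simp
    ring
  rw [← h2]
  have h3 : √2 ≠ 0 := by positivity
  have h4 : √(2 * Real.pi * v) ≠ 0 := by positivity
  (clear * - h3 hv; field_simp)

lemma lintegral_exp_sq_gaussianReal (v : ℝ≥0) (hv : v ≠ 0) :
    ∫⁻ y, ENNReal.ofReal (Real.exp (y ^ 2 / (4 * v))) ∂(gaussianReal 0 v) =
      ENNReal.ofReal (√2) := by
  rw [gaussianReal_of_var_ne_zero 0 hv,
    lintegral_withDensity_eq_lintegral_mul _ (measurable_gaussianPDF 0 v) (by fun_prop)]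
  have h : ∀ y : ℝ, (gaussianPDF 0 v * fun y => ENNReal.ofReal (Real.exp (y ^ 2 / (4 * v)))) y =
      ENNReal.ofReal (√2) * gaussianPDF 0 (2 * v) y := by
    intro y
    rw [Pi.mul_apply, mul_comm]
    exact exp_mul_gaussianPDF v hv y
  simp only [h]
  rw [lintegral_const_mul _ (measurable_gaussianPDF 0 _), lintegral_gaussianPDF_eq_one 0
    (by positivity), mul_one]

lemma lintegral_exp_sq_stdGaussian (u : E) (hu : u ≠ 0) :
    ∫⁻ x, ENNReal.ofReal (Real.exp (⟪x, u⟫ ^ 2 / (4 * ‖u‖ ^ 2))) ∂(stdGaussian E) =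
      ENNReal.ofReal (√2) := by
  let Y : E →L[ℝ] ℝ := innerSL ℝ u
  have hYlaw : (stdGaussian E).map Y = gaussianReal 0 (‖u‖ ^ 2).toNNReal := by
    rw [IsGaussian.map_eq_gaussianReal Y]
    congr 1
    · exact integral_strongDual_stdGaussian Y
    · rw [variance_dual_stdGaussian Y]
      simp only [innerSL_apply_norm, Y]
  have hv : (‖u‖ ^ 2).toNNReal ≠ 0 := by
    have : 0 < ‖u‖ ^ 2 := by positivity
    simpa using hu
  have h := lintegral_exp_sq_gaussianReal _ hv
  rw [← hYlaw, lintegral_map (by fun_prop) Y.continuous.measurable] at h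
  rw [← h]
  refine lintegral_congr fun x => ?_
  rw [Real.coe_toNNReal _ (by positivity)]
  simp only [Y, innerSL_apply_apply, real_inner_comm]

/-- chi-square tail. -/
theorem rows_tail (n : ℕ) (v : E) (l : ℝ) (hv : ‖v‖ ≤ l) :
    rows E n {G | 6 * n * l ^ 2 < ∑ a, ⟪G a, v⟫ ^ 2} ≤ ENNReal.ofReal (Real.exp (-n)) := by
  by_cases hv0 : v = 0
  · have : {G : Fin n → E | 6 * n * l ^ 2 < ∑ a, ⟪G a, v⟫ ^ 2} = ∅ := by
      ext G
      simp only [hv0, inner_zero_right, mem_ofPred_eq, mem_empty_iff_false, iff_false, not_lt]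
      simp only [ne_eq, OfNat.ofNat_ne_zero, not_false_eq_true, zero_pow, Finset.sum_const_zero]
      positivity
    rw [this, measure_empty]
    exact zero_le
  have hvpos : 0 < ‖v‖ := norm_pos_iff.2 hv0
  let φ : E → ℝ≥0∞ := fun x => ENNReal.ofReal (Real.exp (⟪x, v⟫ ^ 2 / (4 * ‖v‖ ^ 2)))
  have hφ : Measurable φ := by (clear n l hv hv0 hvpos; fun_prop)
  have hprod : ∫⁻ G, ∏ a, φ (G a) ∂(rows E n) = ENNReal.ofReal (√2) ^ n := by
    unfold rows
    rw [lintegral_prod_eq_prod_lintegral_of_indepFun Finset.univ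
      (fun (a : Fin n) (G : Fin n → E) => φ (G a))]
    · have : ∀ a : Fin n, ∫⁻ G, φ (G a) ∂(Measure.pi fun _ => stdGaussian E) =
          ENNReal.ofReal (√2) := by
        intro a
        rw [← lintegral_exp_sq_stdGaussian v hv0]
        exact (measurePreserving_eval (fun _ : Fin n => stdGaussian E) a).lintegral_comp hφ
      simp only [this, Finset.prod_const, Finset.card_univ, Fintype.card_fin]
    · exact iIndepFun_pi (X := fun _ => φ) (fun _ => hφ.aemeasurable)
    · intro a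
      exact hφ.comp (measurable_pi_apply a)
  have hsub : {G : Fin n → E | 6 * n * l ^ 2 < ∑ a, ⟪G a, v⟫ ^ 2} ⊆
      {G | ENNReal.ofReal (Real.exp (3 / 2 * n)) ≤ ∏ a, φ (G a)} := by
    intro G hG
    simp only [mem_ofPred_eq] at hG ⊢
    rw [← ENNReal.ofReal_prod_of_nonneg (fun _ _ => (Real.exp_pos _).le), ← Real.exp_sum]
    apply ENNReal.ofReal_le_ofReal
    apply Real.exp_le_exp.2
    rw [← Finset.sum_div, le_div_iff₀ (by positivity)]
    have : ‖v‖ ^ 2 ≤ l ^ 2 := by gcongr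
    nlinarith only [hG, this]
  refine (measure_mono hsub).trans ?_
  have hmark := meas_ge_le_lintegral_div (μ := rows E n) (f := fun G => ∏ a, φ (G a))
    (Finset.measurable_prod _ fun a _ => hφ.comp (measurable_pi_apply a)).aemeasurable
    (ε := ENNReal.ofReal (Real.exp (3 / 2 * n)))
    (by simpa only [ne_eq, ENNReal.ofReal_eq_zero, not_le] using Real.exp_pos _) ENNReal.ofReal_ne_top
  refine hmark.trans ?_
  rw [hprod, ← ENNReal.ofReal_pow (by positivity), ← ENNReal.ofReal_div_of_pos (Real.exp_pos _)]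
  apply ENNReal.ofReal_le_ofReal
  rw [div_le_iff₀ (Real.exp_pos _), ← Real.exp_add]
  have h1 : √2 ≤ Real.exp (1 / 2) := by
    have h2 : (2 : ℝ) ≤ Real.exp 1 := by
      have := Real.add_one_le_exp (1 : ℝ)
      linarith
    calc √2 ≤ √(Real.exp 1) := Real.sqrt_le_sqrt h2
      _ = Real.exp (1 / 2) := by
          rw [Real.sqrt_eq_rpow, ← Real.exp_mul]
          norm_num
  calc √2 ^ n ≤ Real.exp (1 / 2) ^ n := by (clear * - h1; gcongr)
    _ = Real.exp (-n + 3 / 2 * n) := by
        rw [← Real.exp_nat_mul]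
        congr 1
        ring

end P309
end
end

section

section

/-!
# P309: counting lattice points in Euclidean balls
-/

open Finset

namespace P309

/-- One-sided geometric sum. -/
lemma sum_exp_le_aux (δ : ℝ) (h0 : 0 < δ) (h1 : δ ≤ 1) (T : Finset ℤ) (m : ℤ → ℕ)
    (hm : Set.InjOn m T) (x : ℝ) (hx : ∀ t ∈ T, (m t : ℝ) ≤ |(t : ℝ) - x|) :
    ∑ t ∈ T, Real.exp (-(δ * ((t : ℝ) - x)) ^ 2) ≤ 3 / δ := by
  have hr0 : 0 ≤ Real.exp (-δ) := (Real.exp_pos _).le
  have hr1 : Real.exp (-δ) < 1 := by rw [Real.exp_lt_one_iff]; linarith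
  have h2 : ∀ t ∈ T, Real.exp (-(δ * ((t : ℝ) - x)) ^ 2) ≤
      Real.exp (1 / 4) * Real.exp (-δ) ^ (m t) := by
    intro t ht
    rw [← Real.exp_nat_mul, ← Real.exp_add]
    apply Real.exp_le_exp.2
    have h3 := hx t ht
    have h4 : (δ * (m t : ℝ)) ^ 2 ≤ (δ * ((t : ℝ) - x)) ^ 2 := by
      rw [← sq_abs (δ * ((t : ℝ) - x)), abs_mul, abs_of_pos h0]
      apply pow_le_pow_left₀ (by positivity)
      exact mul_le_mul_of_nonneg_left h3 h0.le
    nlinarith only [h4, sq_nonneg (δ * (m t : ℝ) - 1 / 2)]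
  calc ∑ t ∈ T, Real.exp (-(δ * ((t : ℝ) - x)) ^ 2)
      ≤ ∑ t ∈ T, Real.exp (1 / 4) * Real.exp (-δ) ^ (m t) := sum_le_sum h2
    _ = Real.exp (1 / 4) * ∑ t ∈ T, Real.exp (-δ) ^ (m t) := by rw [mul_sum]
    _ = Real.exp (1 / 4) * ∑ j ∈ T.image m, Real.exp (-δ) ^ j := by
        rw [sum_image hm]
    _ ≤ Real.exp (1 / 4) * ∑' j : ℕ, Real.exp (-δ) ^ j := by
        apply mul_le_mul_of_nonneg_left _ (Real.exp_pos _).le
        exact (summable_geometric_of_lt_one hr0 hr1).sum_le_tsum _ (fun i _ => pow_nonneg hr0 i)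
    _ = Real.exp (1 / 4) * (1 - Real.exp (-δ))⁻¹ := by
        rw [tsum_geometric_of_lt_one hr0 hr1]
    _ ≤ (3 / 2) * (2 / δ) := by
        apply mul_le_mul
        · have h5 : Real.exp 1 < 2.7182818286 := Real.exp_one_lt_d9
          have h6 : Real.exp (1 / 4) ^ 4 = Real.exp 1 := by
            rw [← Real.exp_nat_mul]; norm_num
          by_contra hcon
          have h7 : (3 / 2 : ℝ) < Real.exp (1 / 4) := not_le.1 hcon
          have h8 : (3 / 2 : ℝ) ^ 4 < Real.exp (1 / 4) ^ 4 :=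
            pow_lt_pow_left₀ h7 (by norm_num) (by norm_num)
          rw [h6] at h8
          norm_num at h8
          linarith only [h5, h8]
        · have h5 : δ / 2 ≤ 1 - Real.exp (-δ) := by
            have h6 : 1 + δ ≤ Real.exp δ := by linarith [Real.add_one_le_exp δ]
            have h7 : Real.exp (-δ) ≤ (1 + δ)⁻¹ := by
              rw [Real.exp_neg]
              exact inv_anti₀ (by linarith) h6
            have h8 : (1 + δ)⁻¹ ≤ 1 - δ / 2 := by
              rw [inv_le_iff_one_le_mul₀ (by linarith)]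
              nlinarith only [h0, h1]
            linarith
          calc (1 - Real.exp (-δ))⁻¹ ≤ (δ / 2)⁻¹ := inv_anti₀ (by positivity) h5
            _ = 2 / δ := by rw [inv_div]
        · have : 0 < 1 - Real.exp (-δ) := by linarith
          positivity
        · norm_num
    _ = 3 / δ := by ring

/-- Gaussian lattice sums in dimension one. -/
lemma sum_exp_le (δ : ℝ) (h0 : 0 < δ) (h1 : δ ≤ 1) (T : Finset ℤ) (x : ℝ) :
    ∑ t ∈ T, Real.exp (-(δ * ((t : ℝ) - x)) ^ 2) ≤ 6 / δ := by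
  rw [← sum_filter_add_sum_filter_not T (fun t => ⌈x⌉ ≤ t)]
  have hA : ∑ t ∈ T with ⌈x⌉ ≤ t, Real.exp (-(δ * ((t : ℝ) - x)) ^ 2) ≤ 3 / δ := by
    apply sum_exp_le_aux δ h0 h1 _ (fun t => (t - ⌈x⌉).toNat)
    · intro a ha b hb hab
      simp only [coe_filter, Set.mem_ofPred_eq] at ha hb
      simp only at hab
      omega
    · intro t ht
      rw [mem_filter] at ht
      have h2 : ((t - ⌈x⌉).toNat : ℤ) = t - ⌈x⌉ := Int.toNat_of_nonneg (by omega)
      have h3 : ((t - ⌈x⌉).toNat : ℝ) = t - ⌈x⌉ := by exact_mod_cast h2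
      rw [h3]
      have h4 : (x : ℝ) ≤ ⌈x⌉ := Int.le_ceil x
      exact le_trans (by (clear * - h4; linarith)) (le_abs_self _)
  have hB : ∑ t ∈ T with ¬ ⌈x⌉ ≤ t, Real.exp (-(δ * ((t : ℝ) - x)) ^ 2) ≤ 3 / δ := by
    apply sum_exp_le_aux δ h0 h1 _ (fun t => (⌈x⌉ - 1 - t).toNat)
    · intro a ha b hb hab
      simp only [coe_filter, Set.mem_ofPred_eq] at ha hb
      simp only at hab
      omega
    · intro t ht
      rw [mem_filter] at ht
      have h2 : ((⌈x⌉ - 1 - t).toNat : ℤ) = ⌈x⌉ - 1 - t := Int.toNat_of_nonneg (by omega)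
      have h3 : ((⌈x⌉ - 1 - t).toNat : ℝ) = ⌈x⌉ - 1 - t := by exact_mod_cast h2
      rw [h3]
      have h4 : (⌈x⌉ : ℝ) < x + 1 := Int.ceil_lt_add_one x
      rw [abs_sub_comm]
      exact le_trans (by linarith only [h4]) (le_abs_self _)
  calc _ ≤ 3 / δ + 3 / δ := add_le_add hA hB
    _ = 6 / δ := by ring

/-- Number of lattice points in a ball. -/
theorem card_lattice_le {n : ℕ} (S : Finset (Fin n → ℤ)) (x : Fin n → ℝ) (δ R : ℝ) (h0 : 0 < δ)
    (h1 : δ ≤ 1) (h : ∀ k ∈ S, ∑ i, (δ * ((k i : ℝ) - x i)) ^ 2 ≤ R * n) :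
    (S.card : ℝ) ≤ (6 * Real.exp R / δ) ^ n := by
  classical
  set T : Fin n → Finset ℤ := fun i => S.image fun k => k i with hT
  have hsub : S ⊆ Fintype.piFinset T := by
    intro k hk
    rw [Fintype.mem_piFinset]
    intro i
    exact mem_image_of_mem _ hk
  calc (S.card : ℝ) = ∑ k ∈ S, (1 : ℝ) := by simp
    _ ≤ ∑ k ∈ S, Real.exp (R * n) * ∏ i, Real.exp (-(δ * ((k i : ℝ) - x i)) ^ 2) := by
        apply sum_le_sum
        intro k hk
        rw [← Real.exp_sum, ← Real.exp_add]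
        apply Real.one_le_exp
        have h2 := h k hk
        have h3 : ∑ i, (-(δ * ((k i : ℝ) - x i)) ^ 2) = - ∑ i, (δ * ((k i : ℝ) - x i)) ^ 2 := by
          rw [sum_neg_distrib]
        rw [h3]
        linarith only [h2]
    _ ≤ ∑ k ∈ Fintype.piFinset T,
          Real.exp (R * n) * ∏ i, Real.exp (-(δ * ((k i : ℝ) - x i)) ^ 2) := by
        apply sum_le_sum_of_subset_of_nonneg hsub
        intro k _ _
        positivity
    _ = Real.exp (R * n) * ∏ i, ∑ t ∈ T i, Real.exp (-(δ * ((t : ℝ) - x i)) ^ 2) := by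
        rw [← mul_sum, Finset.prod_univ_sum]
    _ ≤ Real.exp (R * n) * ∏ _i : Fin n, (6 / δ) := by
        apply mul_le_mul_of_nonneg_left _ (Real.exp_pos _).le
        apply prod_le_prod
        · intro i _
          exact sum_nonneg fun t _ => (Real.exp_pos _).le
        · intro i _
          exact sum_exp_le δ h0 h1 _ _
    _ = (6 * Real.exp R / δ) ^ n := by
        rw [prod_const, card_univ, Fintype.card_fin, mul_comm R, Real.exp_nat_mul, ← mul_pow]
        congr 1
        ring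

end P309
end
end

section

section

/-!
# P309: cell masses are not too small
-/

open MeasureTheory ProbabilityTheory Metric Set
open scoped ENNReal NNReal RealInnerProductSpace

namespace P309

variable {E : Type*} [NormedAddCommGroup E] [InnerProductSpace ℝ E] [FiniteDimensional ℝ E]
  [MeasurableSpace E] [BorelSpace E]

lemma exists_lattice_finset (n m : ℕ) (hm : 1 ≤ m) :
    ∃ L : Finset (Fin n → ℤ), (∀ b, b ∈ L ↔ ∑ a, ((b a : ℝ)) ^ 2 ≤ 14 * n * m ^ 2) ∧
      (L.card : ℝ) ≤ (6 * Real.exp 14 * m) ^ n := by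
  classical
  let L : Finset (Fin n → ℤ) :=
    (Fintype.piFinset fun _ => Finset.Icc (-(14 * n * m ^ 2 : ℤ)) (14 * n * m ^ 2)).filter
      (fun b => ∑ a, ((b a : ℝ)) ^ 2 ≤ 14 * n * m ^ 2)
  have hL : ∀ b, b ∈ L ↔ ∑ a, ((b a : ℝ)) ^ 2 ≤ 14 * n * m ^ 2 := by
    intro b
    simp only [L, Finset.mem_filter, Fintype.mem_piFinset, Finset.mem_Icc, and_iff_right_iff_imp]
    intro h a
    have h1 : ((b a : ℝ)) ^ 2 ≤ 14 * n * m ^ 2 :=
      (Finset.single_le_sum (f := fun a => ((b a : ℝ)) ^ 2) (fun _ _ => sq_nonneg _)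
        (Finset.mem_univ a)).trans h
    have h2 : (b a) ^ 2 ≤ 14 * n * m ^ 2 := by exact_mod_cast h1
    have h3 : |b a| ≤ (b a) ^ 2 := by
      rw [← sq_abs]
      rcases eq_or_ne (b a) 0 with h0 | h0
      · simp [h0]
      · have : 1 ≤ |b a| := Int.one_le_abs h0
        nlinarith only []
    exact abs_le.1 (h3.trans h2)
  refine ⟨L, hL, ?_⟩
  have hm' : (1 : ℝ) ≤ m := by exact_mod_cast hm
  have := card_lattice_le L (fun _ => 0) (1 / m) 14 (by positivity)
    (by rw [div_le_one (by positivity)]; exact hm')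
    (by
      intro k hk
      have h := (hL k).1 hk
      calc ∑ i, (1 / (m : ℝ) * ((k i : ℝ) - 0)) ^ 2 = (∑ i, (k i : ℝ) ^ 2) / m ^ 2 := by
            rw [Finset.sum_div]
            refine Finset.sum_congr rfl fun i _ => ?_
            field_simp
            ring
        _ ≤ (14 * n * m ^ 2) / m ^ 2 := by gcongr
        _ = 14 * n := by field_simp)
  refine this.trans (le_of_eq ?_)
  congr 1
  field_simp

lemma floor_sq_le (y : ℝ) : ((⌊y⌋ : ℤ) : ℝ) ^ 2 ≤ 2 * y ^ 2 + 2 := by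
  have h1 := Int.floor_le y
  have h2 := Int.lt_floor_add_one y
  nlinarith only [h2, h1, sq_nonneg (((⌊y⌋ : ℤ) : ℝ) - 2 * y)]

/-- cell masses are not too small. The cell of `s` is `⌊⟪G a, s - c⟫ * m / l⌋`, `a : Fin n`. -/
theorem cell_mass (n : ℕ) (m : ℕ) (hm : 1 ≤ m) (ν : Measure E) [IsProbabilityMeasure ν] (c : E)
    (l : ℝ) (hl : 0 < l) (hsupp : ν (closedBall c l)ᶜ = 0) (η : ℝ) (hη : 0 < η) :
    ((rows E n).prod ν) {p | ν {s' | ∀ a, ⌊⟪p.1 a, s' - c⟫ * m / l⌋ = ⌊⟪p.1 a, p.2 - c⟫ * m / l⌋} <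
        ENNReal.ofReal (η * (1 / (Real.exp 14 * (6 * m))) ^ n)} ≤
      ENNReal.ofReal η + ENNReal.ofReal (Real.exp (-n)) := by
  classical
  obtain ⟨L, hL, hcard⟩ := exists_lattice_finset n m hm
  have : IsProbabilityMeasure (rows E n) := by unfold rows; infer_instance
  set t := ENNReal.ofReal (η * (1 / (Real.exp 14 * (6 * m))) ^ n) with ht
  let f : (Fin n → E) × E → (Fin n → ℤ) := fun p a => ⌊⟪p.1 a, p.2 - c⟫ * m / l⌋
  have hf : Measurable f := by
    apply measurable_pi_iff.2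
    intro a
    apply Measurable.floor
    (clear hm hl hsupp η hη L hL hcard t ht f; fun_prop)
  let Bb : (Fin n → ℤ) → Set ((Fin n → E) × E) := fun b =>
    {p | f p = b ∧ ν {s' | f (p.1, s') = b} < t}
  have hmeasb : ∀ b, MeasurableSet {p | f p = b} := fun b => hf (measurableSet_singleton b)
  have hBb : ∀ b, MeasurableSet (Bb b) := by
    intro b
    apply (hmeasb b).inter
    have h1 : Measurable (fun G : Fin n → E => ν {s' | f (G, s') = b}) :=
      measurable_measure_prodMk_left (hmeasb b)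
    exact measurableSet_lt (h1.comp measurable_fst) measurable_const
  have hout : MeasurableSet {p | f p ∉ L} :=
    hf (Set.to_countable {b : Fin n → ℤ | b ∉ L}).measurableSet
  have hsub : {p : (Fin n → E) × E | ν {s' | ∀ a, ⌊⟪p.1 a, s' - c⟫ * m / l⌋ =
      ⌊⟪p.1 a, p.2 - c⟫ * m / l⌋} < t} ⊆ {p | f p ∉ L} ∪ ⋃ b ∈ L, Bb b := by
    intro p hp
    by_cases hpL : f p ∈ L
    · right
      rw [mem_iUnion₂]
      refine ⟨f p, hpL, rfl, ?_⟩
      have : {s' | f (p.1, s') = f p} = {s' | ∀ a, ⌊⟪p.1 a, s' - c⟫ * m / l⌋ =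
          ⌊⟪p.1 a, p.2 - c⟫ * m / l⌋} := by
        ext s'
        exact funext_iff
      rw [this]
      exact hp
    · left
      exact hpL
  have hA : ((rows E n).prod ν) {p | f p ∉ L} ≤ ENNReal.ofReal (Real.exp (-n)) := by
    rw [Measure.prod_apply_symm hout]
    have hae : ∀ᵐ s ∂ν, s ∈ closedBall c l := by
      rw [ae_iff]
      exact hsupp
    calc ∫⁻ s, (rows E n) ((fun G => (G, s)) ⁻¹' {p | f p ∉ L}) ∂ν
        ≤ ∫⁻ s, ENNReal.ofReal (Real.exp (-n)) ∂ν := by
          apply lintegral_mono_ae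
          filter_upwards [hae] with s hs
          have hs' : ‖s - c‖ ≤ l := by
            rw [← dist_eq_norm]
            exact hs
          refine le_trans (measure_mono ?_) (rows_tail n (s - c) l hs')
          intro G hG
          simp only [mem_preimage, mem_ofPred_eq] at hG ⊢
          by_contra hlt
          push Not at hlt
          apply hG
          rw [hL]
          calc ∑ a, ((f (G, s) a : ℤ) : ℝ) ^ 2
              ≤ ∑ a : Fin n, (2 * (⟪G a, s - c⟫ * m / l) ^ 2 + 2) :=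
                Finset.sum_le_sum fun a _ => floor_sq_le _
            _ = 2 * (m ^ 2 / l ^ 2) * ∑ a, ⟪G a, s - c⟫ ^ 2 + 2 * n := by
                rw [Finset.sum_add_distrib, Finset.mul_sum]
                simp only [Finset.sum_const, Finset.card_univ, Fintype.card_fin, nsmul_eq_mul]
                congr 1
                · refine Finset.sum_congr rfl fun a _ => ?_
                  ring
                · ring
            _ ≤ 2 * (m ^ 2 / l ^ 2) * (6 * n * l ^ 2) + 2 * n := by (clear * - hlt hm hl; gcongr)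
            _ = 12 * n * m ^ 2 + 2 * n := by field_simp; ring
            _ ≤ 14 * n * m ^ 2 := by
                have hm' : (1 : ℝ) ≤ m := by exact_mod_cast hm
                have h0 : (0 : ℝ) ≤ n := by (clear * -; positivity)
                (clear * - h0 hm'; nlinarith [mul_nonneg h0 (by nlinarith : (0 : ℝ) ≤ (m : ℝ) ^ 2 - 1)])
      _ = ENNReal.ofReal (Real.exp (-n)) := by simp only [lintegral_const, measure_univ, mul_one]
  have hB : ∀ b, ((rows E n).prod ν) (Bb b) ≤ t := by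
    intro b
    rw [Measure.prod_apply (hBb b)]
    calc ∫⁻ G, ν (Prod.mk G ⁻¹' Bb b) ∂(rows E n) ≤ ∫⁻ G, t ∂(rows E n) := by
          apply lintegral_mono
          intro G
          by_cases h : ν {s' | f (G, s') = b} < t
          · refine le_trans (measure_mono ?_) h.le
            intro s hs
            exact hs.1
          · have : Prod.mk G ⁻¹' Bb b = ∅ := by
              ext s
              simp only [mem_preimage, mem_empty_iff_false, iff_false]
              intro hs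
              exact h hs.2
            simp only [this, measure_empty]
            exact zero_le
      _ = t := by simp only [lintegral_const, measure_univ, mul_one]
  have hC : (L.card : ℝ≥0∞) * t ≤ ENNReal.ofReal η := by
    rw [ht]
    have : (L.card : ℝ≥0∞) = ENNReal.ofReal (L.card : ℝ) := by simp
    rw [this, ← ENNReal.ofReal_mul (by (clear * -; positivity))]
    apply ENNReal.ofReal_le_ofReal
    have hm' : (0 : ℝ) < m := by exact_mod_cast hm
    calc (L.card : ℝ) * (η * (1 / (Real.exp 14 * (6 * m))) ^ n)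
        ≤ (6 * Real.exp 14 * m) ^ n * (η * (1 / (Real.exp 14 * (6 * m))) ^ n) := by (clear * - hcard hη hm; gcongr)
      _ = η * ((6 * Real.exp 14 * m) * (1 / (Real.exp 14 * (6 * m)))) ^ n := by
          rw [mul_pow (6 * Real.exp 14 * m)]
          ring
      _ = η := by
          have : (6 * Real.exp 14 * m) * (1 / (Real.exp 14 * (6 * m))) = 1 := by
            field_simp
          rw [this, one_pow, mul_one]
  calc _ ≤ ((rows E n).prod ν) ({p | f p ∉ L} ∪ ⋃ b ∈ L, Bb b) := measure_mono hsub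
    _ ≤ ((rows E n).prod ν) {p | f p ∉ L} + ((rows E n).prod ν) (⋃ b ∈ L, Bb b) :=
        measure_union_le _ _
    _ ≤ ENNReal.ofReal (Real.exp (-n)) + ENNReal.ofReal η := by
        gcongr
        refine (measure_biUnion_finset_le L Bb).trans ?_
        refine (Finset.sum_le_sum fun b _ => hB b).trans ?_
        rw [Finset.sum_const, nsmul_eq_mul]
        exact hC
    _ = _ := add_comm _ _

end P309
end
end

section

section

/-!
# P309: Gaussian small ball estimate

`stdGaussian E {x | ∀ i, |⟪x, v i⟫| ≤ η} ≤ ∏ i, η / dist (v i, span (v j : j < i))`.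
-/

open MeasureTheory ProbabilityTheory
open scoped ENNReal NNReal RealInnerProductSpace

namespace P309

variable {E : Type*} [NormedAddCommGroup E] [InnerProductSpace ℝ E] [FiniteDimensional ℝ E]
  [MeasurableSpace E] [BorelSpace E]

/-- Density bound: an interval of length `2η` has Gaussian mass at most `η/σ`. -/
lemma gaussianReal_interval_le (σ : ℝ) (hσ : 0 < σ) (η a : ℝ) (v : ℝ≥0)
    (hv : (v : ℝ) = σ ^ 2) :
    gaussianReal 0 v {y | |y + a| ≤ η} ≤ ENNReal.ofReal η / ENNReal.ofReal σ := by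
  have hv0 : v ≠ 0 := by
    intro h
    rw [h] at hv
    have : 0 < σ ^ 2 := by positivity
    simp only [NNReal.coe_zero] at hv
    linarith
  rw [gaussianReal_apply 0 hv0]
  have hset : {y : ℝ | |y + a| ≤ η} = Set.Icc (-a - η) (-a + η) := by
    ext y
    simp only [Set.mem_ofPred_eq, abs_le, Set.mem_Icc]
    constructor
    · rintro ⟨h1, h2⟩; constructor <;> linarith
    · rintro ⟨h1, h2⟩; constructor <;> linarith
  have hpdf : ∀ y : ℝ, gaussianPDF 0 v y ≤ ENNReal.ofReal (1 / (2 * σ)) := by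
    intro y
    unfold gaussianPDF
    apply ENNReal.ofReal_le_ofReal
    rw [gaussianPDFReal]
    have h1 : Real.exp (-(y - 0) ^ 2 / (2 * (v : ℝ))) ≤ 1 := by
      apply Real.exp_le_one_iff.mpr
      apply div_nonpos_of_nonpos_of_nonneg
      · have := sq_nonneg (y - 0); linarith
      · positivity
    have h2 : 2 * σ ≤ Real.sqrt (2 * Real.pi * v) := by
      rw [hv]
      apply Real.le_sqrt_of_sq_le
      have := Real.pi_gt_three
      nlinarith only [this]
    calc (Real.sqrt (2 * Real.pi * v))⁻¹ * Real.exp (-(y - 0) ^ 2 / (2 * (v : ℝ)))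
        ≤ (Real.sqrt (2 * Real.pi * v))⁻¹ * 1 := by
          apply mul_le_mul_of_nonneg_left h1
          positivity
      _ = (Real.sqrt (2 * Real.pi * v))⁻¹ := mul_one _
      _ ≤ (2 * σ)⁻¹ := by
          apply inv_anti₀ (by positivity) h2
      _ = 1 / (2 * σ) := by rw [one_div]
  calc ∫⁻ y in {y : ℝ | |y + a| ≤ η}, gaussianPDF 0 v y
      ≤ ∫⁻ y in {y : ℝ | |y + a| ≤ η}, ENNReal.ofReal (1 / (2 * σ)) := by
        apply lintegral_mono
        intro y
        exact hpdf y
    _ = ENNReal.ofReal (1 / (2 * σ)) * volume {y : ℝ | |y + a| ≤ η} := by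
        rw [setLIntegral_const]
    _ = ENNReal.ofReal (1 / (2 * σ)) * ENNReal.ofReal (2 * η) := by
        rw [hset, Real.volume_Icc]
        congr 2
        ring
    _ = ENNReal.ofReal η / ENNReal.ofReal σ := by
        rw [← ENNReal.ofReal_mul (by positivity), ← ENNReal.ofReal_div_of_pos hσ]
        congr 1
        field_simp

omit [MeasurableSpace E] [BorelSpace E] in
lemma infDist_eq_norm_sub_starProjection (V : Submodule ℝ E) (u : E) :
    Metric.infDist u (V : Set E) = ‖u - V.starProjection u‖ := by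
  rw [Metric.infDist_eq_iInf, V.starProjection_minimal]
  simp only [dist_eq_norm]
  rfl

/-- One step of the iteration. -/
lemma stdGaussian_inter_le (V : Submodule ℝ E) (A : Set E) (hA : MeasurableSet A)
    (hAV : ∀ x, x ∈ A ↔ V.starProjection x ∈ A) (u : E) (η : ℝ) (hη : 0 < η) :
    stdGaussian E (A ∩ {x | |⟪x, u⟫| ≤ η}) ≤
      stdGaussian E A * (ENNReal.ofReal η / ENNReal.ofReal (Metric.infDist u (V : Set E))) := by
  rw [infDist_eq_norm_sub_starProjection]
  set w : E := u - V.starProjection u with hw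
  by_cases hw0 : w = 0
  · rw [hw0]
    by_cases hA0 : stdGaussian E A = 0
    · rw [hA0, zero_mul]
      exact le_of_le_of_eq (measure_mono Set.inter_subset_left) hA0
    · rw [norm_zero, ENNReal.ofReal_zero, ENNReal.div_zero (by simpa using hη),
        ENNReal.mul_top hA0]
      exact le_top
  · have hw1 : 0 < ‖w‖ := norm_pos_iff.mpr hw0
    set γ := stdGaussian E with hγ
    let X : E →L[ℝ] E := V.starProjection
    let Y : E →L[ℝ] ℝ := innerSL ℝ w
    have hXY : HasGaussianLaw (fun x : E => (X x, Y x)) γ :=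
      (IsGaussian.hasGaussianLaw_id (μ := γ)).map (X.prod Y)
    have hind : IndepFun (fun x : E => X x) (fun x : E => Y x) γ := by
      apply hXY.indepFun_of_covariance_inner
      intro a b
      have h1 : (fun x : E => ⟪a, X x⟫) = fun x : E => ⟪X a, x⟫ := by
        ext x
        simp only [X]
        rw [Submodule.inner_starProjection_left_eq_right]
      have h2 : (fun x : E => ⟪b, Y x⟫) = fun x : E => b * ⟪w, x⟫ := by
        ext x
        simp only [Y, innerSL_apply_apply]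
        simp [mul_comm]
      rw [h1, h2, covariance_const_mul_right]
      have h3 : cov[fun x : E => ⟪X a, x⟫, fun x : E => ⟪w, x⟫; γ] = ⟪X a, w⟫ := by
        rw [← covarianceBilin_apply_eq_cov (IsGaussian.memLp_two_id (μ := γ)) (X a) w, hγ,
          covarianceBilin_stdGaussian]
        rfl
      rw [h3]
      have h4 : ⟪X a, w⟫ = 0 := by
        rw [hw]
        exact V.inner_right_of_mem_orthogonal (V.starProjection_apply_mem a)
          (V.sub_starProjection_mem_orthogonal u)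
      rw [h4, mul_zero]
    have hXm : Measurable (fun x : E => X x) := X.continuous.measurable
    have hYm : Measurable (fun x : E => Y x) := Y.continuous.measurable
    have hmap : γ.map (fun x : E => (X x, Y x)) = (γ.map X).prod (γ.map Y) :=
      hind.map_prod_eq_prod_map_map hXm.aemeasurable hYm.aemeasurable
    have hYlaw : γ.map Y = gaussianReal 0 (‖w‖ ^ 2).toNNReal := by
      rw [IsGaussian.map_eq_gaussianReal Y]
      congr 1
      · rw [hγ]; exact integral_strongDual_stdGaussian Y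
      · rw [hγ, variance_dual_stdGaussian Y]
        simp only [innerSL_apply_norm, Y]
    -- the event
    let B : Set (E × ℝ) := {z | z.1 ∈ A ∧ |z.2 + ⟪z.1, u⟫| ≤ η}
    have hB : MeasurableSet B := by
      have h1 : MeasurableSet {z : E × ℝ | z.1 ∈ A} := measurable_fst hA
      have h2 : MeasurableSet {z : E × ℝ | |z.2 + ⟪z.1, u⟫| ≤ η} :=
        measurableSet_le (by fun_prop) (by fun_prop)
      exact h1.inter h2
    have hev : A ∩ {x | |⟪x, u⟫| ≤ η} = (fun x : E => (X x, Y x)) ⁻¹' B := by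
      ext x
      simp only [Set.mem_inter_iff, Set.mem_ofPred_eq, Set.mem_preimage, B]
      rw [hAV x]
      have : Y x + ⟪X x, u⟫ = ⟪x, u⟫ := by
        simp only [Y, X, innerSL_apply_apply]
        rw [Submodule.inner_starProjection_left_eq_right, real_inner_comm, ← inner_add_right, hw]
        congr 1
        abel
      rw [this]
    rw [hev, ← Measure.map_apply (hXm.prodMk hYm) hB, hmap, Measure.prod_apply hB]
    have hsec : ∀ z : E, (γ.map Y) (Prod.mk z ⁻¹' B) ≤
        A.indicator (fun _ => ENNReal.ofReal η / ENNReal.ofReal ‖w‖) z := by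
      intro z
      by_cases hz : z ∈ A
      · rw [Set.indicator_of_mem hz, hYlaw]
        refine le_trans (measure_mono ?_) (gaussianReal_interval_le ‖w‖ hw1 η ⟪z, u⟫ _ ?_)
        · intro y hy
          exact hy.2
        · exact Real.coe_toNNReal _ (by positivity)
      · rw [Set.indicator_of_notMem hz]
        have : Prod.mk z ⁻¹' B = ∅ := by
          ext y
          simp only [Set.mem_preimage, Set.mem_empty_iff_false, iff_false]
          intro hy
          exact hz hy.1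
        rw [this, measure_empty]
    calc ∫⁻ z, (γ.map Y) (Prod.mk z ⁻¹' B) ∂(γ.map X)
        ≤ ∫⁻ z, A.indicator (fun _ => ENNReal.ofReal η / ENNReal.ofReal ‖w‖) z ∂(γ.map X) :=
          lintegral_mono hsec
      _ = ENNReal.ofReal η / ENNReal.ofReal ‖w‖ * (γ.map X) A := by
          rw [lintegral_indicator hA, setLIntegral_const]
      _ = γ A * (ENNReal.ofReal η / ENNReal.ofReal ‖w‖) := by
          rw [mul_comm, Measure.map_apply (by fun_prop) hA]
          congr 2
          ext x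
          exact (hAV x).symm

end P309
end
end

section

section

/-!
# P309: nets in finite-dimensional normed spaces
-/

open MeasureTheory Metric Set
open scoped ENNReal

namespace P309

variable {V : Type*} [NormedAddCommGroup V] [NormedSpace ℝ V] [FiniteDimensional ℝ V]

/-- Volumetric bound for separated sets. -/
lemma card_separated_le (x0 : V) (R t : ℝ) (ht : 0 < t) (hR : 0 ≤ R) (S : Finset V)
    (hS : ∀ z ∈ S, z ∈ closedBall x0 R) (hsep : ∀ x ∈ S, ∀ y ∈ S, x ≠ y → t < dist x y) :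
    (S.card : ℝ) ≤ (1 + 2 * R / t) ^ (Module.finrank ℝ V) := by
  let _ : MeasurableSpace V := borel V
  have _ : BorelSpace V := ⟨rfl⟩
  set μ : Measure V := Measure.addHaar with hμ
  set k := Module.finrank ℝ V with hk
  have hdisj : (S : Set V).PairwiseDisjoint (fun z => ball z (t / 2)) := by
    intro x hx y hy hxy
    apply ball_disjoint_ball
    have := hsep x hx y hy hxy
    linarith only [this]
  have hsub : (⋃ z ∈ S, ball z (t / 2)) ⊆ ball x0 (R + t / 2) := by
    intro y hy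
    simp only [mem_iUnion, mem_ball] at hy ⊢
    obtain ⟨z, hz, hyz⟩ := hy
    have h1 := hS z hz
    rw [mem_closedBall] at h1
    calc dist y x0 ≤ dist y z + dist z x0 := dist_triangle _ _ _
      _ < R + t / 2 := by linarith only [hyz, h1]
  have h1 : (S.card : ℝ≥0∞) * μ (ball 0 (t / 2)) ≤ μ (ball 0 (R + t / 2)) := by
    calc (S.card : ℝ≥0∞) * μ (ball 0 (t / 2)) = ∑ z ∈ S, μ (ball z (t / 2)) := by
          simp only [Measure.addHaar_ball_center]
          rw [Finset.sum_const, nsmul_eq_mul]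
      _ = μ (⋃ z ∈ S, ball z (t / 2)) := by
          rw [measure_biUnion_finset hdisj (fun z _ => measurableSet_ball)]
      _ ≤ μ (ball x0 (R + t / 2)) := measure_mono hsub
      _ = μ (ball 0 (R + t / 2)) := Measure.addHaar_ball_center _ _ _
  have hpos : 0 < μ (ball (0 : V) 1) := measure_ball_pos _ _ one_pos
  have hfin : μ (ball (0 : V) 1) < ⊤ := measure_ball_lt_top
  rw [Measure.addHaar_ball_of_pos μ 0 (by positivity : 0 < t / 2),
    Measure.addHaar_ball_of_pos μ 0 (by positivity : 0 < R + t / 2), ← mul_assoc] at h1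
  have h2 : (S.card : ℝ≥0∞) * ENNReal.ofReal ((t / 2) ^ k) ≤ ENNReal.ofReal ((R + t / 2) ^ k) :=
    (ENNReal.mul_le_mul_iff_left hpos.ne' hfin.ne).mp h1
  have h3 : (S.card : ℝ) * (t / 2) ^ k ≤ (R + t / 2) ^ k := by
    have e : (S.card : ℝ≥0∞) = ENNReal.ofReal (S.card : ℝ) := by
      rw [ENNReal.ofReal_natCast]
    rw [e, ← ENNReal.ofReal_mul (by (clear * -; positivity))] at h2
    exact (ENNReal.ofReal_le_ofReal_iff (by positivity)).mp h2
  have h4 : (1 + 2 * R / t) ^ k = (R + t / 2) ^ k / (t / 2) ^ k := by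
    rw [← div_pow]
    congr 1
    field_simp
    ring
  rw [h4, le_div_iff₀ (by positivity)]
  exact h3

/-- Existence of finite nets of controlled size. -/
theorem exists_net (x0 : V) (R t : ℝ) (ht : 0 < t) (hR : 0 ≤ R) :
    ∃ S : Finset V, (S.card : ℝ) ≤ (1 + 2 * R / t) ^ (Module.finrank ℝ V) ∧
      (∀ z ∈ S, z ∈ closedBall x0 R) ∧ ∀ x ∈ closedBall x0 R, ∃ z ∈ S, dist x z ≤ t := by
  classical
  let P : ℕ → Prop := fun n => ∃ S : Finset V, S.card = n ∧ (∀ z ∈ S, z ∈ closedBall x0 R) ∧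
    (∀ x ∈ S, ∀ y ∈ S, x ≠ y → t < dist x y)
  set N : ℕ := ⌊(1 + 2 * R / t) ^ (Module.finrank ℝ V)⌋₊ with hN
  have hP0 : P 0 := ⟨∅, by simp only [Finset.card_empty, Finset.notMem_empty, mem_closedBall, IsEmpty.forall_iff, implies_true, ne_eq, and_self]⟩
  have hPN : ∀ n, P n → n ≤ N := by
    rintro n ⟨S, rfl, h1, h2⟩
    exact Nat.le_floor (card_separated_le x0 R t ht hR S h1 h2)
  obtain ⟨S, hcard, hS, hsep⟩ : P (Nat.findGreatest P N) :=
    Nat.findGreatest_spec (P := P) (Nat.zero_le N) hP0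
  refine ⟨S, card_separated_le x0 R t ht hR S hS hsep, hS, ?_⟩
  intro x hx
  by_contra hcon
  push Not at hcon
  have hxS : x ∉ S := by
    intro h
    have := hcon x h
    rw [dist_self] at this
    linarith only [ht, this]
  have hP' : P (Nat.findGreatest P N + 1) := by
    refine ⟨insert x S, ?_, ?_, ?_⟩
    · rw [Finset.card_insert_of_notMem hxS, hcard]
    · intro z hz
      rcases Finset.mem_insert.mp hz with rfl | hz
      · exact hx
      · exact hS z hz
    · intro a ha b hb hab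
      rcases Finset.mem_insert.mp ha with ha1 | ha1 <;> rcases Finset.mem_insert.mp hb with hb1 | hb1
      · exact absurd (ha1.trans hb1.symm) hab
      · rw [ha1]; exact hcon b hb1
      · rw [hb1, dist_comm]; exact hcon a ha1
      · exact hsep a ha1 b hb1 hab
  have := Nat.le_findGreatest (hPN _ hP') hP'
  omega

end P309
end
end

section

section

/-!
# P309: the distance lemma

If `ν` is supported in a ball of radius `σ` and `ν(B(z,r)) ≤ C (r/σ)^m`, then slabs around
subspaces of small dimension have small mass, and `∫ 1/dist(·,V)` is bounded.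
-/

open MeasureTheory Metric Set
open scoped ENNReal RealInnerProductSpace

namespace P309

variable {E : Type*} [NormedAddCommGroup E] [InnerProductSpace ℝ E] [FiniteDimensional ℝ E]
  [MeasurableSpace E] [BorelSpace E]

end P309
end
end

section

section

/-!
# P309: block moment lemma

`n` independent Gaussian rows `G a`, and `j+1` replicas.  For a measure `ν` which is regular
around subspaces of dimension `< j`, a set `S` and the cells `cell r G b`,

`∫ ∑_b ν(S ∩ cell r G b)^(j+1) dG ≤ ν(S) (r^n β K / l^n)^j`.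
-/

open MeasureTheory ProbabilityTheory Metric Set
open scoped ENNReal NNReal RealInnerProductSpace

namespace P309

variable {E : Type*} [NormedAddCommGroup E] [InnerProductSpace ℝ E] [FiniteDimensional ℝ E]
  [MeasurableSpace E] [BorelSpace E]

instance isProbabilityMeasure_rows (n : ℕ) : IsProbabilityMeasure (rows E n) := by
  unfold rows; infer_instance

/-- The cell of signals with label vector in the cube `b`. -/
def cell {n : ℕ} (r : ℝ) (G : Fin n → E) (b : Fin n → ℤ) : Set E :=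
  {s | ∀ a, ⌊⟪G a, s⟫ / r⌋ = b a}

/-- the slab set of `n` rows around `s` -/
lemma measurableSet_slabs {n : ℕ} (s : E) (r : ℝ) :
    MeasurableSet {z : (Fin n → E) × E | ∀ a, |⟪z.1 a, z.2 - s⟫| ≤ r} := by
  have : {z : (Fin n → E) × E | ∀ a, |⟪z.1 a, z.2 - s⟫| ≤ r} =
      ⋂ a, {z : (Fin n → E) × E | |⟪z.1 a, z.2 - s⟫| ≤ r} := by
    ext z; simp only [mem_ofPred_eq, mem_iInter]
  rw [this]
  exact MeasurableSet.iInter fun a => measurableSet_le (by (clear r this; fun_prop)) (by fun_prop)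

lemma block_moment_aux {n : ℕ} (lam : Measure E) [SFinite lam] (s : E) (r : ℝ) (hr : 0 < r)
    (p : ℕ) (B : ℝ≥0∞)
    (hB : ∀ V : Submodule ℝ E, Module.finrank ℝ V < p →
      ∫⁻ s', ((ENNReal.ofReal (infDist (s' - s) (V : Set E)))⁻¹) ^ n ∂lam ≤ B)
    (k : ℕ) : ∀ (V : Submodule ℝ E) (A : Set E), Module.finrank ℝ V + k ≤ p → MeasurableSet A →
      (∀ x, x ∈ A ↔ V.starProjection x ∈ A) →
      ∫⁻ G in {G : Fin n → E | ∀ a, G a ∈ A}, (lam {s' | ∀ a, |⟪G a, s' - s⟫| ≤ r}) ^ k
          ∂(rows E n) ≤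
        (stdGaussian E A) ^ n * ((ENNReal.ofReal r) ^ n * B) ^ k := by
  induction k with
  | zero =>
    intro V A hV hA hAV
    have : {G : Fin n → E | ∀ a, G a ∈ A} = Set.pi univ (fun _ => A) := by
      ext G; simp only [mem_ofPred_eq, mem_pi, mem_univ, forall_const]
    simp only [pow_zero, mul_one, lintegral_const, one_mul, Measure.restrict_apply_univ]
    rw [this, rows, Measure.pi_pi]
    simp only [Finset.prod_const, Finset.card_univ, Fintype.card_fin, Std.le_refl]
  | succ k ih =>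
    intro V A hV hA hAV
    have hmeas := measurableSet_slabs (n := n) s r
    have hslab : Measurable fun G : Fin n → E => lam {s' | ∀ a, |⟪G a, s' - s⟫| ≤ r} :=
      measurable_measure_prodMk_left hmeas
    have hAn : MeasurableSet {G : Fin n → E | ∀ a, G a ∈ A} := by
      have : {G : Fin n → E | ∀ a, G a ∈ A} = Set.pi univ (fun _ => A) := by
        ext G; simp only [mem_ofPred_eq, mem_pi, mem_univ, forall_const]
      rw [this]
      exact MeasurableSet.univ_pi fun _ => hA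
    set F : (Fin n → E) × E → ℝ≥0∞ :=
      {z : (Fin n → E) × E | ∀ a, |⟪z.1 a, z.2 - s⟫| ≤ r}.indicator
          (fun z => (lam {s' | ∀ a, |⟪z.1 a, s' - s⟫| ≤ r}) ^ k) with hFdef
    have hF : Measurable F := by
      apply Measurable.indicator _ hmeas
      exact (hslab.comp measurable_fst).pow_const k
    have h1 : ∀ G : Fin n → E, (lam {s' | ∀ a, |⟪G a, s' - s⟫| ≤ r}) ^ (k + 1) =
        ∫⁻ δ, F (G, δ) ∂lam := by
      intro G
      have : (fun δ => F (G, δ)) = {δ : E | ∀ a, |⟪G a, δ - s⟫| ≤ r}.indicator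
            (fun _ => (lam {s' | ∀ a, |⟪G a, s' - s⟫| ≤ r}) ^ k) := by
        ext δ
        by_cases h : ∀ a, |⟪G a, δ - s⟫| ≤ r
        · rw [hFdef, Set.indicator_of_mem (by exact h), Set.indicator_of_mem (by exact h)]
        · rw [hFdef, Set.indicator_of_notMem (by exact h), Set.indicator_of_notMem (by exact h)]
      have hms : MeasurableSet {δ : E | ∀ a, |⟪G a, δ - s⟫| ≤ r} :=
        measurable_prodMk_left (x := G) hmeas
      rw [this, lintegral_indicator hms, setLIntegral_const, pow_succ]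
    simp_rw [h1]
    rw [lintegral_lintegral_swap (f := fun G δ => F (G, δ)) (by exact hF.aemeasurable)]
    -- bound the inner integral for fixed δ
    have h2 : ∀ δ : E, ∫⁻ G in {G : Fin n → E | ∀ a, G a ∈ A}, F (G, δ) ∂(rows E n) ≤
        ((stdGaussian E A) ^ n * ((ENNReal.ofReal r) ^ n * B) ^ k * (ENNReal.ofReal r) ^ n) *
          ((ENNReal.ofReal (infDist (δ - s) (V : Set E)))⁻¹) ^ n := by
      intro δ
      have hBm : MeasurableSet {x : E | |⟪x, δ - s⟫| ≤ r} :=
        measurableSet_le (by (clear n r hr p B hB k ih V A hV hA hAV hmeas hslab hAn F hFdef hF h1; fun_prop)) (by fun_prop)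
      have hBn : MeasurableSet {G : Fin n → E | ∀ a, |⟪G a, δ - s⟫| ≤ r} := by
        have : {G : Fin n → E | ∀ a, |⟪G a, δ - s⟫| ≤ r} =
            Set.pi univ (fun _ => {x : E | |⟪x, δ - s⟫| ≤ r}) := by
          ext G; simp only [mem_ofPred_eq, mem_pi, mem_univ, forall_const]
        rw [this]
        exact MeasurableSet.univ_pi fun _ => hBm
      have e1 : (fun G => F (G, δ)) = {G : Fin n → E | ∀ a, |⟪G a, δ - s⟫| ≤ r}.indicator
            (fun G => (lam {s' | ∀ a, |⟪G a, s' - s⟫| ≤ r}) ^ k) := by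
        ext G
        by_cases h : ∀ a, |⟪G a, δ - s⟫| ≤ r
        · rw [hFdef, Set.indicator_of_mem (by exact h), Set.indicator_of_mem (by exact h)]
        · rw [hFdef, Set.indicator_of_notMem (by exact h), Set.indicator_of_notMem (by exact h)]
      have e2 : {G : Fin n → E | ∀ a, |⟪G a, δ - s⟫| ≤ r} ∩ {G : Fin n → E | ∀ a, G a ∈ A} =
          {G : Fin n → E | ∀ a, G a ∈ A ∩ {x : E | |⟪x, δ - s⟫| ≤ r}} := by
        ext G
        simp only [Set.mem_inter_iff, Set.mem_ofPred_eq]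
        exact ⟨fun h a => ⟨h.2 a, h.1 a⟩, fun h => ⟨fun a => (h a).2, fun a => (h a).1⟩⟩
      rw [e1, lintegral_indicator hBn, Measure.restrict_restrict hBn, e2]
      set V' : Submodule ℝ E := V ⊔ Submodule.span ℝ {δ - s} with hV'
      have hdim : Module.finrank ℝ V' + k ≤ p := by
        have h3 : Module.finrank ℝ V' ≤ Module.finrank ℝ V + 1 := by
          refine le_trans (Submodule.finrank_add_le_finrank_add_finrank V _) ?_
          have : Module.finrank ℝ (Submodule.span ℝ ({δ - s} : Set E)) ≤ 1 :=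
            (finrank_span_le_card ({δ - s} : Set E)).trans (by simp)
          omega
        omega
      have hAV' : ∀ x, x ∈ A ∩ {x : E | |⟪x, δ - s⟫| ≤ r} ↔
          V'.starProjection x ∈ A ∩ {x : E | |⟪x, δ - s⟫| ≤ r} := by
        intro x
        have e2 : V.starProjection (V'.starProjection x) = V.starProjection x := by
          have h4 : V.starProjection ∘L V'.starProjection = V.starProjection :=
            Submodule.starProjection_comp_starProjection_of_le le_sup_left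
          calc V.starProjection (V'.starProjection x)
              = (V.starProjection ∘L V'.starProjection) x := rfl
            _ = V.starProjection x := by rw [h4]
        have e3 : ⟪V'.starProjection x, δ - s⟫ = ⟪x, δ - s⟫ := by
          rw [Submodule.inner_starProjection_left_eq_right]
          congr 1
          apply Submodule.starProjection_eq_self_iff.mpr
          apply Submodule.mem_sup_right
          exact Submodule.mem_span_singleton_self _
        simp only [Set.mem_inter_iff, Set.mem_ofPred_eq]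
        rw [e3, hAV x, hAV (V'.starProjection x), e2]
      refine le_trans (ih V' _ hdim (hA.inter hBm) hAV') ?_
      have h5 := stdGaussian_inter_le V A hA hAV (δ - s) r hr
      refine le_trans (mul_le_mul_left (pow_le_pow_left' h5 n) _) ?_
      apply le_of_eq
      rw [div_eq_mul_inv, mul_pow, mul_pow]
      ring
    refine le_trans (lintegral_mono h2) ?_
    rw [lintegral_const_mul _ (by (clear r hr p B hB k ih A hV hA hAV hmeas hslab hAn F hFdef hF h1 h2; fun_prop))]
    refine le_trans (mul_le_mul_right (hB V (by omega)) _) ?_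
    apply le_of_eq
    ring

/-- Block version of the moment lemma. -/
theorem block_moment_slab {n : ℕ} (lam : Measure E) [SFinite lam] (s : E) (r : ℝ) (hr : 0 < r)
    (p : ℕ) (B : ℝ≥0∞)
    (hB : ∀ V : Submodule ℝ E, Module.finrank ℝ V < p →
      ∫⁻ s', ((ENNReal.ofReal (infDist (s' - s) (V : Set E)))⁻¹) ^ n ∂lam ≤ B) :
    ∫⁻ G, (lam {s' | ∀ a, |⟪G a, s' - s⟫| ≤ r}) ^ p ∂(rows E n) ≤
        ((ENNReal.ofReal r) ^ n * B) ^ p := by
  have h := block_moment_aux (n := n) lam s r hr p B hB p ⊥ Set.univ (by simp)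
    MeasurableSet.univ (by simp only [mem_univ, Submodule.starProjection_bot, zero_apply, implies_true])
  simpa only [ge_iff_le, mem_univ, implies_true, ofPred_true, Measure.restrict_univ, measure_univ, one_pow,     one_mul] using h

end P309
end
end

section

section

/-!
# P309: the replica moment bound (`block_moment`)
-/

open MeasureTheory ProbabilityTheory Metric Set
open scoped ENNReal NNReal RealInnerProductSpace

namespace P309

variable {E : Type*} [NormedAddCommGroup E] [InnerProductSpace ℝ E] [FiniteDimensional ℝ E]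
  [MeasurableSpace E] [BorelSpace E]

omit [BorelSpace E] in
/-- mass of neighbourhoods of affine subspaces, in terms of the largest mass of a ball -/
theorem slab_mass_le_of_sup (ν : Measure E) (z0 : E) (σ : ℝ) (hσ : 0 < σ)
    (hsupp : ν (closedBall z0 σ)ᶜ = 0)
    (V : Submodule ℝ E) (s : E) (t : ℝ) (ht : 0 < t) (ht1 : t ≤ 1) (M : ℝ≥0∞)
    (hM : ∀ w : E, ν (closedBall w (2 * t * σ)) ≤ M) :
    ν {s' | infDist (s' - s) (V : Set E) ≤ t * σ} ≤
      ENNReal.ofReal ((3 / t) ^ (Module.finrank ℝ V)) * M := by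
  classical
  set P := V.orthogonalProjectionOnto with hP
  obtain ⟨S, hcard, hS, hnet⟩ := exists_net (V := V) (P (z0 - s)) σ (t * σ) (by positivity) hσ.le
  have hsub : {s' | infDist (s' - s) (V : Set E) ≤ t * σ} ⊆
      (closedBall z0 σ)ᶜ ∪ ⋃ z ∈ S, closedBall (s + (z : E)) (2 * t * σ) := by
    intro s' hs'
    by_cases hb : s' ∈ closedBall z0 σ
    · right
      rw [mem_ofPred_eq, infDist_eq_norm_sub_starProjection] at hs'
      have h1 : P (s' - s) ∈ closedBall (P (z0 - s)) σ := by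
        rw [mem_closedBall, dist_eq_norm, ← map_sub]
        refine le_trans (V.norm_orthogonalProjectionOnto_apply_le _) ?_
        rw [mem_closedBall, dist_eq_norm] at hb
        simpa using hb
      obtain ⟨z, hz, hdz⟩ := hnet _ h1
      simp only [mem_iUnion]
      refine ⟨z, hz, ?_⟩
      rw [mem_closedBall, dist_eq_norm]
      have h2 : ‖(P (s' - s) : E) - (z : E)‖ ≤ t * σ := by
        rw [dist_eq_norm] at hdz
        exact hdz
      have h3 : s' - (s + (z : E)) = (s' - s - V.starProjection (s' - s)) +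
          ((P (s' - s) : E) - (z : E)) := by
        have : V.starProjection (s' - s) = (P (s' - s) : E) := rfl
        rw [this]
        abel
      rw [h3]
      refine le_trans (norm_add_le _ _) ?_
      (clear ν z0 hσ hsupp ht ht1 M hM hP S hcard hS hnet hb h1 hz h3; linarith)
    · left; exact hb
  have h1 : ν {s' | infDist (s' - s) (V : Set E) ≤ t * σ} ≤
      ∑ z ∈ S, ν (closedBall (s + (z : E)) (2 * t * σ)) := by
    calc ν {s' | infDist (s' - s) (V : Set E) ≤ t * σ}
        ≤ ν ((closedBall z0 σ)ᶜ ∪ ⋃ z ∈ S, closedBall (s + (z : E)) (2 * t * σ)) :=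
          measure_mono hsub
      _ ≤ ν (closedBall z0 σ)ᶜ + ν (⋃ z ∈ S, closedBall (s + (z : E)) (2 * t * σ)) :=
          measure_union_le _ _
      _ = ν (⋃ z ∈ S, closedBall (s + (z : E)) (2 * t * σ)) := by rw [hsupp, zero_add]
      _ ≤ _ := measure_biUnion_finset_le _ _
  refine le_trans h1 ?_
  refine le_trans (Finset.sum_le_sum fun z _ => hM _) ?_
  rw [Finset.sum_const, nsmul_eq_mul]
  have e : (S.card : ℝ≥0∞) = ENNReal.ofReal (S.card : ℝ) := by rw [ENNReal.ofReal_natCast]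
  rw [e]
  apply mul_le_mul_left
  apply ENNReal.ofReal_le_ofReal
  refine le_trans hcard ?_
  apply pow_le_pow_left₀ (by positivity)
  have : 2 * σ / (t * σ) = 2 / t := by field_simp
  rw [this, ← sub_nonneg]
  have : 3 / t - (1 + 2 / t) = (1 - t) / t := by field_simp; ring
  rw [this]
  apply div_nonneg _ ht.le
  linarith only [ht1]

/-- pointwise dyadic layer-cake bound for powers -/
lemma inv_pow_le_tsum (q : ℕ) (a T : ℝ) (hT : 0 < T) (ha : 0 ≤ a) :
    ((ENNReal.ofReal a)⁻¹) ^ q ≤ ENNReal.ofReal ((1 / T) ^ q) +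
      ∑' k : ℕ, (if a ≤ T / 2 ^ k then ENNReal.ofReal ((2 ^ (k + 1) / T) ^ q) else 0) := by
  rcases lt_or_ge a T with h | h
  · rcases ha.eq_or_lt with h0 | h0
    · -- a = 0 : the series diverges
      have : ∑' k : ℕ, (if a ≤ T / 2 ^ k then ENNReal.ofReal ((2 ^ (k + 1) / T) ^ q) else 0)
          = ⊤ := by
        rw [eq_top_iff, ← ENNReal.tsum_const_eq_top_of_ne_zero (α := ℕ)
          (c := ENNReal.ofReal ((1 / T) ^ q)) (by simpa only [one_div, inv_pow, ne_eq, ENNReal.ofReal_eq_zero, inv_nonpos, not_le] using by positivity)]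
        apply ENNReal.tsum_le_tsum
        intro k
        rw [if_pos (by rw [← h0]; positivity)]
        apply ENNReal.ofReal_le_ofReal
        apply pow_le_pow_left₀ (by positivity)
        apply div_le_div_of_nonneg_right _ hT.le
        exact one_le_pow₀ (by norm_num)
      rw [this]
      simp only [one_div, inv_pow, add_top, le_top]
    · -- choose k with T/2^(k+1) < a ≤ T/2^k
      obtain ⟨k, hk1, hk2⟩ : ∃ k : ℕ, a ≤ T / 2 ^ k ∧ T / 2 ^ (k + 1) < a := by
        have hex : ∃ k : ℕ, T / 2 ^ (k + 1) < a := by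
          obtain ⟨n, hn⟩ := pow_unbounded_of_one_lt (T / a) (by norm_num : (1 : ℝ) < 2)
          refine ⟨n, ?_⟩
          rw [div_lt_iff₀ (by positivity)]
          rw [div_lt_iff₀ h0] at hn
          have : (2 : ℝ) ^ n ≤ 2 ^ (n + 1) := pow_le_pow_right₀ (by norm_num) (by omega)
          nlinarith only [hn, ha, this]
        classical
        refine ⟨Nat.find hex, ?_, Nat.find_spec hex⟩
        rcases Nat.eq_zero_or_pos (Nat.find hex) with h1 | h1
        · rw [h1]; simpa using h.le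
        · have := Nat.find_min hex (m := Nat.find hex - 1) (by omega)
          have e : Nat.find hex - 1 + 1 = Nat.find hex := by omega
          rw [e] at this
          exact not_lt.mp this
      refine le_trans ?_ le_add_self
      refine le_trans ?_ (ENNReal.le_tsum k)
      rw [if_pos hk1, ← ENNReal.ofReal_inv_of_pos h0, ← ENNReal.ofReal_pow (by positivity)]
      apply ENNReal.ofReal_le_ofReal
      apply pow_le_pow_left₀ (by positivity)
      rw [inv_eq_one_div, div_le_div_iff₀ h0 hT]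
      rw [div_lt_iff₀ (by positivity)] at hk2
      nlinarith only [hk2]
  · refine le_trans ?_ le_self_add
    rw [← ENNReal.ofReal_inv_of_pos (by linarith), ← ENNReal.ofReal_pow (by
      have : 0 < a := by linarith
      positivity)]
    apply ENNReal.ofReal_le_ofReal
    apply pow_le_pow_left₀ (by
      have : 0 < a := by linarith
      positivity)
    rw [inv_eq_one_div]
    exact one_div_le_one_div_of_le hT h

/-- Negative moments of the distance to a subspace, for dyadically regular measures. -/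
theorem lintegral_inv_infDist_pow_le (n : ℕ) (hn : 1 ≤ n) (ν : Measure E)
    [IsProbabilityMeasure ν] (c : E) (l : ℝ) (hl : 0 < l) (hsupp : ν (closedBall c l)ᶜ = 0)
    (A : ℝ) (hA : 1 ≤ A)
    (hreg : ∀ (w : E) (i : ℕ), ν (closedBall w ((1 / 2) ^ i * l)) ≤
      ENNReal.ofReal (A * (1 / 2) ^ ((3 * n + 1) * i)))
    (V : Submodule ℝ E) (hV : Module.finrank ℝ V < n) (s : E) :
    ∫⁻ s', ((ENNReal.ofReal (infDist (s' - s) (V : Set E)))⁻¹) ^ (2 * n) ∂ν ≤
      ENNReal.ofReal (A * 8 * 96 ^ n) * ENNReal.ofReal (1 / l) ^ (2 * n) := by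
  have hmeas : ∀ k : ℕ, MeasurableSet {s' : E | infDist (s' - s) (V : Set E) ≤ l / 2 ^ k} := by
    intro k
    exact measurableSet_le (by (clear n hn c l hl hsupp A hA hreg hV k; fun_prop)) (by fun_prop)
  obtain ⟨n', rfl⟩ : ∃ n', n = n' + 1 := ⟨n - 1, by omega⟩
  set v := Module.finrank ℝ V with hv
  have hmass : ∀ k : ℕ, ν {s' : E | infDist (s' - s) (V : Set E) ≤ l / 2 ^ k} ≤
      ENNReal.ofReal ((3 * 2 ^ k) ^ n' * (A * 2 ^ (3 * (n' + 1) + 1) *
        (1 / 2 ^ k) ^ (3 * (n' + 1) + 1))) := by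
    intro k
    have e : l / 2 ^ k = (1 / 2 ^ k) * l := by ring
    have hM : ∀ w : E, ν (closedBall w (2 * (1 / 2 ^ k) * l)) ≤
        ENNReal.ofReal (A * 2 ^ (3 * (n' + 1) + 1) * (1 / 2 ^ k) ^ (3 * (n' + 1) + 1)) := by
      intro w
      rcases Nat.eq_zero_or_pos k with h0 | h0
      · subst h0
        refine le_trans prob_le_one ?_
        rw [← ENNReal.ofReal_one]
        apply ENNReal.ofReal_le_ofReal
        simp only [pow_zero, div_one, one_pow, mul_one]
        have : (1 : ℝ) ≤ 2 ^ (3 * (n' + 1) + 1) := one_le_pow₀ (by norm_num)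
        nlinarith only [hA, this]
      · obtain ⟨k', rfl⟩ : ∃ k', k = k' + 1 := ⟨k - 1, by omega⟩
        have e1 : 2 * (1 / 2 ^ (k' + 1)) * l = (1 / 2) ^ k' * l := by
          rw [pow_succ, one_div_pow]; field_simp
        rw [e1]
        refine le_trans (hreg w k') (le_of_eq ?_)
        congr 1
        rw [mul_assoc, ← mul_pow]
        congr 1
        rw [mul_comm (3 * (n' + 1) + 1) k', pow_mul]
        congr 1
        rw [pow_succ, one_div_pow]; field_simp
    rw [e]
    refine le_trans (slab_mass_le_of_sup ν c l hl hsupp V s (1 / 2 ^ k) (by positivity)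
      (div_le_self zero_le_one (one_le_pow₀ (by norm_num))) _ hM) ?_
    rw [← ENNReal.ofReal_mul (by positivity)]
    apply ENNReal.ofReal_le_ofReal
    have e2 : (3 / (1 / (2 : ℝ) ^ k)) = 3 * 2 ^ k := by field_simp
    rw [e2]
    gcongr
    · have : (1 : ℝ) ≤ 2 ^ k := one_le_pow₀ (by norm_num)
      linarith only [this]
    · omega
  calc ∫⁻ s', ((ENNReal.ofReal (infDist (s' - s) (V : Set E)))⁻¹) ^ (2 * (n' + 1)) ∂ν
      ≤ ∫⁻ s', (ENNReal.ofReal ((1 / l) ^ (2 * (n' + 1))) +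
        ∑' k : ℕ, (if infDist (s' - s) (V : Set E) ≤ l / 2 ^ k then
          ENNReal.ofReal ((2 ^ (k + 1) / l) ^ (2 * (n' + 1))) else 0)) ∂ν :=
        lintegral_mono fun s' => inv_pow_le_tsum _ _ _ hl infDist_nonneg
    _ = ENNReal.ofReal ((1 / l) ^ (2 * (n' + 1))) +
        ∑' k : ℕ, ENNReal.ofReal ((2 ^ (k + 1) / l) ^ (2 * (n' + 1))) *
          ν {s' : E | infDist (s' - s) (V : Set E) ≤ l / 2 ^ k} := by
        rw [lintegral_add_left measurable_const, lintegral_const, lintegral_tsum, measure_univ,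
          mul_one]
        · congr 1
          apply tsum_congr
          intro k
          have : (fun s' : E => if infDist (s' - s) (V : Set E) ≤ l / 2 ^ k then
              ENNReal.ofReal ((2 ^ (k + 1) / l) ^ (2 * (n' + 1))) else 0) =
              {s' : E | infDist (s' - s) (V : Set E) ≤ l / 2 ^ k}.indicator
                (fun _ => ENNReal.ofReal ((2 ^ (k + 1) / l) ^ (2 * (n' + 1)))) := by
            ext s'
            simp only [indicator, mem_ofPred_eq]
          rw [this, lintegral_indicator (hmeas k), setLIntegral_const]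
        · intro k
          exact (Measurable.ite (hmeas k) measurable_const measurable_const).aemeasurable
    _ ≤ ENNReal.ofReal ((1 / l) ^ (2 * (n' + 1))) +
        ∑' k : ℕ, ENNReal.ofReal (((1 / l) ^ (2 * (n' + 1)) *
          (A * 64 * 96 ^ n')) * (1 / 4) ^ k) := by
        gcongr with k
        refine le_trans (mul_le_mul_right (hmass k) _) ?_
        rw [← ENNReal.ofReal_mul (by positivity)]
        apply le_of_eq
        congr 1
        have hk4 : (1 / 4 : ℝ) ^ k = (1 / 2 ^ k) * (1 / 2 ^ k) := by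
          have : (1 / 4 : ℝ) = (1 / 2) * (1 / 2) := by norm_num
          rw [this, mul_pow, one_div_pow]
        have e96 : (96 : ℝ) ^ n' = 2 ^ (2 * n') * 3 ^ n' * 2 ^ (3 * n') := by
          rw [pow_mul, pow_mul, ← mul_pow, ← mul_pow]; norm_num
        rw [hk4, e96]
        set x : ℝ := 2 ^ k with hx
        have hx0 : x ≠ 0 := by positivity
        rw [pow_succ (2 : ℝ) k, ← hx]
        have l0 : l ≠ 0 := hl.ne'
        have e3 : 2 * (n' + 1) = 2 * n' + 2 := by ring
        have e4 : 3 * (n' + 1) + 1 = 3 * n' + 4 := by ring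
        rw [e3, e4]
        have e5 : 3 * n' = 2 * n' + n' := by ring
        rw [e5]
        simp only [div_pow, mul_pow, pow_add, one_pow]
        field_simp
        ring
    _ = ENNReal.ofReal ((1 / l) ^ (2 * (n' + 1))) +
        ENNReal.ofReal (((1 / l) ^ (2 * (n' + 1)) * (A * 64 * 96 ^ n')) * (4 / 3)) := by
        rw [← ENNReal.ofReal_tsum_of_nonneg]
        · rw [tsum_mul_left, tsum_geometric_of_lt_one (by norm_num) (by norm_num)]
          norm_num
        · intro k; positivity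
        · apply Summable.mul_left
          exact summable_geometric_of_lt_one (by norm_num) (by norm_num)
    _ ≤ ENNReal.ofReal (A * 8 * 96 ^ (n' + 1)) * ENNReal.ofReal (1 / l) ^ (2 * (n' + 1)) := by
        rw [← ENNReal.ofReal_add (by positivity) (by positivity),
          ← ENNReal.ofReal_pow (by positivity), ← ENNReal.ofReal_mul (by positivity)]
        apply ENNReal.ofReal_le_ofReal
        have h96 : (1 : ℝ) ≤ 96 ^ n' := one_le_pow₀ (by norm_num)
        have hA96 : (1 : ℝ) ≤ A * 96 ^ n' := by nlinarith only [hA, h96]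
        have hp : 0 ≤ (1 / l) ^ (2 * (n' + 1)) := by positivity
        calc (1 / l) ^ (2 * (n' + 1)) + (1 / l) ^ (2 * (n' + 1)) * (A * 64 * 96 ^ n') * (4 / 3)
            = (1 / l) ^ (2 * (n' + 1)) * (1 + (256 / 3) * (A * 96 ^ n')) := by ring
          _ ≤ (1 / l) ^ (2 * (n' + 1)) * (768 * (A * 96 ^ n')) := by
              apply mul_le_mul_of_nonneg_left _ hp
              linarith only [hA96]
          _ = A * 8 * 96 ^ (n' + 1) * (1 / l) ^ (2 * (n' + 1)) := by
              rw [pow_succ (96 : ℝ) n']; ring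

/-- replica moment bound, stated for a finite measure `ν` of
mass at most one which is regular, and a small set `S`. -/
theorem block_moment (n : ℕ) (hn : 1 ≤ n) (ν : Measure E) [IsProbabilityMeasure ν] (c : E)
    (l : ℝ) (hl : 0 < l) (hsupp : ν (closedBall c l)ᶜ = 0) (A : ℝ) (hA : 1 ≤ A)
    (hreg : ∀ (w : E) (i : ℕ), ν (closedBall w ((1 / 2) ^ i * l)) ≤
      ENNReal.ofReal (A * (1 / 2) ^ ((3 * n + 1) * i)))
    (S : Set E) (hS : MeasurableSet S) (r : ℝ) (hr : 0 < r) :
    ∫⁻ s in S, ∫⁻ G, (ν (S ∩ {s' | ∀ a, |⟪G a, s' - s⟫| ≤ r})) ^ n ∂(rows E n) ∂ν ≤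
      ν S * (ENNReal.ofReal (r / l) ^ n *
        (ENNReal.ofReal A * 8 * 96 ^ n * ν S) ^ (1 / 2 : ℝ)) ^ n := by
  set B : ℝ≥0∞ := ENNReal.ofReal (1 / l) ^ n *
    (ENNReal.ofReal A * 8 * 96 ^ n * ν S) ^ (1 / 2 : ℝ) with hB
  have hc : ENNReal.ofReal (A * 8 * 96 ^ n) = ENNReal.ofReal A * 8 * 96 ^ n := by
    rw [ENNReal.ofReal_mul (by positivity), ENNReal.ofReal_mul (by positivity),
      ENNReal.ofReal_pow (by positivity)]
    norm_num
  have hBV : ∀ (s : E) (V : Submodule ℝ E), Module.finrank ℝ V < n →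
      ∫⁻ s', ((ENNReal.ofReal (infDist (s' - s) (V : Set E)))⁻¹) ^ n ∂(ν.restrict S) ≤ B := by
    intro s V hV
    have hf : Measurable fun s' : E => ((ENNReal.ofReal (infDist (s' - s) (V : Set E)))⁻¹) ^ n := by
      (clear hn c l hl hsupp A hA hreg S hS r hr B hB hc hV; fun_prop)
    have h := ENNReal.lintegral_mul_le_Lp_mul_Lq (ν.restrict S) Real.HolderConjugate.two_two
      (f := fun _ => 1) (g := fun s' : E => ((ENNReal.ofReal (infDist (s' - s) (V : Set E)))⁻¹) ^ n)
      aemeasurable_const hf.aemeasurable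
    simp only [Pi.mul_apply, one_mul, lintegral_const, Measure.restrict_apply_univ,
      ENNReal.rpow_two, one_pow] at h
    refine le_trans h ?_
    have h2 : ∫⁻ s' in S, (((ENNReal.ofReal (infDist (s' - s) (V : Set E)))⁻¹) ^ n) ^ 2 ∂ν ≤
        ENNReal.ofReal (A * 8 * 96 ^ n) * (ENNReal.ofReal (1 / l) ^ n) ^ 2 := by
      refine le_trans (setLIntegral_le_lintegral _ _) ?_
      have h3 := lintegral_inv_infDist_pow_le n hn ν c l hl hsupp A hA hreg V hV s
      calc ∫⁻ s', (((ENNReal.ofReal (infDist (s' - s) (V : Set E)))⁻¹) ^ n) ^ 2 ∂ν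
          = ∫⁻ s', ((ENNReal.ofReal (infDist (s' - s) (V : Set E)))⁻¹) ^ (2 * n) ∂ν := by
            apply lintegral_congr
            intro s'
            rw [← pow_mul, mul_comm]
        _ ≤ _ := h3
        _ = _ := by rw [← pow_mul, mul_comm n 2]
    calc (ν S) ^ (1 / 2 : ℝ) *
          (∫⁻ s' in S, (((ENNReal.ofReal (infDist (s' - s) (V : Set E)))⁻¹) ^ n) ^ 2 ∂ν) ^
            (1 / 2 : ℝ)
        ≤ (ν S) ^ (1 / 2 : ℝ) *
          (ENNReal.ofReal (A * 8 * 96 ^ n) * (ENNReal.ofReal (1 / l) ^ n) ^ 2) ^ (1 / 2 : ℝ) := by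
          (clear * - h2; gcongr)
      _ = B := by
          rw [hB, hc, ENNReal.mul_rpow_of_nonneg _ _ (by norm_num : (0 : ℝ) ≤ 1 / 2),
            ENNReal.mul_rpow_of_nonneg _ (ν S) (by norm_num : (0 : ℝ) ≤ 1 / 2)]
          have : ((ENNReal.ofReal (1 / l) ^ n) ^ 2) ^ (1 / 2 : ℝ) = ENNReal.ofReal (1 / l) ^ n := by
            rw [← ENNReal.rpow_natCast _ 2, ← ENNReal.rpow_mul]
            norm_num
          rw [this]
          ring
  have hmS : ∀ (s : E) (G : Fin n → E), ν (S ∩ {s' | ∀ a, |⟪G a, s' - s⟫| ≤ r}) =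
      ν.restrict S {s' | ∀ a, |⟪G a, s' - s⟫| ≤ r} := by
    intro s G
    have hms : MeasurableSet {δ : E | ∀ a, |⟪G a, δ - s⟫| ≤ r} :=
      measurable_prodMk_left (x := G) (measurableSet_slabs (n := n) s r)
    rw [Measure.restrict_apply hms, Set.inter_comm]
  calc ∫⁻ s in S, ∫⁻ G, (ν (S ∩ {s' | ∀ a, |⟪G a, s' - s⟫| ≤ r})) ^ n ∂(rows E n) ∂ν
      ≤ ∫⁻ s in S, ((ENNReal.ofReal r) ^ n * B) ^ n ∂ν := by
        apply lintegral_mono
        intro s
        simp_rw [hmS]
        exact block_moment_slab (ν.restrict S) s r hr n B (hBV s)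
    _ = ν S * ((ENNReal.ofReal r) ^ n * B) ^ n := by
        rw [setLIntegral_const, mul_comm]
    _ = _ := by
        rw [hB, ← mul_assoc, ← mul_pow, ← ENNReal.ofReal_mul hr.le, mul_one_div]

end P309
end
end

section

section

/-!
# P309: Lemma P of the block proof (abstract form)

One block of samples: the posterior masses `∫ φ z (ω, s) dP(ω)` are approximated from below by
functions `g z` with small suprema.
-/

open MeasureTheory Set
open scoped ENNReal

namespace P309

variable {Ω E ι ζ : Type*} [MeasurableSpace Ω] [MeasurableSpace E] [Countable ι]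
  [MeasurableSpace ι] [MeasurableSingletonClass ι] [Fintype ζ]

/-- decomposition of an integral along a countable measurable partition -/
theorem lintegral_comp_cell (ν : Measure E) (c : E → ι) (hc : Measurable c) (u : ι → ℝ≥0∞)
    (S : Set E) :
    ∫⁻ s in S, u (c s) ∂ν = ∑' b, u b * ν (S ∩ {s | c s = b}) := by
  have hu : Measurable u := measurable_of_countable u
  rw [← lintegral_map' (f := u) hu.aemeasurable hc.aemeasurable, lintegral_countable']
  refine tsum_congr fun b => ?_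
  rw [Measure.map_apply hc (measurableSet_singleton b), Measure.restrict_apply
    (hc (measurableSet_singleton b)), Set.inter_comm]
  rfl

/-- mass of the cell `b` inside `S` -/
noncomputable def cellMass (ν : Measure E) (cell : Ω × E → ι) (S : Set E) (q : Ω × ι) : ℝ≥0∞ :=
  ν (S ∩ {s | cell (q.1, s) = q.2})

theorem measurable_cellMass (ν : Measure E) [SFinite ν] (cell : Ω × E → ι) (hcell : Measurable cell)
    (S : Set E) (hS : MeasurableSet S) : Measurable (cellMass ν cell S) := by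
  apply measurable_from_prod_countable_left
  intro b
  have hm : MeasurableSet {p : Ω × E | p.2 ∈ S ∧ cell p = b} :=
    (measurable_snd hS).inter (hcell (measurableSet_singleton b))
  have h1 := measurable_measure_prodMk_left (ν := ν) hm
  exact h1

/-- **Abstract Lemma P.** -/
theorem one_block_abstract (P : Measure Ω) [IsProbabilityMeasure P] (ν : Measure E)
    [IsProbabilityMeasure ν] (cell : Ω × E → ι) (hcell : Measurable cell)
    (φ : ζ → Ω × E → ℝ≥0∞) (hφ : ∀ z, Measurable (φ z)) (hsum : ∀ p, ∑ z, φ z p ≤ 1)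
    (k : ζ → Ω × ι → ℝ≥0∞) (hk : ∀ z, Measurable (k z)) (hk1 : ∀ z p, k z p ≤ 1)
    (η δ τ Λ Mom : ℝ≥0∞) (j : ℕ)
    (h1 : ∑ z, ∫⁻ p, (φ z p - k z (p.1, cell p)) ∂(P.prod ν) ≤ η)
    (h2 : ∑ z, ∫⁻ p, (k z (p.1, cell p) - φ z p) ∂(P.prod ν) ≤ η)
    (hη1 : η ≤ 1) (hη0 : η ≠ 0) (hτ0 : τ ≠ 0) (hτt : τ ≠ ⊤)
    (mass : (P.prod ν) {p | ν {s | cell (p.1, s) = cell p} < τ} ≤ η + δ)
    (hΛ : Λ ≠ 0) (hΛt : Λ ≠ ⊤)
    (moment : ∀ S, MeasurableSet S → ν S ≤ Λ⁻¹ →
      ∫⁻ s in S, ∫⁻ ω, ν (S ∩ {s' | cell (ω, s') = cell (ω, s)}) ^ j ∂P ∂ν ≤ Mom)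
    (hM : Fintype.card ζ * ((η * τ)⁻¹ ^ j * Mom) ≤ η) :
    ∃ (g : ζ → E → ℝ≥0∞) (D : ζ → ℝ≥0∞), (∀ z, Measurable (g z)) ∧
      (∀ z s, g z s ≤ ∫⁻ ω, φ z (ω, s) ∂P) ∧ (∀ z s, g z s ≤ D z) ∧ (∑ z, D z ≤ 2 * Λ) ∧
      ∑ z, ∫⁻ p, φ z p ∂(P.prod ν) ≤ ∑ z, ∫⁻ s, g z s ∂ν + 5 * η + δ := by
  classical
  have hηt : η ≠ ⊤ := ne_top_of_le_ne_top ENNReal.one_ne_top hη1
  set m : Ω × ι → ℝ≥0∞ := cellMass ν cell univ with hm
  have hmm : Measurable m := measurable_cellMass ν cell hcell univ MeasurableSet.univ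
  have hcell1 : Measurable (fun p : Ω × E => (p.1, cell p)) := measurable_fst.prodMk hcell
  -- truncated kernels
  set kk : ζ → Ω × ι → ℝ≥0∞ := fun z q => if τ ≤ m q then k z q else 0 with hkk
  have hkkm : ∀ z, Measurable (kk z) := fun z =>
    Measurable.ite (measurableSet_le measurable_const hmm) (hk z) measurable_const
  have hkkle : ∀ z q, kk z q ≤ k z q := by
    intro z q
    simp only [hkk]
    split_ifs
    · exact le_rfl
    · exact zero_le
  have hkk1 : ∀ z q, kk z q ≤ 1 := fun z q => (hkkle z q).trans (hk1 z q)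
  set kc : ζ → Ω × E → ℝ≥0∞ := fun z p => kk z (p.1, cell p) with hkc
  have hkcm : ∀ z, Measurable (kc z) := fun z => (hkkm z).comp hcell1
  set h : ζ → E → ℝ≥0∞ := fun z s => ∫⁻ ω, kc z (ω, s) ∂P with hh
  have hhm : ∀ z, Measurable (h z) := fun z => (hkcm z).lintegral_prod_left'
  set Pz : ζ → ℝ≥0∞ := fun z => ∫⁻ s, h z s ∂ν with hPz
  have hPz' : ∀ z, Pz z = ∫⁻ p, kc z p ∂(P.prod ν) := by
    intro z
    rw [lintegral_prod_symm' _ (hkcm z)]
  have hPz1 : ∀ z, Pz z ≤ 1 := by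
    intro z
    rw [hPz']
    calc ∫⁻ p, kc z p ∂(P.prod ν) ≤ ∫⁻ _, 1 ∂(P.prod ν) := lintegral_mono fun p => hkk1 z _
      _ = 1 := by simp only [lintegral_const, measure_univ, mul_one]
  set S : ζ → Set E := fun z => {s | Λ * Pz z < h z s} with hS
  have hSm : ∀ z, MeasurableSet (S z) := fun z => measurableSet_lt measurable_const (hhm z)
  have hmin : ∀ z, Measurable fun p : Ω × E => min (φ z p) (kc z p) := fun z =>
    (hφ z).min (hkcm z)
  set g : ζ → E → ℝ≥0∞ := fun z s =>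
    if s ∈ S z then 0 else ∫⁻ ω, min (φ z (ω, s)) (kc z (ω, s)) ∂P with hg
  have hgm : ∀ z, Measurable (g z) := fun z =>
    Measurable.ite (hSm z) measurable_const (hmin z).lintegral_prod_left'
  have hPsum : ∑ z, Pz z ≤ 2 := by
    calc ∑ z, Pz z = ∑ z, ∫⁻ p, kc z p ∂(P.prod ν) := Finset.sum_congr rfl fun z _ => hPz' z
      _ ≤ ∑ z, ∫⁻ p, (φ z p + (k z (p.1, cell p) - φ z p)) ∂(P.prod ν) :=
          Finset.sum_le_sum fun z _ => lintegral_mono fun p =>
            (hkkle z _).trans le_add_tsub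
      _ = ∑ z, ∫⁻ p, φ z p ∂(P.prod ν) +
            ∑ z, ∫⁻ p, (k z (p.1, cell p) - φ z p) ∂(P.prod ν) := by
          rw [← Finset.sum_add_distrib]
          exact Finset.sum_congr rfl fun z _ => lintegral_add_left (hφ z) _
      _ ≤ 1 + 1 := by
          refine add_le_add ?_ (h2.trans hη1)
          rw [← lintegral_finsetSum' _ fun z _ => (hφ z).aemeasurable]
          calc ∫⁻ p, ∑ z, φ z p ∂(P.prod ν) ≤ ∫⁻ _, 1 ∂(P.prod ν) := lintegral_mono hsum
            _ = 1 := by simp only [lintegral_const, measure_univ, mul_one]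
      _ = 2 := by norm_num
  -- Markov
  have hνS : ∀ z, ν (S z) ≤ Λ⁻¹ := by
    intro z
    by_cases h0 : Pz z = 0
    · have h3 : ν (S z) = 0 := by
        have h4 : h z =ᵐ[ν] 0 := (lintegral_eq_zero_iff (hhm z)).1 h0
        refine measure_mono_null ?_ h4
        intro s hs
        simp only [hS, mem_ofPred_eq, h0, mul_zero] at hs
        simp only [mem_compl_iff, mem_ofPred_eq, Pi.zero_apply]
        exact hs.ne'
      rw [h3]
      exact zero_le
    · have h3 : Λ * Pz z * ν (S z) ≤ Pz z := by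
        calc Λ * Pz z * ν (S z) ≤ Λ * Pz z * ν {s | Λ * Pz z ≤ h z s} := by
              gcongr
              intro s hs
              have hs' : Λ * Pz z < h z s := hs
              exact hs'.le
          _ ≤ ∫⁻ s, h z s ∂ν := mul_meas_ge_le_lintegral (hhm z) _
          _ = Pz z := rfl
      have h5 : Λ * ν (S z) ≤ 1 := by
        have h6 : Pz z * (Λ * ν (S z)) ≤ Pz z * 1 := by
          calc Pz z * (Λ * ν (S z)) = Λ * Pz z * ν (S z) := by ring
            _ ≤ Pz z := h3
            _ = Pz z * 1 := (mul_one _).symm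
        exact (ENNReal.mul_le_mul_iff_right h0
          (ne_top_of_le_ne_top ENNReal.one_ne_top (hPz1 z))).1 h6
      rw [ENNReal.le_inv_iff_mul_le]
      rw [mul_comm]
      exact h5
  refine ⟨g, fun z => Λ * Pz z, hgm, ?_, ?_, ?_, ?_⟩
  · intro z s
    simp only [hg]
    split_ifs
    · exact zero_le
    · exact lintegral_mono fun ω => min_le_left _ _
  · intro z s
    simp only [hg]
    split_ifs with hs
    · exact zero_le
    · have h3 : h z s ≤ Λ * Pz z := by
        simp only [hS, mem_ofPred_eq, not_lt] at hs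
        exact hs
      exact (lintegral_mono fun ω => min_le_right _ _).trans h3
  · rw [← Finset.mul_sum, mul_comm]
    (clear * - hPsum; gcongr)
  · -- loss accounting
    set F : Set (Ω × E) := {p | ν {s | cell (p.1, s) = cell p} < τ} with hF
    have hmF : ∀ p : Ω × E, m (p.1, cell p) = ν {s | cell (p.1, s) = cell p} := by
      intro p
      simp only [hm, cellMass, univ_inter]
    have hFm : MeasurableSet F := by
      have h3 : F = {p | m (p.1, cell p) < τ} := by
        ext p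
        simp only [hF, mem_ofPred_eq, hmF]
      rw [h3]
      exact measurableSet_lt (hmm.comp hcell1) measurable_const
    set gg : ζ → Ω × E → ℝ≥0∞ := fun z p => if p.2 ∈ S z then 0 else min (φ z p) (kc z p) with hgg
    have hggm : ∀ z, Measurable (gg z) := fun z =>
      Measurable.ite (measurable_snd (hSm z)) measurable_const (hmin z)
    have hpt : ∀ z p, φ z p ≤ (gg z p + (φ z p - k z (p.1, cell p))) + (F.indicator (φ z) p +
          (Prod.snd ⁻¹' (S z)).indicator (kc z) p) := by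
      intro z p
      simp only [hgg]
      by_cases hp : p ∈ F
      · rw [indicator_of_mem hp]
        exact le_add_left (le_add_right le_rfl)
      · have h3 : kc z p = k z (p.1, cell p) := by
          simp only [hkc, hkk]
          rw [if_pos]
          rw [hmF]
          simpa only [hF, mem_ofPred_eq, not_lt] using hp
        by_cases hs : p.2 ∈ S z
        · have h4 : p ∈ Prod.snd ⁻¹' (S z) := hs
          simp only [if_pos hs, indicator_of_mem h4, indicator_of_notMem hp, zero_add, h3]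
          rw [add_comm]
          exact le_add_tsub
        · simp only [if_neg hs, h3]
          refine le_add_right ?_
          rcases le_total (φ z p) (k z (p.1, cell p)) with h5 | h5
          · rw [min_eq_left h5]
            exact le_add_right le_rfl
          · rw [min_eq_right h5]
            exact le_add_tsub
    have hI1 : ∀ z, ∫⁻ p, gg z p ∂(P.prod ν) = ∫⁻ s, g z s ∂ν := by
      intro z
      rw [lintegral_prod_symm' _ (hggm z)]
      refine lintegral_congr fun s => ?_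
      simp only [hg, hgg]
      split_ifs
      · simp only [lintegral_const, measure_univ, mul_one]
      · rfl
    -- the exceptional part
    have hI4 : ∀ z, ∫⁻ p, (Prod.snd ⁻¹' (S z)).indicator (kc z) p ∂(P.prod ν) ≤
        η * Pz z + (η * τ)⁻¹ ^ j * Mom := by
      intro z
      set mS : Ω × ι → ℝ≥0∞ := cellMass ν cell (S z) with hmS
      have hmSm : Measurable mS := measurable_cellMass ν cell hcell (S z) (hSm z)
      have hcω : ∀ ω, Measurable fun s : E => cell (ω, s) := fun ω =>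
        hcell.comp measurable_prodMk_left
      have hpoint : ∀ ω, ∫⁻ s in S z, kk z (ω, cell (ω, s)) ∂ν ≤
          η * ∫⁻ s, kk z (ω, cell (ω, s)) ∂ν +
            (η * τ)⁻¹ ^ j * ∫⁻ s in S z, mS (ω, cell (ω, s)) ^ j ∂ν := by
        intro ω
        rw [lintegral_comp_cell ν (fun s => cell (ω, s)) (hcω ω) (fun b => kk z (ω, b)) (S z),
          lintegral_comp_cell ν (fun s => cell (ω, s)) (hcω ω) (fun b => mS (ω, b) ^ j) (S z),
          ← setLIntegral_univ,
          lintegral_comp_cell ν (fun s => cell (ω, s)) (hcω ω) (fun b => kk z (ω, b)) univ,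
          ← ENNReal.tsum_mul_left, ← ENNReal.tsum_mul_left, ← ENNReal.tsum_add]
        refine ENNReal.tsum_le_tsum fun b => ?_
        have e1 : ν (S z ∩ {s | cell (ω, s) = b}) = mS (ω, b) := rfl
        have e2 : ν (univ ∩ {s | cell (ω, s) = b}) = m (ω, b) := rfl
        rw [e1, e2]
        by_cases hτm : τ ≤ m (ω, b)
        · rcases le_or_gt (mS (ω, b)) (η * m (ω, b)) with h5 | h5
          · refine le_add_right ?_
            calc kk z (ω, b) * mS (ω, b) ≤ kk z (ω, b) * (η * m (ω, b)) := by (clear * - h5; gcongr)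
              _ = η * (kk z (ω, b) * m (ω, b)) := by ring
          · refine le_add_left ?_
            have h6 : η * τ ≤ mS (ω, b) := (mul_le_mul_right hτm η).trans h5.le
            have h7 : (1 : ℝ≥0∞) ≤ (η * τ)⁻¹ * mS (ω, b) := by
              rw [← ENNReal.inv_mul_cancel (a := η * τ) (mul_ne_zero hη0 hτ0)
                (ENNReal.mul_ne_top hηt hτt)]
              (clear * - h6; gcongr)
            calc kk z (ω, b) * mS (ω, b) ≤ 1 ^ j * mS (ω, b) := by
                  rw [one_pow]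
                  gcongr
                  exact hkk1 z _
              _ ≤ ((η * τ)⁻¹ * mS (ω, b)) ^ j * mS (ω, b) := by (clear * - h7; gcongr)
              _ = (η * τ)⁻¹ ^ j * (mS (ω, b) ^ j * mS (ω, b)) := by rw [mul_pow]; ring
        · have h5 : kk z (ω, b) = 0 := by simp only [hkk, if_neg hτm]
          rw [h5, zero_mul]
          exact zero_le
      have hmeas1 : Measurable fun p : Ω × E => mS (p.1, cell p) ^ j :=
        (hmSm.comp hcell1).pow_const j
      calc ∫⁻ p, (Prod.snd ⁻¹' (S z)).indicator (kc z) p ∂(P.prod ν)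
          = ∫⁻ ω, ∫⁻ s, (S z).indicator (fun s => kc z (ω, s)) s ∂ν ∂P := by
            rw [lintegral_prod _ ((hkcm z).indicator (measurable_snd (hSm z))).aemeasurable]
            rfl
        _ = ∫⁻ ω, ∫⁻ s in S z, kk z (ω, cell (ω, s)) ∂ν ∂P := by
            refine lintegral_congr fun ω => ?_
            rw [lintegral_indicator (hSm z)]
        _ ≤ ∫⁻ ω, (η * ∫⁻ s, kk z (ω, cell (ω, s)) ∂ν +
            (η * τ)⁻¹ ^ j * ∫⁻ s in S z, mS (ω, cell (ω, s)) ^ j ∂ν) ∂P := lintegral_mono hpoint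
        _ = η * Pz z + (η * τ)⁻¹ ^ j *
              ∫⁻ ω, ∫⁻ s in S z, mS (ω, cell (ω, s)) ^ j ∂ν ∂P := by
            rw [lintegral_add_left, lintegral_const_mul, lintegral_const_mul, hPz', lintegral_prod]
            · exact (hkcm z).aemeasurable
            · exact hmeas1.lintegral_prod_right'
            · exact (hkcm z).lintegral_prod_right'
            · exact ((hkcm z).lintegral_prod_right').const_mul _
        _ ≤ η * Pz z + (η * τ)⁻¹ ^ j * Mom := by
            gcongr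
            rw [lintegral_lintegral_swap hmeas1.aemeasurable]
            exact moment (S z) (hSm z) (hνS z)
    calc ∑ z, ∫⁻ p, φ z p ∂(P.prod ν)
        ≤ ∑ z, (∫⁻ s, g z s ∂ν + ∫⁻ p, (φ z p - k z (p.1, cell p)) ∂(P.prod ν) +
            (∫⁻ p, F.indicator (φ z) p ∂(P.prod ν) + (η * Pz z + (η * τ)⁻¹ ^ j * Mom))) := by
          refine Finset.sum_le_sum fun z _ => ?_
          refine (lintegral_mono (hpt z)).trans ?_
          have hm2 : Measurable fun p => φ z p - k z (p.1, cell p) :=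
            (hφ z).sub ((hk z).comp hcell1)
          have hm12 : Measurable fun p => gg z p + (φ z p - k z (p.1, cell p)) := (hggm z).add hm2
          rw [lintegral_add_left hm12, lintegral_add_left (hggm z),
            lintegral_add_left ((hφ z).indicator hFm)]
          exact add_le_add (add_le_add (hI1 z).le le_rfl) (add_le_add le_rfl (hI4 z))
      _ = ∑ z, ∫⁻ s, g z s ∂ν + ∑ z, ∫⁻ p, (φ z p - k z (p.1, cell p)) ∂(P.prod ν) +
            (∑ z, ∫⁻ p, F.indicator (φ z) p ∂(P.prod ν) + (η * ∑ z, Pz z +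
              Fintype.card ζ * ((η * τ)⁻¹ ^ j * Mom))) := by
          rw [Finset.sum_add_distrib, Finset.sum_add_distrib, Finset.sum_add_distrib,
            Finset.sum_add_distrib, Finset.mul_sum, Finset.sum_const, Finset.card_univ,
            nsmul_eq_mul]
      _ ≤ ∑ z, ∫⁻ s, g z s ∂ν + η + ((η + δ) + (η * 2 + η)) := by
          refine add_le_add (add_le_add le_rfl h1) (add_le_add ?_ (add_le_add ?_ hM))
          · rw [← lintegral_finsetSum' _ fun z _ => ((hφ z).indicator hFm).aemeasurable]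
            calc ∫⁻ p, ∑ z, F.indicator (φ z) p ∂(P.prod ν)
                ≤ ∫⁻ p, F.indicator (fun _ => 1) p ∂(P.prod ν) := by
                  refine lintegral_mono fun p => ?_
                  by_cases hp : p ∈ F
                  · simp only [indicator_of_mem hp]
                    exact hsum p
                  · simp only [indicator_of_notMem hp, Finset.sum_const_zero]
                    exact le_rfl
              _ = (P.prod ν) F := by rw [lintegral_indicator hFm]; simp only [lintegral_const, MeasurableSet.univ, Measure.restrict_apply, univ_inter, one_mul]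
              _ ≤ η + δ := mass
          · (clear * - hPsum; gcongr)
      _ = ∑ z, ∫⁻ s, g z s ∂ν + 5 * η + δ := by ring

end P309
end
end

section

section

/-!
# P309: one block of samples (Lemma P of the block proof)
-/

open MeasureTheory ProbabilityTheory Metric Set
open scoped ENNReal NNReal RealInnerProductSpace

namespace P309

variable {E : Type*} [NormedAddCommGroup E] [InnerProductSpace ℝ E] [FiniteDimensional ℝ E]
  [MeasurableSpace E] [BorelSpace E]

/-- the numerical inequality behind the constant `10 ^ (17 n)` -/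
theorem const_ineq (n : ℕ) (hn : 1 ≤ n) :
    ((Real.exp 14 * 6) ^ n) ^ 2 * (16 * 96 ^ n) ≤ (10 : ℝ) ^ (17 * n) := by
  have h1 : Real.exp 14 ≤ 1203000 := by
    have h2 : Real.exp 14 = Real.exp 1 ^ 14 := by
      rw [← Real.exp_nat_mul]; norm_num
    rw [h2]
    calc Real.exp 1 ^ 14 ≤ 2.7182818286 ^ 14 :=
          pow_le_pow_left₀ (Real.exp_pos 1).le Real.exp_one_lt_d9.le 14
      _ ≤ 1203000 := by norm_num
  have h3 : (Real.exp 14 * 6) ^ 2 * (16 * 96) ≤ (10 : ℝ) ^ 17 := by
    have h4 : Real.exp 14 * 6 ≤ 7218000 := by linarith only [h1]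
    calc (Real.exp 14 * 6) ^ 2 * (16 * 96) ≤ 7218000 ^ 2 * (16 * 96) := by gcongr
      _ ≤ (10 : ℝ) ^ 17 := by norm_num
  calc ((Real.exp 14 * 6) ^ n) ^ 2 * (16 * 96 ^ n)
      ≤ ((Real.exp 14 * 6) ^ n) ^ 2 * (16 ^ n * 96 ^ n) := by
        gcongr
        exact le_self_pow₀ (by norm_num) (by omega)
    _ = ((Real.exp 14 * 6) ^ 2 * (16 * 96)) ^ n := by
        rw [← pow_mul, ← mul_pow, mul_comm n 2, pow_mul, ← mul_pow]
    _ ≤ ((10 : ℝ) ^ 17) ^ n := by gcongr
    _ = (10 : ℝ) ^ (17 * n) := by rw [← pow_mul]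

/-- the choice of the constant `Λ` -/
theorem moment_const (n m : ℕ) (hn : 1 ≤ n) (hm : 1 ≤ m) (A η θ : ℝ) (hA : 1 ≤ A) (hη : 0 < η)
    (hθ : 0 < θ) :
    (η * (η * (1 / (Real.exp 14 * (6 * m))) ^ n))⁻¹ * ((1 / (m : ℝ)) ^ n *
      Real.sqrt (A * 8 * 96 ^ n * ((1 / 2) * 10 ^ (17 * n) * η⁻¹ ^ 4 * θ⁻¹ ^ 2 * A)⁻¹)) ≤ θ := by
  have hm0 : (0 : ℝ) < m := by exact_mod_cast hm
  have h1 : A * 8 * 96 ^ n * ((1 / 2) * 10 ^ (17 * n) * η⁻¹ ^ 4 * θ⁻¹ ^ 2 * A)⁻¹ =
      (η ^ 2 * θ) ^ 2 * (16 * 96 ^ n / 10 ^ (17 * n)) := by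
    have hA0 : A ≠ 0 := by positivity
    field_simp
    ring
  have h2 : 16 * 96 ^ n / (10 : ℝ) ^ (17 * n) ≤ (((Real.exp 14 * 6) ^ n)⁻¹) ^ 2 := by
    rw [div_le_iff₀ (by positivity), inv_pow, inv_mul_eq_div, le_div_iff₀ (by positivity)]
    calc 16 * 96 ^ n * ((Real.exp 14 * 6) ^ n) ^ 2 = ((Real.exp 14 * 6) ^ n) ^ 2 * (16 * 96 ^ n) := by
          ring
      _ ≤ _ := const_ineq n hn
  have h3 : Real.sqrt (A * 8 * 96 ^ n * ((1 / 2) * 10 ^ (17 * n) * η⁻¹ ^ 4 * θ⁻¹ ^ 2 * A)⁻¹) ≤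
      η ^ 2 * θ * ((Real.exp 14 * 6) ^ n)⁻¹ := by
    rw [h1]
    apply Real.sqrt_le_iff.2
    refine ⟨by positivity, ?_⟩
    rw [mul_pow (η ^ 2 * θ)]
    exact mul_le_mul_of_nonneg_left h2 (by positivity)
  calc _ ≤ (η * (η * (1 / (Real.exp 14 * (6 * m))) ^ n))⁻¹ * ((1 / (m : ℝ)) ^ n *
      (η ^ 2 * θ * ((Real.exp 14 * 6) ^ n)⁻¹)) := by gcongr
    _ = θ := by
      have e1 : (1 / (Real.exp 14 * (6 * (m : ℝ)))) ^ n =
          ((Real.exp 14 * 6) ^ n)⁻¹ * ((m : ℝ) ^ n)⁻¹ := by
        rw [← mul_inv, ← mul_pow, one_div, inv_pow]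
        congr 2
        ring
      have h5 : (0 : ℝ) < Real.exp 14 := Real.exp_pos 14
      rw [e1, one_div, inv_pow]
      field_simp

theorem ofReal_mom (n : ℕ) (x A L : ℝ) (hx : 0 ≤ x) (hA : 0 < A) (hL : 0 < L) :
    (ENNReal.ofReal x ^ n * (ENNReal.ofReal A * 8 * 96 ^ n * (ENNReal.ofReal L)⁻¹) ^
      (1 / 2 : ℝ)) ^ n = ENNReal.ofReal ((x ^ n * Real.sqrt (A * 8 * 96 ^ n * L⁻¹)) ^ n) := by
  rw [ENNReal.ofReal_pow (by positivity), ENNReal.ofReal_mul (by positivity),
    ENNReal.ofReal_pow hx, Real.sqrt_eq_rpow,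
    ← ENNReal.ofReal_rpow_of_nonneg (by positivity) (by norm_num),
    ENNReal.ofReal_mul (by positivity), ENNReal.ofReal_mul (by positivity),
    ENNReal.ofReal_mul (by positivity), ENNReal.ofReal_inv_of_pos hL,
    ENNReal.ofReal_pow (by norm_num)]
  have e2 : ENNReal.ofReal 8 = 8 := by norm_num
  have e3 : ENNReal.ofReal 96 = 96 := by norm_num
  rw [e2, e3]

/-- Lemma P (file BlockStep.lean). -/
theorem block_step (n : ℕ) (hn : 1 ≤ n) (σ : Measure E) [IsFiniteMeasure σ]
    {Z : Type*} [Fintype Z] [Nonempty Z]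
    (k : Z → (Fin n → E) × (Fin n → ℝ) → ℝ≥0∞) (hk : ∀ z, Measurable (k z))
    (hk1 : ∀ x, ∑ z, k z x ≤ 1)
    (w : Z → E → ℝ≥0∞) (hw : ∀ z, Measurable (w z)) (hw1 : ∀ z s, w z s ≤ 1)
    (κ₁ : ℕ) (a B : ℝ≥0∞) (hB : ∀ z, Bd σ κ₁ (w z) a B)
    (η θ : ℝ≥0∞) (hη : 0 < η) (hη1 : η ≤ 1) (hθ0 : 0 < θ) (hθ : θ ^ n * Fintype.card Z ≤ η ^ 2) :
    BdReg σ (3 * n + 1) κ₁ (fun s => ∫⁻ G, ∑ z, k z (G, lab G s) * w z s ∂(rows E n))
      (a + 6 * η + ENNReal.ofReal (Real.exp (-n)))
      (10 ^ (17 * n) * η⁻¹ ^ 4 * θ⁻¹ ^ 2 * B) := by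
  classical
  intro μ b D A hD hA1 hAt hcomp
  -- trivial case
  by_cases hμ0 : μ univ = 0
  · have : μ = 0 := Measure.measure_univ_eq_zero.1 hμ0
    rw [this, lintegral_zero_measure]
    exact zero_le
  have hμt : μ univ ≠ ⊤ := by
    refine ne_top_of_le_ne_top ?_ (hcomp.dens univ)
    rw [Measure.smul_apply, smul_eq_mul]
    exact ENNReal.mul_ne_top hD (measure_ne_top _ _)
  have : IsFiniteMeasure μ := ⟨hμt.lt_top⟩
  obtain ⟨c, hc⟩ := hcomp.supp
  set l : ℝ := (1 / 2) ^ b with hl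
  have hl0 : 0 < l := by positivity
  set ν : Measure E := (μ univ)⁻¹ • μ with hν
  have : IsProbabilityMeasure ν := by
    constructor
    rw [hν, Measure.smul_apply, smul_eq_mul, ENNReal.inv_mul_cancel hμ0 hμt]
  have hνc : ν (closedBall c l)ᶜ = 0 := by
    rw [hν, Measure.smul_apply, hc, smul_zero]
  -- real parameters
  have hηt : η ≠ ⊤ := ne_top_of_le_ne_top ENNReal.one_ne_top hη1
  have hcardZ : (1 : ℝ≥0∞) ≤ Fintype.card Z := by
    have : 1 ≤ Fintype.card Z := Fintype.card_pos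
    exact_mod_cast this
  have hθn : θ ^ n ≤ 1 := by
    calc θ ^ n = θ ^ n * 1 := (mul_one _).symm
      _ ≤ θ ^ n * Fintype.card Z := by (clear * - hcardZ; gcongr)
      _ ≤ η ^ 2 := hθ
      _ ≤ 1 := pow_le_one₀ zero_le hη1
  have hθt : θ ≠ ⊤ := by
    intro h
    rw [h, ENNReal.top_pow (by omega)] at hθn
    exact absurd hθn (by simp)
  obtain ⟨ηr, hηr0, hηr⟩ : ∃ x : ℝ, 0 < x ∧ η = ENNReal.ofReal x :=
    ⟨η.toReal, ENNReal.toReal_pos hη.ne' hηt, (ENNReal.ofReal_toReal hηt).symm⟩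
  obtain ⟨θr, hθr0, hθr⟩ : ∃ x : ℝ, 0 < x ∧ θ = ENNReal.ofReal x :=
    ⟨θ.toReal, ENNReal.toReal_pos hθ0.ne' hθt, (ENNReal.ofReal_toReal hθt).symm⟩
  obtain ⟨Ar, hAr1, hAr⟩ : ∃ x : ℝ, 1 ≤ x ∧ A = ENNReal.ofReal x := by
    refine ⟨A.toReal, ?_, (ENNReal.ofReal_toReal hAt).symm⟩
    have := (ENNReal.toReal_le_toReal ENNReal.one_ne_top hAt).2 hA1
    simpa using this
  have hAr0 : 0 < Ar := by linarith only [hAr1]
  have hreg : ∀ (w : E) (i : ℕ), ν (closedBall w ((1 / 2) ^ i * l)) ≤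
      ENNReal.ofReal (Ar * (1 / 2) ^ ((3 * n + 1) * i)) := by
    intro w i
    have h1 := hcomp.reg w i
    rw [hν, Measure.smul_apply, smul_eq_mul]
    have e1 : (1 / 2 : ℝ) ^ i * l = (1 / 2) ^ (b + i) := by rw [hl, pow_add]; ring
    have e2 : ENNReal.ofReal (Ar * (1 / 2) ^ ((3 * n + 1) * i)) =
        A * (1 / 2) ^ ((3 * n + 1) * i) := by
      rw [ENNReal.ofReal_mul hAr0.le, ← hAr, ENNReal.ofReal_pow (by norm_num)]
      congr 2
      rw [ENNReal.ofReal_div_of_pos (by norm_num)]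
      simp
    rw [e1, e2]
    calc (μ univ)⁻¹ * μ (closedBall w ((1 / 2) ^ (b + i)))
        ≤ (μ univ)⁻¹ * (A * (1 / 2) ^ ((3 * n + 1) * i) * μ univ) := by (clear * - h1; gcongr)
      _ = A * (1 / 2) ^ ((3 * n + 1) * i) * ((μ univ)⁻¹ * μ univ) := by ring
      _ = A * (1 / 2) ^ ((3 * n + 1) * i) := by rw [ENNReal.inv_mul_cancel hμ0 hμt, mul_one]
  -- approximation by cell functions
  have hkz1 : ∀ z x, k z x ≤ 1 := fun z x =>
    (Finset.single_le_sum (f := fun z => k z x) (fun _ _ => zero_le) (Finset.mem_univ z)).trans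
      (hk1 x)
  obtain ⟨m, hm1, k', hk'm, hk'1, happ1, happ2⟩ := approx_cells n ν c l hl0 k hk hkz1 η hη
  have hm0 : (0 : ℝ) < m := by exact_mod_cast hm1
  set cell : (Fin n → E) × E → (Fin n → ℤ) := fun p a => ⌊⟪p.1 a, p.2 - c⟫ * m / l⌋ with hcell
  have hcellm : Measurable cell := by
    rw [measurable_pi_iff]
    intro a
    apply Int.measurable_floor.comp
    (clear hn k hk hk1 w hw hw1 κ₁ B hB η θ hη hη1 hθ0 hθ hA1 hAt hc hl hl0 hνc hηt hcardZ hθn hθt ηr hηr0 hηr θr hθr0 hθr Ar hAr1 hAr hAr0 hreg hkz1 hm1 k' hk'm hk'1 happ1 happ2 hm0 cell hcell; fun_prop)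
  set φ : Z → (Fin n → E) × E → ℝ≥0∞ := fun z p => k z (p.1, lab p.1 p.2) with hφ
  have hφm : ∀ z, Measurable (φ z) := fun z =>
    (hk z).comp (measurable_fst.prodMk measurable_lab)
  set τr : ℝ := ηr * (1 / (Real.exp 14 * (6 * m))) ^ n with hτr
  have hτr0 : 0 < τr := by
    have := Real.exp_pos 14
    (clear * - hηr0 hm1; positivity)
  set δ : ℝ≥0∞ := ENNReal.ofReal (Real.exp (-n)) with hδ
  have hmass := cell_mass n m hm1 ν c l hl0 hνc ηr hηr0
  set Λr : ℝ := (1 / 2) * 10 ^ (17 * n) * ηr⁻¹ ^ 4 * θr⁻¹ ^ 2 * Ar with hΛr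
  have hΛr0 : 0 < Λr := by (clear * - hηr0 hθr0 hAr1; positivity)
  set Mr : ℝ := ((1 / (m : ℝ)) ^ n * Real.sqrt (Ar * 8 * 96 ^ n * Λr⁻¹)) ^ n with hMr
  have hMr0 : 0 ≤ Mr := by (clear * - hm1 hAr1 hηr0 hθr0; positivity)
  have key := one_block_abstract (rows E n) ν cell hcellm φ hφm (fun p => hk1 _) k' hk'm hk'1
    η δ (ENNReal.ofReal τr) (ENNReal.ofReal Λr) (ENNReal.ofReal Mr) n happ1 happ2 hη1 hη.ne'
    (by simpa using hτr0) ENNReal.ofReal_ne_top ?_ (by simpa using hΛr0) ENNReal.ofReal_ne_top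
    ?_ ?_
  rotate_left
  · -- mass
    rw [hηr]
    refine le_trans (measure_mono ?_) hmass
    intro p hp
    simp only [mem_ofPred_eq] at hp ⊢
    refine lt_of_le_of_lt (le_of_eq ?_) hp
    congr 1
    ext s'
    simp only [mem_ofPred_eq, hcell, funext_iff]
  · -- moment
    intro S hS hνS
    have h1 := block_moment n hn ν c l hl0 hνc Ar hAr1 hreg S hS (l / m) (by (clear * - hm1; positivity))
    calc ∫⁻ s in S, ∫⁻ G, ν (S ∩ {s' | cell (G, s') = cell (G, s)}) ^ n ∂(rows E n) ∂ν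
        ≤ ∫⁻ s in S, ∫⁻ G, (ν (S ∩ {s' | ∀ a, |⟪G a, s' - s⟫| ≤ l / m})) ^ n ∂(rows E n) ∂ν := by
          refine lintegral_mono fun s => lintegral_mono fun G => ?_
          refine pow_le_pow_left' (measure_mono (inter_subset_inter_right S ?_)) n
          intro s' hs' a
          have h2 : ⌊⟪G a, s' - c⟫ * m / l⌋ = ⌊⟪G a, s - c⟫ * m / l⌋ := congrFun hs' a
          have h3 := Int.abs_sub_lt_one_of_floor_eq_floor h2
          have h4 : ⟪G a, s' - c⟫ * m / l - ⟪G a, s - c⟫ * m / l = ⟪G a, s' - s⟫ * (m / l) := by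
            have : ⟪G a, s' - s⟫ = ⟪G a, s' - c⟫ - ⟪G a, s - c⟫ := by
              rw [← inner_sub_right]; congr 1; abel
            rw [this]; ring
          rw [h4, abs_mul, abs_of_pos (by (clear * - hm1; positivity) : (0 : ℝ) < m / l)] at h3
          have h5 : |⟪G a, s' - s⟫| < 1 / (m / l) := by
            rwa [lt_div_iff₀ (by positivity)]
          rw [one_div_div] at h5
          exact h5.le
      _ ≤ ν S * (ENNReal.ofReal (l / m / l) ^ n *
            (ENNReal.ofReal Ar * 8 * 96 ^ n * ν S) ^ (1 / 2 : ℝ)) ^ n := h1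
      _ ≤ 1 * (ENNReal.ofReal (l / m / l) ^ n *
            (ENNReal.ofReal Ar * 8 * 96 ^ n * (ENNReal.ofReal Λr)⁻¹) ^ (1 / 2 : ℝ)) ^ n := by
          gcongr
          exact prob_le_one
      _ = ENNReal.ofReal Mr := by
          rw [one_mul, ofReal_mom n (l / m / l) Ar Λr (by (clear * - hm1; positivity)) hAr0 hΛr0]
          have e1 : l / m / l = 1 / m := by (clear * - hl0 hm1; field_simp)
          rw [e1]
  · -- hM
    have h1 : (η * ENNReal.ofReal τr)⁻¹ ^ n * ENNReal.ofReal Mr ≤ θ ^ n := by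
      rw [hηr, hθr, ← ENNReal.ofReal_mul hηr0.le, ← ENNReal.ofReal_inv_of_pos (by (clear * - hηr0 hm1; positivity)),
        hMr, ENNReal.ofReal_pow (p := (1 / (m : ℝ)) ^ n * Real.sqrt (Ar * 8 * 96 ^ n * Λr⁻¹))
          (by (clear * - hm1 hAr1 hηr0 hθr0; positivity)), ← mul_pow, ← ENNReal.ofReal_mul (by (clear * - hηr0 hm1; positivity))]
      gcongr
      exact moment_const n m hn hm1 Ar ηr θr hAr1 hηr0 hθr0
    calc (Fintype.card Z : ℝ≥0∞) * ((η * ENNReal.ofReal τr)⁻¹ ^ n * ENNReal.ofReal Mr)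
        ≤ (Fintype.card Z : ℝ≥0∞) * θ ^ n := by (clear * - h1; gcongr)
      _ = θ ^ n * Fintype.card Z := mul_comm _ _
      _ ≤ η ^ 2 := hθ
      _ ≤ η := by
          rw [pow_two]
          calc η * η ≤ η * 1 := by (clear * - hη1; gcongr)
            _ = η := mul_one _
  obtain ⟨g, Dz, hgm, hgφ, hgD, hDsum, hloss⟩ := key
  -- functions on the signal space
  set Φ : Z → E → ℝ≥0∞ := fun z s => ∫⁻ G, φ z (G, s) ∂(rows E n) with hΦ
  have hΦm : ∀ z, Measurable (Φ z) := fun z => (hφm z).lintegral_prod_left'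
  have hΦsum : ∀ s, ∑ z, Φ z s ≤ 1 := by
    intro s
    have h1 : ∀ z, Measurable fun G => φ z (G, s) := fun z => (hφm z).comp measurable_prodMk_right
    simp only [hΦ]
    rw [← lintegral_finsetSum' _ fun z _ => (h1 z).aemeasurable]
    calc ∫⁻ G, ∑ z, φ z (G, s) ∂(rows E n) ≤ ∫⁻ _, 1 ∂(rows E n) :=
          lintegral_mono fun G => hk1 _
      _ = 1 := by simp
  have hΦν : ∀ z, ∫⁻ p, φ z p ∂((rows E n).prod ν) = ∫⁻ s, Φ z s ∂ν := by
    intro z
    rw [lintegral_prod_symm' _ (hφm z)]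
  have hgν : ∑ z, ∫⁻ s, g z s ∂ν ≠ ⊤ := by
    refine ne_top_of_le_ne_top ENNReal.one_ne_top ?_
    calc ∑ z, ∫⁻ s, g z s ∂ν ≤ ∑ z, ∫⁻ s, Φ z s ∂ν :=
          Finset.sum_le_sum fun z _ => lintegral_mono (hgφ z)
      _ = ∫⁻ s, ∑ z, Φ z s ∂ν := by rw [lintegral_finsetSum' _ fun z _ => (hΦm z).aemeasurable]
      _ ≤ ∫⁻ _, 1 ∂ν := lintegral_mono hΦsum
      _ = 1 := by simp
  have hdiff : ∑ z, ∫⁻ s, (Φ z s - g z s) ∂ν ≤ 5 * η + δ := by
    have h1 : ∑ z, ∫⁻ s, (Φ z s - g z s) ∂ν + ∑ z, ∫⁻ s, g z s ∂ν ≤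
        (5 * η + δ) + ∑ z, ∫⁻ s, g z s ∂ν := by
      calc ∑ z, ∫⁻ s, (Φ z s - g z s) ∂ν + ∑ z, ∫⁻ s, g z s ∂ν
          = ∑ z, ∫⁻ s, Φ z s ∂ν := by
            rw [← Finset.sum_add_distrib]
            refine Finset.sum_congr rfl fun z _ => ?_
            rw [← lintegral_add_right _ (hgm z)]
            exact lintegral_congr fun s => tsub_add_cancel_of_le (hgφ z s)
        _ = ∑ z, ∫⁻ p, φ z p ∂((rows E n).prod ν) :=
            Finset.sum_congr rfl fun z _ => (hΦν z).symm
        _ ≤ ∑ z, ∫⁻ s, g z s ∂ν + 5 * η + δ := hloss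
        _ = _ := by ring
    exact (ENNReal.add_le_add_iff_right hgν).1 h1
  have hμν : ∀ f : E → ℝ≥0∞, ∫⁻ s, f s ∂μ = μ univ * ∫⁻ s, f s ∂ν := by
    intro f
    rw [hν, lintegral_smul_measure, smul_eq_mul, ← mul_assoc, ENNReal.mul_inv_cancel hμ0 hμt,
      one_mul]
  have hpiece : ∀ z, ∫⁻ s, g z s * w z s ∂μ ≤
      a * ∫⁻ s, g z s ∂μ + B * (Dz z * D) * (1 / 2) ^ (κ₁ * b) := by
    intro z
    have hDz : ∀ s, g z s ≤ Dz z := hgD z
    have hDzt : Dz z ≠ ⊤ := by
      refine ne_top_of_le_ne_top ?_ ((Finset.single_le_sum (f := Dz) (fun _ _ => zero_le)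
        (Finset.mem_univ z)).trans hDsum)
      exact ENNReal.mul_ne_top (by norm_num) ENNReal.ofReal_ne_top
    have hP : Piece σ (μ.withDensity (g z)) b (Dz z * D) := by
      refine ⟨⟨c, ?_⟩, ?_⟩
      · exact (withDensity_absolutelyContinuous _ _) hc
      · calc μ.withDensity (g z) ≤ μ.withDensity (fun _ => Dz z) :=
              withDensity_mono (Filter.Eventually.of_forall hDz)
          _ = Dz z • μ := withDensity_const _
          _ ≤ Dz z • (D • σ) := by
              intro s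
              simp only [Measure.smul_apply, smul_eq_mul]
              have := hcomp.dens s
              rw [Measure.smul_apply, smul_eq_mul] at this
              (clear * - this; gcongr)
          _ = (Dz z * D) • σ := by rw [smul_smul]
    have h1 := hB z _ b (Dz z * D) (ENNReal.mul_ne_top hDzt hD) hP
    rw [lintegral_withDensity_eq_lintegral_mul _ (hgm z) (hw z), withDensity_apply _
      MeasurableSet.univ, setLIntegral_univ] at h1
    exact h1
  have hWpt : ∀ s, ∫⁻ G, ∑ z, k z (G, lab G s) * w z s ∂(rows E n) ≤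
      ∑ z, (g z s * w z s + (Φ z s - g z s)) := by
    intro s
    have h1 : ∀ z, Measurable fun G => φ z (G, s) := fun z => (hφm z).comp measurable_prodMk_right
    have h2 : ∫⁻ G, ∑ z, k z (G, lab G s) * w z s ∂(rows E n) = ∑ z, Φ z s * w z s := by
      rw [lintegral_finsetSum' _ fun z _ => ((h1 z).mul_const _).aemeasurable]
      refine Finset.sum_congr rfl fun z _ => ?_
      exact lintegral_mul_const _ (h1 z)
    rw [h2]
    refine Finset.sum_le_sum fun z _ => ?_
    calc Φ z s * w z s = (g z s + (Φ z s - g z s)) * w z s := by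
          rw [add_tsub_cancel_of_le (hgφ z s)]
      _ = g z s * w z s + (Φ z s - g z s) * w z s := add_mul _ _ _
      _ ≤ g z s * w z s + (Φ z s - g z s) * 1 := by
          gcongr
          exact hw1 z s
      _ = _ := by rw [mul_one]
  have h2Λ : 2 * ENNReal.ofReal Λr = 10 ^ (17 * n) * η⁻¹ ^ 4 * θ⁻¹ ^ 2 * A := by
    rw [hηr, hθr, hAr, ← ENNReal.ofReal_inv_of_pos hηr0, ← ENNReal.ofReal_inv_of_pos hθr0,
      ← ENNReal.ofReal_pow (by (clear * - hηr0; positivity)), ← ENNReal.ofReal_pow (by (clear * - hθr0; positivity))]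
    have e1 : (10 : ℝ≥0∞) ^ (17 * n) = ENNReal.ofReal (10 ^ (17 * n)) := by
      rw [ENNReal.ofReal_pow (by norm_num)]
      norm_num
    have e2 : (2 : ℝ≥0∞) = ENNReal.ofReal 2 := by norm_num
    rw [e1, e2, ← ENNReal.ofReal_mul (by positivity), ← ENNReal.ofReal_mul (by positivity),
      ← ENNReal.ofReal_mul (by positivity), ← ENNReal.ofReal_mul (by (clear * - hηr0 hθr0; positivity))]
    congr 1
    rw [hΛr]
    ring
  calc ∫⁻ s, ∫⁻ G, ∑ z, k z (G, lab G s) * w z s ∂(rows E n) ∂μ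
      ≤ ∫⁻ s, ∑ z, (g z s * w z s + (Φ z s - g z s)) ∂μ := lintegral_mono hWpt
    _ = ∑ z, ∫⁻ s, g z s * w z s ∂μ + ∑ z, ∫⁻ s, (Φ z s - g z s) ∂μ := by
        have hmz : ∀ z, Measurable fun s => g z s * w z s + (Φ z s - g z s) := fun z =>
          ((hgm z).mul (hw z)).add ((hΦm z).sub (hgm z))
        rw [lintegral_finsetSum' _ fun z _ => (hmz z).aemeasurable, ← Finset.sum_add_distrib]
        exact Finset.sum_congr rfl fun z _ => lintegral_add_left ((hgm z).mul (hw z)) _
    _ ≤ ∑ z, (a * ∫⁻ s, g z s ∂μ + B * (Dz z * D) * (1 / 2) ^ (κ₁ * b)) +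
          (5 * η + δ) * μ univ := by
        refine add_le_add (Finset.sum_le_sum fun z _ => hpiece z) ?_
        calc ∑ z, ∫⁻ s, (Φ z s - g z s) ∂μ = μ univ * ∑ z, ∫⁻ s, (Φ z s - g z s) ∂ν := by
              rw [Finset.mul_sum]
              exact Finset.sum_congr rfl fun z _ => hμν _
          _ ≤ μ univ * (5 * η + δ) := by (clear * - hdiff; gcongr)
          _ = _ := mul_comm _ _
    _ = a * ∑ z, ∫⁻ s, g z s ∂μ + B * ((∑ z, Dz z) * D) * (1 / 2) ^ (κ₁ * b) +
          (5 * η + δ) * μ univ := by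
        rw [Finset.sum_add_distrib]
        simp only [Finset.sum_mul, Finset.mul_sum]
    _ ≤ a * μ univ + B * ((2 * ENNReal.ofReal Λr) * D) * (1 / 2) ^ (κ₁ * b) +
          (5 * η + δ) * μ univ := by
        gcongr
        calc ∑ z, ∫⁻ s, g z s ∂μ ≤ ∑ z, ∫⁻ s, Φ z s ∂μ :=
              Finset.sum_le_sum fun z _ => lintegral_mono (hgφ z)
          _ = ∫⁻ s, ∑ z, Φ z s ∂μ := by
              rw [lintegral_finsetSum' _ fun z _ => (hΦm z).aemeasurable]
          _ ≤ ∫⁻ _, 1 ∂μ := lintegral_mono hΦsum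
          _ = μ univ := by simp only [lintegral_const, one_mul]
    _ ≤ (a + 6 * η + δ) * μ univ +
          10 ^ (17 * n) * η⁻¹ ^ 4 * θ⁻¹ ^ 2 * B * A * D * (1 / 2) ^ (κ₁ * b) := by
        rw [h2Λ]
        calc a * μ univ + B * (10 ^ (17 * n) * η⁻¹ ^ 4 * θ⁻¹ ^ 2 * A * D) * (1 / 2) ^ (κ₁ * b) +
            (5 * η + δ) * μ univ
            = (a + 5 * η + δ) * μ univ +
              10 ^ (17 * n) * η⁻¹ ^ 4 * θ⁻¹ ^ 2 * B * A * D * (1 / 2) ^ (κ₁ * b) := by ring
          _ ≤ _ := by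
              gcongr
              norm_num

end P309
end
end

section

section

/-!
# P309: re-localisation (Lemma L of the block proof)
-/

open MeasureTheory Set Filter Topology
open scoped ENNReal NNReal

namespace P309

namespace Reloc

set_option linter.unusedSectionVars false

variable {E : Type*} [NormedAddCommGroup E] [InnerProductSpace ℝ E] [FiniteDimensional ℝ E]
  [MeasurableSpace E] [BorelSpace E] {ι : Type*}

/-- The dyadic cube of level `b` containing `s`. -/
def Q (q : ℕ → E → ι) (b : ℕ) (s : E) : Set E :=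
  {x | q b x = q b s}

/-- The dyadic cube of level `b` with index `k`. -/
def QI (q : ℕ → E → ι) (b : ℕ) (k : ι) : Set E := q b ⁻¹' {k}

lemma Q_eq (q : ℕ → E → ι) (b : ℕ) (s : E) : Q q b s = QI q b (q b s) := rfl

/-- Two to the power `n` in `ℝ≥0∞` times the inverse. -/
lemma two_pow_mul_inv (n : ℕ) : (2 : ℝ≥0∞) ^ n * (1 / 2) ^ n = 1 := by
  rw [← mul_pow, one_div, ENNReal.mul_inv_cancel (by norm_num) (by norm_num), one_pow]

/-- Weighted mass of the cube around `s`. -/
noncomputable def v (q : ℕ → E → ι) (μ : Measure E) (κ b m : ℕ)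
    (s : E) : ℝ≥0∞ := μ (Q q (b + m) s) * 2 ^ (κ * m)

/-- The mass of the cell of `s` depends measurably on `s`. -/
lemma measurable_Q [Countable ι] {q : ℕ → E → ι} (hqm : ∀ b i, MeasurableSet (q b ⁻¹' {i}))
    (μ : Measure E) (b : ℕ) : Measurable fun s => μ (Q q b s) := by
  let _ : MeasurableSpace ι := ⊤
  have h1 : Measurable fun k : ι => μ (QI q b k) := measurable_from_top
  have h2 : Measurable (q b) := measurable_to_countable' (hqm b)
  exact h1.comp h2

lemma measurable_v [Countable ι] {q : ℕ → E → ι} (hqm : ∀ b i, MeasurableSet (q b ⁻¹' {i}))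
    (μ : Measure E) (κ b m : ℕ) : Measurable (v q μ κ b m) :=
  (measurable_Q hqm μ (b + m)).mul_const _

section Levels

variable {q : ℕ → E → ι} {μ : Measure E} {κ b : ℕ}

/-- Decay of the mass of small balls makes the weighted masses tend to zero. -/
lemma tendsto_v (hqd : ∀ b s s', q b s = q b s' → dist s s' ≤ (1 / 2) ^ b)
    {D : ℝ≥0∞} (hD : D ≠ ∞)
    (hμ : ∀ w, ∀ m : ℕ, μ (Metric.closedBall w ((1 / 2 : ℝ) ^ m)) ≤ D * (1 / 2) ^ ((κ + 1) * m))
    (s : E) : Tendsto (fun m => v q μ κ b m s) atTop (𝓝 0) := by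
  have hle : ∀ m, v q μ κ b m s ≤ D * (1 / 2) ^ m := by
    intro m
    have hsub : Q q (b + m) s ⊆ Metric.closedBall s ((1 / 2 : ℝ) ^ (b + m)) := by
      intro x hx
      exact hqd _ _ _ hx
    calc v q μ κ b m s ≤ (D * (1 / 2) ^ ((κ + 1) * (b + m))) * 2 ^ (κ * m) :=
          mul_le_mul_left ((measure_mono hsub).trans (hμ s (b + m))) _
      _ = (D * (1 / 2) ^ m) * ((1 / 2) ^ ((κ + 1) * b) * (2 ^ (κ * m) * (1 / 2) ^ (κ * m))) := by
          rw [show (κ + 1) * (b + m) = (κ + 1) * b + (κ * m + m) by ring, pow_add, pow_add]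
          ring
      _ ≤ (D * (1 / 2) ^ m) * (1 * 1) := by
          apply mul_le_mul_right
          apply mul_le_mul'
          · apply pow_le_one₀ (zero_le)
            simp only [one_div, ENNReal.inv_le_one, Nat.one_le_ofNat]
          · rw [two_pow_mul_inv]
      _ = D * (1 / 2) ^ m := by ring
  have hlim : Tendsto (fun m : ℕ => D * (1 / 2 : ℝ≥0∞) ^ m) atTop (𝓝 0) := by
    have h1 : Tendsto (fun m : ℕ => (1 / 2 : ℝ≥0∞) ^ m) atTop (𝓝 0) :=
      ENNReal.tendsto_pow_atTop_nhds_zero_of_lt_one (by simp only [one_div, ENNReal.inv_lt_one, Nat.one_lt_ofNat])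
    have := ENNReal.Tendsto.const_mul h1 (Or.inr hD)
    simpa only [one_div, mul_zero] using this
  exact tendsto_of_tendsto_of_tendsto_of_le_of_le tendsto_const_nhds hlim
    (fun _ => zero_le) hle

/-- A sequence tending to zero has a maximal term. -/
lemma exists_max {f : ℕ → ℝ≥0∞} (hf : Tendsto f atTop (𝓝 0)) : ∃ m, ∀ k, f k ≤ f m := by
  by_cases h0 : ∀ k, f k = 0
  · exact ⟨0, fun k => by rw [h0 k]; exact zero_le⟩
  · push Not at h0
    obtain ⟨k0, hk0⟩ := h0
    have hpos : 0 < f k0 := pos_iff_ne_zero.2 hk0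
    have hev : ∀ᶠ k in atTop, f k < f k0 := hf.eventually_lt_const hpos
    obtain ⟨N, hN⟩ := eventually_atTop.1 hev
    obtain ⟨m, hm, hmax⟩ := Finset.exists_max_image (Finset.range (N + k0 + 1)) f
      ⟨k0, by simp⟩
    refine ⟨m, fun k => ?_⟩
    by_cases hk : k < N + k0 + 1
    · exact hmax k (Finset.mem_range.2 hk)
    · have h1 : f k < f k0 := hN k (by omega)
      exact h1.le.trans (hmax k0 (by simp))

open Classical in
/-- The least level maximising the weighted mass. -/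
noncomputable def lev (q : ℕ → E → ι) (μ : Measure E) (κ b : ℕ)
    (s : E) : ℕ :=
  if h : ∃ m, ∀ k, v q μ κ b k s ≤ v q μ κ b m s then Nat.find h else 0

lemma measurableSet_max [Countable ι] (hqm : ∀ b i, MeasurableSet (q b ⁻¹' {i}))
    (μ : Measure E) (κ b m : ℕ) :
    MeasurableSet {s | ∀ k, v q μ κ b k s ≤ v q μ κ b m s} := by
  have : {s | ∀ k, v q μ κ b k s ≤ v q μ κ b m s} = ⋂ k, {s | v q μ κ b k s ≤ v q μ κ b m s} := by
    ext s; simp only [mem_ofPred_eq, mem_iInter]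
  rw [this]
  exact MeasurableSet.iInter fun k =>
    measurableSet_le (measurable_v hqm μ κ b k) (measurable_v hqm μ κ b m)

lemma measurableSet_lev [Countable ι] (hqm : ∀ b i, MeasurableSet (q b ⁻¹' {i}))
    (μ : Measure E) (κ b m : ℕ)
    (hex : ∀ s, ∃ m, ∀ k, v q μ κ b k s ≤ v q μ κ b m s) :
    MeasurableSet {s | lev q μ κ b s = m} := by
  classical
  have : {s | lev q μ κ b s = m} = {s | ∀ k, v q μ κ b k s ≤ v q μ κ b m s} ∩
      ⋂ j : Fin m, {s | ∀ k, v q μ κ b k s ≤ v q μ κ b j s}ᶜ := by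
    ext s
    simp only [mem_ofPred_eq, mem_inter_iff, mem_iInter, mem_compl_iff]
    rw [lev, dif_pos (hex s), Nat.find_eq_iff]
    constructor
    · rintro ⟨h1, h2⟩
      exact ⟨h1, fun j => h2 j j.2⟩
    · rintro ⟨h1, h2⟩
      exact ⟨h1, fun j hj => h2 ⟨j, hj⟩⟩
  rw [this]
  exact (measurableSet_max hqm μ κ b m).inter
    (MeasurableSet.iInter fun j => (measurableSet_max hqm μ κ b j).compl)

lemma lev_spec {s : E}
    (hex : ∃ m, ∀ k, v q μ κ b k s ≤ v q μ κ b m s) (k : ℕ) :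
    v q μ κ b k s ≤ v q μ κ b (lev q μ κ b s) s := by
  classical
  rw [lev, dif_pos hex]
  exact Nat.find_spec hex k

end Levels

section Main

variable (q : ℕ → E → ι) (μ : Measure E) (κ b : ℕ) (h : ℝ≥0∞) (K : ℕ)

/-- The part of the cube `a` (level `b + a.1`, index `a.2`) where the maximal level is `a.1`. -/
def S' (a : ℕ × ι) : Set E :=
  {s | lev q μ κ b s = a.1 ∧ q (b + a.1) s = a.2 ∧ μ univ ≤ h * (K : ℝ≥0∞) * μ (Q q b s)}

/-- The cubes that are kept. -/
def kept (a : ℕ × ι) : Prop :=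
  μ (S' q μ κ b h K a) ≠ 0 ∧ μ (QI q (b + a.1) a.2) ≤ h * 2 ^ (a.1 + 1) * μ (S' q μ κ b h K a)

open Classical in
/-- The pieces. -/
noncomputable def S (a : ℕ × ι) : Set E :=
  if kept q μ κ b h K a then S' q μ κ b h K a else ∅

open Classical in
/-- The regularity constants of the pieces. -/
noncomputable def Ac (a : ℕ × ι) : ℝ≥0∞ :=
  if kept q μ κ b h K a then (K : ℝ≥0∞) * h * 2 ^ (a.1 + 1) else 0

variable {q μ κ b h K}

lemma measurableSet_S' [Countable ι] (hqm : ∀ b i, MeasurableSet (q b ⁻¹' {i}))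
    (hex : ∀ s, ∃ m, ∀ k, v q μ κ b k s ≤ v q μ κ b m s)
    (a : ℕ × ι) : MeasurableSet (S' q μ κ b h K a) := by
  have h1 : MeasurableSet {s | lev q μ κ b s = a.1} := measurableSet_lev hqm μ κ b a.1 hex
  have h2 : MeasurableSet {s | q (b + a.1) s = a.2} := hqm _ _
  have h3 : Measurable fun s => μ (Q q b s) := measurable_Q hqm μ b
  have h4 : MeasurableSet {s | μ univ ≤ h * (K : ℝ≥0∞) * μ (Q q b s)} :=
    measurableSet_le measurable_const (h3.const_mul _)
  exact h1.inter (h2.inter h4)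

lemma measurableSet_S [Countable ι] (hqm : ∀ b i, MeasurableSet (q b ⁻¹' {i}))
    (hex : ∀ s, ∃ m, ∀ k, v q μ κ b k s ≤ v q μ κ b m s)
    (a : ℕ × ι) : MeasurableSet (S q μ κ b h K a) := by
  unfold S
  split_ifs
  · exact measurableSet_S' hqm hex a
  · exact MeasurableSet.empty

lemma S_subset (a : ℕ × ι) : S q μ κ b h K a ⊆ S' q μ κ b h K a := by
  unfold S
  split_ifs
  · exact Subset.rfl
  · exact empty_subset _

lemma disjoint_S' : Pairwise (Function.onFun Disjoint (S' q μ κ b h K)) := by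
  intro a a' hne
  rw [Function.onFun, Set.disjoint_left]
  rintro s ⟨h1, h2, -⟩ ⟨h1', h2', -⟩
  apply hne
  have e1 : a.1 = a'.1 := by rw [← h1, ← h1']
  have e2 : a.2 = a'.2 := by rw [← h2, ← h2', e1]
  exact Prod.ext e1 e2

lemma disjoint_S : Pairwise (Function.onFun Disjoint (S q μ κ b h K)) :=
  fun a a' hne => (disjoint_S' hne).mono (S_subset a) (S_subset a')

/-- Finitely many cells meet a ball. -/
lemma exists_finset (hqK : ∀ b w, (q b '' Metric.closedBall w ((1 / 2) ^ b)).encard ≤ K)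
    (b : ℕ) (w : E) : ∃ F : Finset ι, F.card ≤ K ∧
      ∀ x ∈ Metric.closedBall w ((1 / 2) ^ b), q b x ∈ F := by
  have hfin : (q b '' Metric.closedBall w ((1 / 2) ^ b)).Finite :=
    Set.finite_of_encard_le_coe (hqK b w)
  refine ⟨hfin.toFinset, ?_, ?_⟩
  · have h1 := hqK b w
    rw [hfin.encard_eq_coe_toFinset_card] at h1
    exact_mod_cast h1
  · intro x hx
    rw [Set.Finite.mem_toFinset]
    exact mem_image_of_mem _ hx

/-- The mass of smaller cubes meeting a piece. -/
lemma cube_mass_le (hex : ∀ s, ∃ m, ∀ k, v q μ κ b k s ≤ v q μ κ b m s)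
    {a : ℕ × ι} {s : E} (hs : s ∈ S' q μ κ b h K a) (j : ℕ) :
    μ (Q q (b + (a.1 + j)) s) ≤ (1 / 2) ^ (κ * j) * μ (QI q (b + a.1) a.2) := by
  obtain ⟨h1, h2, -⟩ := hs
  have h3 := lev_spec (hex s) (a.1 + j)
  rw [h1] at h3
  unfold v at h3
  have h4 : Q q (b + a.1) s = QI q (b + a.1) a.2 := by rw [Q_eq, h2]
  rw [h4] at h3
  have h5 := mul_le_mul_left h3 ((1 / 2 : ℝ≥0∞) ^ (κ * (a.1 + j)))
  have e1 : μ (Q q (b + (a.1 + j)) s) * 2 ^ (κ * (a.1 + j)) * (1 / 2) ^ (κ * (a.1 + j)) =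
      μ (Q q (b + (a.1 + j)) s) := by
    rw [mul_assoc, two_pow_mul_inv, mul_one]
  have e2 : μ (QI q (b + a.1) a.2) * 2 ^ (κ * a.1) * (1 / 2) ^ (κ * (a.1 + j)) =
      (1 / 2) ^ (κ * j) * μ (QI q (b + a.1) a.2) := by
    calc μ (QI q (b + a.1) a.2) * 2 ^ (κ * a.1) * (1 / 2) ^ (κ * (a.1 + j))
        = (2 ^ (κ * a.1) * (1 / 2) ^ (κ * a.1)) * ((1 / 2) ^ (κ * j) * μ (QI q (b + a.1) a.2)) := by
          rw [show κ * (a.1 + j) = κ * a.1 + κ * j by ring, pow_add]; ring
      _ = _ := by rw [two_pow_mul_inv, one_mul]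
  rwa [e1, e2] at h5

/-- The pieces are regular. -/
lemma reg_S [Countable ι] (hqm : ∀ b i, MeasurableSet (q b ⁻¹' {i}))
    (hqd : ∀ b s s', q b s = q b s' → dist s s' ≤ (1 / 2) ^ b)
    (hqK : ∀ b w, (q b '' Metric.closedBall w ((1 / 2) ^ b)).encard ≤ K)
    (hex : ∀ s, ∃ m, ∀ k, v q μ κ b k s ≤ v q μ κ b m s) (a : ℕ × ι) :
    (∃ c, μ.restrict (S q μ κ b h K a) (Metric.closedBall c ((1 / 2 : ℝ) ^ (b + a.1)))ᶜ = 0) ∧
    ∀ w j, μ.restrict (S q μ κ b h K a) (Metric.closedBall w ((1 / 2 : ℝ) ^ (b + a.1 + j))) ≤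
      Ac q μ κ b h K a * (1 / 2) ^ (κ * j) * μ.restrict (S q μ κ b h K a) univ := by
  by_cases hk : kept q μ κ b h K a
  · have hS : S q μ κ b h K a = S' q μ κ b h K a := by unfold S; rw [if_pos hk]
    have hA : Ac q μ κ b h K a = (K : ℝ≥0∞) * h * 2 ^ (a.1 + 1) := by unfold Ac; rw [if_pos hk]
    rw [hS, hA]
    have hSm := measurableSet_S' (h := h) (K := K) hqm hex a
    refine ⟨?_, ?_⟩
    · have hne : (S' q μ κ b h K a).Nonempty := by
        by_contra hcon
        rw [not_nonempty_iff_eq_empty] at hcon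
        exact hk.1 (by rw [hcon, measure_empty])
      obtain ⟨c, hc⟩ := hne
      refine ⟨c, ?_⟩
      rw [Measure.restrict_apply Metric.isClosed_closedBall.measurableSet.compl]
      convert measure_empty (μ := μ)
      rw [← Set.disjoint_iff_inter_eq_empty, Set.disjoint_left]
      intro x hx hx'
      apply hx
      exact hqd _ _ _ (hx'.2.1.trans hc.2.1.symm)
    · intro w j
      obtain ⟨F, hF, hFw⟩ := exists_finset hqK (b + a.1 + j) w
      rw [Measure.restrict_apply Metric.isClosed_closedBall.measurableSet,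
        Measure.restrict_apply MeasurableSet.univ, univ_inter]
      have hsub : Metric.closedBall w ((1 / 2 : ℝ) ^ (b + a.1 + j)) ∩ S' q μ κ b h K a ⊆
          ⋃ k ∈ F, (QI q (b + a.1 + j) k ∩ S' q μ κ b h K a) := by
        intro x hx
        rw [mem_iUnion₂]
        exact ⟨q (b + a.1 + j) x, hFw x hx.1, rfl, hx.2⟩
      have hone : ∀ k ∈ F, μ (QI q (b + a.1 + j) k ∩ S' q μ κ b h K a) ≤
          (1 / 2) ^ (κ * j) * μ (QI q (b + a.1) a.2) := by
        intro k _
        by_cases hne : (QI q (b + a.1 + j) k ∩ S' q μ κ b h K a).Nonempty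
        · obtain ⟨s, hs1, hs2⟩ := hne
          have h1 := cube_mass_le hex hs2 j
          have h2 : Q q (b + (a.1 + j)) s = QI q (b + a.1 + j) k := by
            rw [Q_eq, ← add_assoc]
            have : q (b + a.1 + j) s = k := hs1
            rw [this]
          rw [h2] at h1
          exact (measure_mono inter_subset_left).trans h1
        · rw [not_nonempty_iff_eq_empty] at hne
          rw [hne, measure_empty]
          exact zero_le
      calc μ (Metric.closedBall w ((1 / 2 : ℝ) ^ (b + a.1 + j)) ∩ S' q μ κ b h K a)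
          ≤ μ (⋃ k ∈ F, (QI q (b + a.1 + j) k ∩ S' q μ κ b h K a)) := measure_mono hsub
        _ ≤ ∑ k ∈ F, μ (QI q (b + a.1 + j) k ∩ S' q μ κ b h K a) := measure_biUnion_finset_le _ _
        _ ≤ ∑ _k ∈ F, (1 / 2) ^ (κ * j) * μ (QI q (b + a.1) a.2) := Finset.sum_le_sum hone
        _ = (F.card : ℝ≥0∞) * ((1 / 2) ^ (κ * j) * μ (QI q (b + a.1) a.2)) := by
            rw [Finset.sum_const, nsmul_eq_mul]
        _ ≤ (K : ℝ≥0∞) * ((1 / 2) ^ (κ * j) * (h * 2 ^ (a.1 + 1) * μ (S' q μ κ b h K a))) := by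
            apply mul_le_mul'
            · exact_mod_cast hF
            · exact mul_le_mul_right hk.2 _
        _ = _ := by ring
  · have hS : S q μ κ b h K a = ∅ := by unfold S; rw [if_neg hk]
    rw [hS, Measure.restrict_empty]
    exact ⟨⟨0, rfl⟩, fun w j => by simp only [one_div, inv_pow, Measure.coe_zero, Pi.zero_apply, mul_zero, Std.le_refl]⟩

lemma tsum_QI [Countable ι] (hqm : ∀ b i, MeasurableSet (q b ⁻¹' {i})) (μ : Measure E) (n : ℕ) :
    ∑' k, μ (QI q n k) = μ univ := by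
  have hm : ∀ k, MeasurableSet (QI q n k) := hqm n
  rw [← measure_iUnion _ hm]
  · congr 1
    ext x
    simp only [mem_iUnion, mem_univ, iff_true]
    exact ⟨q n x, rfl⟩
  · intro k k' hne
    rw [Function.onFun, Set.disjoint_left]
    intro x hx hx'
    have h1 : q n x = k := hx
    have h2 : q n x = k' := hx'
    exact hne (h1.symm.trans h2)

lemma tsum_half : ∑' m : ℕ, (1 / 2 : ℝ≥0∞) ^ (m + 1) = 1 := by
  simp_rw [pow_succ', one_div]
  rw [ENNReal.tsum_mul_left, ENNReal.tsum_geometric, ENNReal.one_sub_inv_two, inv_inv,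
    ENNReal.inv_mul_cancel (by norm_num) (by norm_num)]

lemma le_inv_mul_of_mul_le {x y z : ℝ≥0∞} (hx : x ≠ 0) (hx' : x ≠ ∞) (hle : x * y ≤ z) :
    y ≤ x⁻¹ * z := by
  calc y = x⁻¹ * (x * y) := by rw [← mul_assoc, ENNReal.inv_mul_cancel hx hx', one_mul]
    _ ≤ x⁻¹ * z := mul_le_mul_right hle _

/-- The pieces carry most of the mass. -/
lemma measure_compl_le [Countable ι] (hqm : ∀ b i, MeasurableSet (q b ⁻¹' {i}))
    (hqK : ∀ b w, (q b '' Metric.closedBall w ((1 / 2) ^ b)).encard ≤ K) (hK : 1 ≤ K) {c : E}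
    (hc : μ (Metric.closedBall c ((1 / 2 : ℝ) ^ b))ᶜ = 0) (h0 : h ≠ 0) (h1 : h ≠ ∞) :
    μ (⋃ a, S q μ κ b h K a)ᶜ ≤ 2 * h⁻¹ * μ univ := by
  classical
  obtain ⟨F, hF, hFw⟩ := exists_finset hqK b c
  have hK0 : (K : ℝ≥0∞) ≠ 0 := by
    have : K ≠ 0 := by omega
    exact_mod_cast this
  have hp0 : (h * (K : ℝ≥0∞) : ℝ≥0∞) ≠ 0 := mul_ne_zero h0 hK0
  have hp1 : (h * (K : ℝ≥0∞) : ℝ≥0∞) ≠ ∞ :=
    ENNReal.mul_ne_top h1 (ENNReal.natCast_ne_top K)
  set U : ι → Set E := fun k =>
    if h * (K : ℝ≥0∞) * μ (QI q b k) < μ univ then QI q b k else ∅ with hU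
  set Z : ℕ × ι → Set E := fun a =>
    if kept q μ κ b h K a then ∅ else S' q μ κ b h K a with hZ
  have hsub : (⋃ a, S q μ κ b h K a)ᶜ ⊆
      (Metric.closedBall c ((1 / 2 : ℝ) ^ b))ᶜ ∪ ((⋃ k ∈ F, U k) ∪ ⋃ a, Z a) := by
    intro s hs
    by_cases hcs : s ∈ Metric.closedBall c ((1 / 2 : ℝ) ^ b)
    · right
      by_cases hmass : μ univ ≤ h * (K : ℝ≥0∞) * μ (Q q b s)
      · right
        rw [mem_iUnion]
        refine ⟨(lev q μ κ b s, q (b + lev q μ κ b s) s), ?_⟩
        have hS' : s ∈ S' q μ κ b h K (lev q μ κ b s, q (b + lev q μ κ b s) s) :=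
          ⟨rfl, rfl, hmass⟩
        have hnk : ¬ kept q μ κ b h K (lev q μ κ b s, q (b + lev q μ κ b s) s) := by
          intro hk
          apply hs
          rw [mem_iUnion]
          refine ⟨(lev q μ κ b s, q (b + lev q μ κ b s) s), ?_⟩
          unfold S
          rw [if_pos hk]
          exact hS'
        rw [hZ]
        simp only
        rw [if_neg hnk]
        exact hS'
      · left
        rw [mem_iUnion₂]
        refine ⟨q b s, hFw s hcs, ?_⟩
        rw [hU]
        simp only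
        rw [if_pos (by rw [Q_eq] at hmass; exact not_le.1 hmass)]
        rfl
    · left; exact hcs
  have hU1 : ∀ k ∈ F, μ (U k) ≤ (h * (K : ℝ≥0∞))⁻¹ * μ univ := by
    intro k _
    rw [hU]
    simp only
    split_ifs with hk
    · exact le_inv_mul_of_mul_le hp0 hp1 hk.le
    · rw [measure_empty]; exact zero_le
  have hZ1 : ∀ a, μ (Z a) ≤ h⁻¹ * ((1 / 2) ^ (a.1 + 1) * μ (QI q (b + a.1) a.2)) := by
    intro a
    rw [hZ]
    simp only
    split_ifs with hk
    · rw [measure_empty]; exact zero_le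
    · by_cases hz : μ (S' q μ κ b h K a) = 0
      · rw [hz]; exact zero_le
      · have hlt : h * 2 ^ (a.1 + 1) * μ (S' q μ κ b h K a) ≤ μ (QI q (b + a.1) a.2) := by
          by_contra hcon
          exact hk ⟨hz, (not_le.1 hcon).le⟩
        have h2 : (h * 2 ^ (a.1 + 1) : ℝ≥0∞) ≠ 0 := mul_ne_zero h0 (pow_ne_zero _ (by norm_num))
        have h3 : (h * 2 ^ (a.1 + 1) : ℝ≥0∞) ≠ ∞ :=
          ENNReal.mul_ne_top h1 (ENNReal.pow_ne_top (by norm_num))
        refine (le_inv_mul_of_mul_le h2 h3 hlt).trans (le_of_eq ?_)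
        rw [ENNReal.mul_inv (Or.inl h0) (Or.inl h1), one_div, ENNReal.inv_pow, mul_assoc]
  calc μ (⋃ a, S q μ κ b h K a)ᶜ
      ≤ μ (Metric.closedBall c ((1 / 2 : ℝ) ^ b))ᶜ + (μ (⋃ k ∈ F, U k) + μ (⋃ a, Z a)) :=
        (measure_mono hsub).trans ((measure_union_le _ _).trans
          (add_le_add le_rfl (measure_union_le _ _)))
    _ = μ (⋃ k ∈ F, U k) + μ (⋃ a, Z a) := by rw [hc, zero_add]
    _ ≤ (∑ k ∈ F, μ (U k)) + ∑' a, μ (Z a) :=
        add_le_add (measure_biUnion_finset_le _ _) (measure_iUnion_le _)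
    _ ≤ (∑ _k ∈ F, (h * (K : ℝ≥0∞))⁻¹ * μ univ) +
          ∑' a : ℕ × ι, h⁻¹ * ((1 / 2) ^ (a.1 + 1) * μ (QI q (b + a.1) a.2)) :=
        add_le_add (Finset.sum_le_sum hU1) (ENNReal.tsum_le_tsum hZ1)
    _ ≤ h⁻¹ * μ univ + h⁻¹ * μ univ := by
        apply add_le_add
        · rw [Finset.sum_const, nsmul_eq_mul]
          calc (F.card : ℝ≥0∞) * ((h * (K : ℝ≥0∞))⁻¹ * μ univ)
              ≤ (K : ℝ≥0∞) * ((h * (K : ℝ≥0∞))⁻¹ * μ univ) := by
                apply mul_le_mul_left
                exact_mod_cast hF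
            _ = ((K : ℝ≥0∞) * ((K : ℝ≥0∞))⁻¹) * (h⁻¹ * μ univ) := by
                rw [ENNReal.mul_inv (Or.inl h0) (Or.inl h1)]; ring
            _ = h⁻¹ * μ univ := by
                rw [ENNReal.mul_inv_cancel hK0 (ENNReal.natCast_ne_top K), one_mul]
        · have e := ENNReal.tsum_prod (f := fun (m : ℕ) (k : ι) =>
            (1 / 2 : ℝ≥0∞) ^ (m + 1) * μ (QI q (b + m) k))
          rw [ENNReal.tsum_mul_left, e]
          simp_rw [ENNReal.tsum_mul_left, tsum_QI hqm]
          rw [ENNReal.tsum_mul_right, tsum_half, one_mul]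
    _ = 2 * h⁻¹ * μ univ := by ring

/-- The weighted sum of the regularity constants. -/
lemma tsum_Ac_le [Countable ι] (hqm : ∀ b i, MeasurableSet (q b ⁻¹' {i}))
    (hex : ∀ s, ∃ m, ∀ k, v q μ κ b k s ≤ v q μ κ b m s) (hμ : μ univ ≠ ∞)  :
    ∑' a, Ac q μ κ b h K a * (1 / 2) ^ ((κ + 2) * (b + a.1)) ≤
      4 * (K : ℝ≥0∞) ^ 2 * h ^ 3 * (1 / 2) ^ ((κ + 2) * b) := by
  have hterm : ∀ a, (Ac q μ κ b h K a * (1 / 2) ^ ((κ + 2) * (b + a.1))) * μ univ ≤
      (4 * (K : ℝ≥0∞) ^ 2 * h ^ 3 * (1 / 2) ^ ((κ + 2) * b)) * μ (S' q μ κ b h K a) := by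
    intro a
    by_cases hk : kept q μ κ b h K a
    · have hA : Ac q μ κ b h K a = (K : ℝ≥0∞) * h * 2 ^ (a.1 + 1) := by unfold Ac; rw [if_pos hk]
      rw [hA]
      have hne : (S' q μ κ b h K a).Nonempty := by
        by_contra hcon
        rw [not_nonempty_iff_eq_empty] at hcon
        exact hk.1 (by rw [hcon, measure_empty])
      obtain ⟨s, hs⟩ := hne
      have h1 := hs.2.2
      have h2 := lev_spec (hex s) 0
      rw [hs.1] at h2
      unfold v at h2
      rw [mul_zero, pow_zero, mul_one, add_zero] at h2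
      have h4 : Q q (b + a.1) s = QI q (b + a.1) a.2 := by rw [Q_eq, hs.2.1]
      rw [h4] at h2
      have h5 : μ univ ≤ h * (K : ℝ≥0∞) *
          ((h * 2 ^ (a.1 + 1) * μ (S' q μ κ b h K a)) * 2 ^ (κ * a.1)) :=
        h1.trans (mul_le_mul_right (h2.trans (mul_le_mul_left hk.2 _)) _)
      refine (mul_le_mul_right h5 _).trans (le_of_eq ?_)
      have e1 : (1 / 2 : ℝ≥0∞) ^ ((κ + 2) * (b + a.1)) =
          (1 / 2) ^ ((κ + 2) * b) * ((1 / 2) ^ (κ * a.1) * (1 / 2) ^ (2 * a.1)) := by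
        rw [← pow_add, ← pow_add]; congr 1; ring
      have e2 : (2 : ℝ≥0∞) ^ (a.1 + 1) * 2 ^ (a.1 + 1) = 4 * 2 ^ (2 * a.1) := by
        rw [← pow_add, show a.1 + 1 + (a.1 + 1) = 2 + 2 * a.1 by ring, pow_add]; norm_num
      calc (K : ℝ≥0∞) * h * 2 ^ (a.1 + 1) * (1 / 2) ^ ((κ + 2) * (b + a.1)) *
            (h * (K : ℝ≥0∞) * (h * 2 ^ (a.1 + 1) * μ (S' q μ κ b h K a) * 2 ^ (κ * a.1)))
          = (K : ℝ≥0∞) ^ 2 * h ^ 3 * (2 ^ (a.1 + 1) * 2 ^ (a.1 + 1)) *
              (1 / 2) ^ ((κ + 2) * (b + a.1)) * μ (S' q μ κ b h K a) * 2 ^ (κ * a.1) := by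
            ring
        _ = (4 * (K : ℝ≥0∞) ^ 2 * h ^ 3 * (1 / 2) ^ ((κ + 2) * b) * μ (S' q μ κ b h K a)) *
              ((2 ^ (2 * a.1) * (1 / 2) ^ (2 * a.1)) * (2 ^ (κ * a.1) * (1 / 2) ^ (κ * a.1))) := by
            rw [e1, e2]; ring
        _ = _ := by rw [two_pow_mul_inv, two_pow_mul_inv, mul_one, mul_one]
    · have hA : Ac q μ κ b h K a = 0 := by unfold Ac; rw [if_neg hk]
      rw [hA, zero_mul, zero_mul]
      exact zero_le
  by_cases hμ0 : μ univ = 0
  · have hall : ∀ a, Ac q μ κ b h K a = 0 := by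
      intro a
      unfold Ac
      rw [if_neg]
      intro hk
      exact hk.1 (measure_mono_null (subset_univ _) hμ0)
    simp only [hall, one_div, zero_mul, tsum_zero, zero_le]
  · have hsum : (∑' a, Ac q μ κ b h K a * (1 / 2) ^ ((κ + 2) * (b + a.1))) * μ univ ≤
        (4 * (K : ℝ≥0∞) ^ 2 * h ^ 3 * (1 / 2) ^ ((κ + 2) * b)) * μ univ := by
      rw [← ENNReal.tsum_mul_right]
      refine (ENNReal.tsum_le_tsum hterm).trans ?_
      rw [ENNReal.tsum_mul_left]
      apply mul_le_mul_right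
      rw [← measure_iUnion disjoint_S' (measurableSet_S' hqm hex)]
      exact measure_mono (subset_univ _)
    exact (ENNReal.mul_le_mul_iff_left hμ0 hμ).1 hsum

end Main

end Reloc

/-- **Lemma L** (re-localisation). -/
theorem reloc {E : Type*} [NormedAddCommGroup E] [InnerProductSpace ℝ E] [FiniteDimensional ℝ E]
    [MeasurableSpace E] [BorelSpace E] (σ : Measure E) [IsFiniteMeasure σ] (κ : ℕ) (C : ℝ≥0∞)
    (hC : C ≠ ⊤)
    (hσ : ∀ (w : E) (b : ℕ), σ (Metric.closedBall w ((1 / 2) ^ b)) ≤ C * (1 / 2) ^ ((κ + 1) * b))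
    {ι : Type*} [Countable ι] (q : ℕ → E → ι) (hqm : ∀ b i, MeasurableSet (q b ⁻¹' {i}))
    (hqd : ∀ b s s', q b s = q b s' → dist s s' ≤ (1 / 2) ^ b)
    (K : ℕ) (hK : 1 ≤ K) (hqK : ∀ b w, (q b '' Metric.closedBall w ((1 / 2) ^ b)).encard ≤ K)
    (η : ℝ≥0∞) (hη : 0 < η) (hη1 : η ≤ 1)
    (w : E → ℝ≥0∞) (hw : Measurable w) (hw1 : ∀ s, w s ≤ 1) (a B : ℝ≥0∞)
    (h : BdReg σ κ (κ + 2) w a B) :
    Bd σ (κ + 2) w (a + 2 * η) (4 * (K : ℝ≥0∞) ^ 2 * η⁻¹ ^ 3 * B) := by
  intro μ b D hD hP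
  obtain ⟨⟨c, hc⟩, hdens⟩ := hP
  have hηtop : η ≠ ⊤ := ne_top_of_le_ne_top ENNReal.one_ne_top hη1
  have hh0 : η⁻¹ ≠ 0 := ENNReal.inv_ne_zero.2 hηtop
  have hh1 : η⁻¹ ≠ ⊤ := ENNReal.inv_ne_top.2 hη.ne'
  have hh2 : 1 ≤ η⁻¹ := ENNReal.one_le_inv.2 hη1
  have hfin : IsFiniteMeasure μ := by
    constructor
    calc μ univ ≤ (D • σ) univ := hdens univ
      _ = D * σ univ := rfl
      _ < ⊤ := ENNReal.mul_lt_top hD.lt_top (measure_lt_top σ _)
  have hμ : ∀ w, ∀ m : ℕ, μ (Metric.closedBall w ((1 / 2 : ℝ) ^ m)) ≤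
      (D * C) * (1 / 2) ^ ((κ + 1) * m) := by
    intro w m
    calc μ (Metric.closedBall w ((1 / 2 : ℝ) ^ m))
        ≤ (D • σ) (Metric.closedBall w ((1 / 2 : ℝ) ^ m)) := hdens _
      _ = D * σ (Metric.closedBall w ((1 / 2 : ℝ) ^ m)) := rfl
      _ ≤ D * (C * (1 / 2) ^ ((κ + 1) * m)) := mul_le_mul_right (hσ w m) _
      _ = _ := by rw [mul_assoc]
  have hex : ∀ s, ∃ m, ∀ k, Reloc.v q μ κ b k s ≤ Reloc.v q μ κ b m s := fun s =>
    Reloc.exists_max (Reloc.tendsto_v hqd (ENNReal.mul_ne_top hD hC) hμ s)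
  set S := Reloc.S q μ κ b η⁻¹ K with hS
  set A := Reloc.Ac q μ κ b η⁻¹ K with hA
  have hSm : ∀ x, MeasurableSet (S x) := Reloc.measurableSet_S hqm hex
  have hreg := Reloc.reg_S (h := η⁻¹) (K := K) hqm hqd hqK hex
  have hcompl := Reloc.measure_compl_le (κ := κ) (h := η⁻¹) hqm hqK hK hc hh0 hh1
  have hsum := Reloc.tsum_Ac_le (h := η⁻¹) (K := K) hqm hex (measure_ne_top μ univ)
  have hpiece : ∀ x, ∫⁻ s in S x, w s ∂μ ≤
      a * μ (S x) + B * D * (A x * (1 / 2) ^ ((κ + 2) * (b + x.1))) := by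
    intro x
    by_cases hk : Reloc.kept q μ κ b η⁻¹ K x
    · have hAx : A x = (K : ℝ≥0∞) * η⁻¹ * 2 ^ (x.1 + 1) := by
        rw [hA]; unfold Reloc.Ac; rw [if_pos hk]
      have hA1 : 1 ≤ A x := by
        rw [hAx]
        have e1 : (1 : ℝ≥0∞) ≤ K := by exact_mod_cast hK
        have e2 : (1 : ℝ≥0∞) ≤ 2 ^ (x.1 + 1) := one_le_pow₀ (by norm_num)
        calc (1 : ℝ≥0∞) = 1 * 1 * 1 := by norm_num
          _ ≤ _ := mul_le_mul' (mul_le_mul' e1 hh2) e2
      have hAtop : A x ≠ ⊤ := by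
        rw [hAx]
        exact ENNReal.mul_ne_top (ENNReal.mul_ne_top (ENNReal.natCast_ne_top K) hh1)
          (ENNReal.pow_ne_top (by norm_num))
      have hcomp : Comp σ κ (μ.restrict (S x)) (b + x.1) D (A x) := by
        refine ⟨⟨(hreg x).1, ?_⟩, (hreg x).2⟩
        exact Measure.restrict_le_self.trans hdens
      have h1 := h (μ.restrict (S x)) (b + x.1) D (A x) hD hA1 hAtop hcomp
      rw [Measure.restrict_apply MeasurableSet.univ, univ_inter] at h1
      refine h1.trans (le_of_eq ?_)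
      ring
    · have hSx : S x = ∅ := by rw [hS]; unfold Reloc.S; rw [if_neg hk]
      rw [hSx]
      simp only [Measure.restrict_empty, lintegral_zero_measure, measure_empty, mul_zero, one_div, zero_add, zero_le]
  have hdisj : Pairwise (Function.onFun Disjoint S) := Reloc.disjoint_S
  calc ∫⁻ s, w s ∂μ = ∫⁻ s in ⋃ x, S x, w s ∂μ + ∫⁻ s in (⋃ x, S x)ᶜ, w s ∂μ :=
        (lintegral_add_compl w (MeasurableSet.iUnion hSm)).symm
    _ ≤ (∑' x, ∫⁻ s in S x, w s ∂μ) + μ (⋃ x, S x)ᶜ := by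
        apply add_le_add
        · rw [lintegral_iUnion hSm hdisj]
        · calc ∫⁻ s in (⋃ x, S x)ᶜ, w s ∂μ ≤ ∫⁻ _s in (⋃ x, S x)ᶜ, 1 ∂μ :=
                lintegral_mono fun s => hw1 s
            _ = μ (⋃ x, S x)ᶜ := by rw [setLIntegral_const, one_mul]
    _ ≤ (∑' x, (a * μ (S x) + B * D * (A x * (1 / 2) ^ ((κ + 2) * (b + x.1))))) +
          2 * η⁻¹⁻¹ * μ univ := add_le_add (ENNReal.tsum_le_tsum hpiece) hcompl
    _ = a * (∑' x, μ (S x)) + B * D * (∑' x, A x * (1 / 2) ^ ((κ + 2) * (b + x.1))) +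
          2 * η * μ univ := by
        rw [ENNReal.tsum_add, ENNReal.tsum_mul_left, ENNReal.tsum_mul_left, inv_inv]
    _ ≤ a * μ univ + B * D * (4 * (K : ℝ≥0∞) ^ 2 * η⁻¹ ^ 3 * (1 / 2) ^ ((κ + 2) * b)) +
          2 * η * μ univ := by
        apply add_le_add _ le_rfl
        apply add_le_add
        · apply mul_le_mul_right
          rw [← measure_iUnion hdisj hSm]
          exact measure_mono (subset_univ _)
        · exact mul_le_mul_right hsum _
    _ = (a + 2 * η) * μ univ + 4 * (K : ℝ≥0∞) ^ 2 * η⁻¹ ^ 3 * B * D * (1 / 2) ^ ((κ + 2) * b) := by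
        ring

end P309
end
end

section

section

open Finset

namespace P309

theorem countAux_exp_le_two : Real.exp (1 / 4) ≤ 2 := by
  have h3 : Real.exp (-(1 / 4)) ≥ 3 / 4 := by
    have := Real.add_one_le_exp (-(1 / 4 : ℝ))
    linarith
  have h4 : Real.exp (1 / 4) * Real.exp (-(1 / 4)) = 1 := by
    rw [← Real.exp_add]; norm_num
  nlinarith only [h3, h4]

theorem countAux_sum_le (m : ℕ) (hm : 1 ≤ m) (s : Finset ℤ) :
    ∑ k ∈ s, Real.exp (-((k : ℝ) ^ 2 / (m : ℝ) ^ 2)) ≤ 6 * m := by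
  have hm1 : (1 : ℝ) ≤ m := by exact_mod_cast hm
  have hm0 : (0 : ℝ) < m := by linarith only [hm1]
  set x : ℝ := Real.exp (-(1 / (m : ℝ))) with hx
  have hx0 : 0 < x := Real.exp_pos _
  have hx1 : x * (1 + 1 / m) ≤ 1 := by
    have h1 : 1 + 1 / (m : ℝ) ≤ Real.exp (1 / (m : ℝ)) := by
      have := Real.add_one_le_exp (1 / (m : ℝ)); linarith only [this]
    calc x * (1 + 1 / m) ≤ x * Real.exp (1 / (m : ℝ)) := mul_le_mul_of_nonneg_left h1 hx0.le
      _ = 1 := by rw [hx, ← Real.exp_add]; simp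
  have hxm : x * (m + 1) ≤ m := by
    have : x * (1 + 1 / m) * m = x * (m + 1) := by field_simp
    rw [← this]
    nlinarith only [hx1]
  have hx2 : x < 1 := by nlinarith only [hxm]
  -- pointwise bound
  have hpt : ∀ k : ℤ, Real.exp (-((k : ℝ) ^ 2 / (m : ℝ) ^ 2)) ≤ 2 * x ^ k.natAbs := by
    intro k
    have h1 : x ^ k.natAbs = Real.exp (-(|(k : ℝ)| / m)) := by
      rw [hx, ← Real.exp_nat_mul]
      congr 1
      rw [Nat.cast_natAbs, Int.cast_abs]
      field_simp
    rw [h1]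
    have h2 : Real.exp (-((k : ℝ) ^ 2 / (m : ℝ) ^ 2))
        ≤ Real.exp (1 / 4) * Real.exp (-(|(k : ℝ)| / m)) := by
      rw [← Real.exp_add]
      apply Real.exp_le_exp.mpr
      have h3 : (k : ℝ) ^ 2 / (m : ℝ) ^ 2 = (|(k : ℝ)| / m) ^ 2 := by
        rw [div_pow, sq_abs]
      rw [h3]
      nlinarith only [sq_nonneg (|(k : ℝ)| / m - 1 / 2)]
    refine h2.trans ?_
    exact mul_le_mul_of_nonneg_right countAux_exp_le_two (Real.exp_pos _).le
  have hs1 : HasSum (fun n : ℕ => x ^ ((n : ℤ)).natAbs) ((1 - x)⁻¹) := by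
    simpa using hasSum_geometric_of_lt_one hx0.le hx2
  have hs2 : HasSum (fun n : ℕ => x ^ ((-((n : ℤ) + 1))).natAbs) (x * (1 - x)⁻¹) := by
    have h1 : (fun n : ℕ => x ^ ((-((n : ℤ) + 1))).natAbs) = fun n : ℕ => x * x ^ n := by
      funext n
      have : ((-((n : ℤ) + 1))).natAbs = n + 1 := by omega
      rw [this, pow_succ, mul_comm]
    rw [h1]
    exact (hasSum_geometric_of_lt_one hx0.le hx2).mul_left x
  have hs : HasSum (fun k : ℤ => x ^ k.natAbs) ((1 - x)⁻¹ + x * (1 - x)⁻¹) :=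
    HasSum.of_nat_of_neg_add_one hs1 hs2
  have hle : ∑ k ∈ s, x ^ k.natAbs ≤ (1 - x)⁻¹ + x * (1 - x)⁻¹ :=
    sum_le_hasSum s (fun k _ => by positivity) hs
  have hfin : (1 - x)⁻¹ + x * (1 - x)⁻¹ ≤ 3 * m := by
    have h1 : 0 < 1 - x := by linarith only [hx2]
    have h2 : (1 - x)⁻¹ + x * (1 - x)⁻¹ = (1 + x) / (1 - x) := by
      (clear * - hx0 h1; field_simp)
    rw [h2, div_le_iff₀ h1]
    nlinarith only [hm1, hxm]
  calc ∑ k ∈ s, Real.exp (-((k : ℝ) ^ 2 / (m : ℝ) ^ 2)) ≤ ∑ k ∈ s, 2 * x ^ k.natAbs :=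
        Finset.sum_le_sum fun k _ => hpt k
    _ = 2 * ∑ k ∈ s, x ^ k.natAbs := by rw [Finset.mul_sum]
    _ ≤ 6 * m := by linarith only [hle, hfin]

/-- number of lattice points in a ball. -/
theorem lattice_count (n m : ℕ) (hm : 1 ≤ m) (R : ℝ) (hR : 0 ≤ R) :
    {b : Fin n → ℤ | ∑ a, ((b a : ℝ)) ^ 2 ≤ R * n * m ^ 2}.Finite ∧
    ({b : Fin n → ℤ | ∑ a, ((b a : ℝ)) ^ 2 ≤ R * n * m ^ 2}.ncard : ℝ) ≤
      (Real.exp R * (6 * m)) ^ n := by
  have hm1 : (1 : ℝ) ≤ m := by exact_mod_cast hm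
  have hm0 : (0 : ℝ) < m := by linarith only [hm1]
  obtain ⟨T, hT⟩ := exists_nat_ge (R * n * (m : ℝ) ^ 2)
  set F : Finset (Fin n → ℤ) := Fintype.piFinset fun _ => Finset.Icc (-(T : ℤ)) T with hF
  have hsub : {b : Fin n → ℤ | ∑ a, ((b a : ℝ)) ^ 2 ≤ R * n * m ^ 2} ⊆ (F : Set (Fin n → ℤ)) := by
    intro b hb
    have hb' : ∑ a, ((b a : ℝ)) ^ 2 ≤ R * n * m ^ 2 := hb
    rw [hF, Finset.mem_coe, Fintype.mem_piFinset]
    intro a
    have h1 : ((b a : ℝ)) ^ 2 ≤ T :=
      ((Finset.single_le_sum (f := fun a => ((b a : ℝ)) ^ 2) (fun i _ => sq_nonneg _)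
        (Finset.mem_univ a)).trans hb').trans hT
    have h2 : (b a) ^ 2 ≤ (T : ℤ) := by exact_mod_cast h1
    rw [Finset.mem_Icc]
    constructor <;> nlinarith only [h2]
  refine ⟨F.finite_toSet.subset hsub, ?_⟩
  have hcard : {b : Fin n → ℤ | ∑ a, ((b a : ℝ)) ^ 2 ≤ R * n * m ^ 2}.ncard
      = (F.filter fun b => ∑ a, ((b a : ℝ)) ^ 2 ≤ R * n * m ^ 2).card := by
    rw [← Set.ncard_coe_finset]
    congr 1
    ext b
    simp only [Set.mem_ofPred_eq, Finset.coe_filter]
    exact ⟨fun h => ⟨hsub h, h⟩, fun h => h.2⟩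
  rw [hcard]
  calc (((F.filter fun b => ∑ a, ((b a : ℝ)) ^ 2 ≤ R * n * m ^ 2).card : ℕ) : ℝ)
      = ∑ b ∈ F.filter (fun b => ∑ a, ((b a : ℝ)) ^ 2 ≤ R * n * m ^ 2), (1 : ℝ) := by simp only [sum_const, nsmul_eq_mul, mul_one]
    _ ≤ ∑ b ∈ F.filter (fun b => ∑ a, ((b a : ℝ)) ^ 2 ≤ R * n * m ^ 2),
          Real.exp (R * n) * ∏ a, Real.exp (-((b a : ℝ) ^ 2 / (m : ℝ) ^ 2)) := by
        apply Finset.sum_le_sum
        intro b hb
        have h1 := (Finset.mem_filter.mp hb).2
        rw [← Real.exp_sum, ← Real.exp_add]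
        apply Real.one_le_exp
        rw [Finset.sum_neg_distrib, ← Finset.sum_div]
        have h2 : (∑ a, ((b a : ℝ)) ^ 2) / (m : ℝ) ^ 2 ≤ R * n := by
          rw [div_le_iff₀ (by positivity)]
          exact h1
        linarith only [h2]
    _ ≤ ∑ b ∈ F, Real.exp (R * n) * ∏ a, Real.exp (-((b a : ℝ) ^ 2 / (m : ℝ) ^ 2)) := by
        apply Finset.sum_le_sum_of_subset_of_nonneg (Finset.filter_subset _ _)
        intro b _ _
        positivity
    _ = Real.exp (R * n) * ∏ _a : Fin n, ∑ k ∈ Finset.Icc (-(T : ℤ)) T,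
          Real.exp (-((k : ℝ) ^ 2 / (m : ℝ) ^ 2)) := by
        rw [← Finset.mul_sum, Finset.prod_univ_sum]
    _ ≤ Real.exp (R * n) * ∏ _a : Fin n, (6 * (m : ℝ)) := by
        apply mul_le_mul_of_nonneg_left _ (Real.exp_pos _).le
        apply Finset.prod_le_prod
        · intro a _
          exact Finset.sum_nonneg fun _ _ => (Real.exp_pos _).le
        · intro a _
          exact countAux_sum_le m hm _
    _ = (Real.exp R * (6 * m)) ^ n := by
        rw [Finset.prod_const, Finset.card_univ, Fintype.card_fin, mul_pow (Real.exp R),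
          ← Real.exp_nat_mul, mul_comm R]

end P309
end
end

section

section

open MeasureTheory ProbabilityTheory Metric Set
open scoped ENNReal NNReal RealInnerProductSpace

namespace P309

theorem cellsAux_floor_abs (x y : ℝ) : |((⌊x⌋ - ⌊y⌋ : ℤ) : ℝ)| ≤ |x - y| + 1 := by
  push_cast
  have h1 := Int.floor_le x
  have h2 := Int.lt_floor_add_one x
  have h3 := Int.floor_le y
  have h4 := Int.lt_floor_add_one y
  rw [abs_le]
  have h5 := neg_abs_le (x - y)
  have h6 := le_abs_self (x - y)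
  constructor <;> linarith only [h1, h4, h6, h2, h3, h5]

/-- dyadic cells. -/
theorem exists_cells (d : ℕ) (hd : 1 ≤ d) :
    ∃ q : ℕ → EuclideanSpace ℝ (Fin d) → (Fin d → ℤ),
      (∀ b i, MeasurableSet (q b ⁻¹' {i})) ∧
      (∀ b s s', q b s = q b s' → dist s s' ≤ (1 / 2) ^ b) ∧
      (∀ b w, (q b '' closedBall w ((1 / 2) ^ b)).encard ≤ ((10 ^ (5 * d) : ℕ) : ℕ∞)) := by
  have hd1 : (1 : ℝ) ≤ d := by exact_mod_cast hd
  have hsd : 0 < Real.sqrt d := Real.sqrt_pos.mpr (by linarith only [hd1])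
  have hsd2 : Real.sqrt d ^ 2 = d := Real.sq_sqrt (by linarith only [])
  refine ⟨fun b s i => ⌊(2 : ℝ) ^ b * Real.sqrt d * s i⌋, ?_, ?_, ?_⟩
  · intro b i
    have hm : Measurable fun (s : EuclideanSpace ℝ (Fin d)) (i : Fin d) =>
        ⌊(2 : ℝ) ^ b * Real.sqrt d * s i⌋ := by
      rw [measurable_pi_iff]
      intro a
      apply Int.measurable_floor.comp
      apply Measurable.const_mul
      exact (EuclideanSpace.proj (𝕜 := ℝ) a).continuous.measurable
    exact hm (measurableSet_singleton i)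
  · intro b s s' h
    have h1 : ∀ i, (s i - s' i) ^ 2 ≤ (1 / 2) ^ (2 * b) / d := by
      intro i
      have h2 := congrFun h i
      have h3 := Int.abs_sub_lt_one_of_floor_eq_floor h2
      have h4 : (2 : ℝ) ^ b * Real.sqrt d * s i - 2 ^ b * Real.sqrt d * s' i
          = 2 ^ b * Real.sqrt d * (s i - s' i) := by ring
      rw [h4, abs_mul, abs_of_pos (by positivity)] at h3
      have h5 : ((2 : ℝ) ^ b * Real.sqrt d * |s i - s' i|) ^ 2 ≤ 1 := by
        apply pow_le_one₀ (by (clear * - hd; positivity)) h3.le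
      rw [mul_pow, mul_pow, sq_abs, hsd2] at h5
      rw [le_div_iff₀ (by linarith only [hd1])]
      have h6 : ((1 : ℝ) / 2) ^ (2 * b) * ((2 : ℝ) ^ b) ^ 2 = 1 := by
        rw [← pow_mul, mul_comm b 2, ← mul_pow]; norm_num
      have h7 : (0 : ℝ) ≤ (1 / 2) ^ (2 * b) := by positivity
      calc (s i - s' i) ^ 2 * d
          = ((1 : ℝ) / 2) ^ (2 * b) * ((2 : ℝ) ^ b) ^ 2 * ((s i - s' i) ^ 2 * d) := by
            rw [h6, one_mul]
        _ = (1 / 2) ^ (2 * b) * (((2 : ℝ) ^ b) ^ 2 * d * (s i - s' i) ^ 2) := by ring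
        _ ≤ (1 / 2) ^ (2 * b) * 1 := mul_le_mul_of_nonneg_left h5 h7
        _ = _ := mul_one _
    rw [EuclideanSpace.dist_eq]
    apply Real.sqrt_le_iff.mpr
    refine ⟨by positivity, ?_⟩
    calc ∑ i, dist (s i) (s' i) ^ 2 ≤ ∑ _i : Fin d, (1 / 2 : ℝ) ^ (2 * b) / d := by
          apply Finset.sum_le_sum
          intro i _
          rw [Real.dist_eq, sq_abs]
          exact h1 i
      _ = ((1 / 2) ^ b) ^ 2 := by
          rw [Finset.sum_const, Finset.card_univ, Fintype.card_fin, nsmul_eq_mul, ← pow_mul,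
            mul_comm b 2]
          field_simp
  · intro b w
    set y : EuclideanSpace ℝ (Fin d) → (Fin d → ℤ) := fun s i => ⌊(2 : ℝ) ^ b * Real.sqrt d * s i⌋
      with hy
    obtain ⟨hfin, hcard⟩ := lattice_count d 1 le_rfl 4 (by norm_num)
    set L : Set (Fin d → ℤ) := {b : Fin d → ℤ | ∑ a, ((b a : ℝ)) ^ 2 ≤ 4 * d * ((1 : ℕ) : ℝ) ^ 2}
      with hL
    have hsub : y '' closedBall w ((1 / 2) ^ b) ⊆ (fun k : Fin d → ℤ => k + y w) '' L := by
      rintro _ ⟨s, hs, rfl⟩
      refine ⟨y s - y w, ?_, by simp⟩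
      have hs1 : dist s w ≤ (1 / 2) ^ b := hs
      rw [EuclideanSpace.dist_eq] at hs1
      have hs2 : ∑ i, dist (s i) (w i) ^ 2 ≤ ((1 / 2) ^ b) ^ 2 := by
        have h0 : 0 ≤ ∑ i, dist (s i) (w i) ^ 2 := Finset.sum_nonneg fun _ _ => sq_nonneg _
        rw [← Real.sq_sqrt h0]
        exact pow_le_pow_left₀ (Real.sqrt_nonneg _) hs1 2
      have h2 : ∀ i, ((y s - y w) i : ℝ) ^ 2 ≤ 2 * (((2 : ℝ) ^ b) ^ 2 * d * dist (s i) (w i) ^ 2) + 2 := by
        intro i
        have h3 := cellsAux_floor_abs ((2 : ℝ) ^ b * Real.sqrt d * s i) (2 ^ b * Real.sqrt d * w i)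
        have h4 : |(2 : ℝ) ^ b * Real.sqrt d * s i - 2 ^ b * Real.sqrt d * w i|
            = 2 ^ b * Real.sqrt d * dist (s i) (w i) := by
          rw [Real.dist_eq, ← mul_sub, abs_mul, abs_of_pos (by positivity)]
        rw [h4] at h3
        have h5 : ((y s - y w) i : ℝ) ^ 2 ≤ (2 ^ b * Real.sqrt d * dist (s i) (w i) + 1) ^ 2 := by
          rw [← sq_abs ((y s - y w) i : ℝ)]
          exact pow_le_pow_left₀ (abs_nonneg _) h3 2
        refine h5.trans ?_
        have h6 : ((2 : ℝ) ^ b) ^ 2 * d * dist (s i) (w i) ^ 2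
            = (2 ^ b * Real.sqrt d * dist (s i) (w i)) ^ 2 := by
          rw [mul_pow, mul_pow, hsd2]
        rw [h6]
        nlinarith only [sq_nonneg (2 ^ b * Real.sqrt d * dist (s i) (w i) - 1)]
      rw [hL]
      show ∑ a, (((y s - y w) a : ℤ) : ℝ) ^ 2 ≤ 4 * d * ((1 : ℕ) : ℝ) ^ 2
      calc ∑ a, (((y s - y w) a : ℤ) : ℝ) ^ 2
          ≤ ∑ i, (2 * (((2 : ℝ) ^ b) ^ 2 * d * dist (s i) (w i) ^ 2) + 2) :=
            Finset.sum_le_sum fun i _ => h2 i
        _ = 2 * (((2 : ℝ) ^ b) ^ 2 * d * ∑ i, dist (s i) (w i) ^ 2) + 2 * d := by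
            rw [Finset.sum_add_distrib, ← Finset.mul_sum, ← Finset.mul_sum, Finset.sum_const,
              Finset.card_univ, Fintype.card_fin, nsmul_eq_mul]
            ring
        _ ≤ 2 * (((2 : ℝ) ^ b) ^ 2 * d * ((1 / 2) ^ b) ^ 2) + 2 * d := by
            have : (0 : ℝ) ≤ ((2 : ℝ) ^ b) ^ 2 * d := by positivity
            have := mul_le_mul_of_nonneg_left hs2 this
            linarith only [this]
        _ = 4 * d * ((1 : ℕ) : ℝ) ^ 2 := by
            have h6 : ((2 : ℝ) ^ b) ^ 2 * ((1 / 2 : ℝ) ^ b) ^ 2 = 1 := by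
              rw [← mul_pow, ← mul_pow]; norm_num
            have h7 : ((2 : ℝ) ^ b) ^ 2 * (d : ℝ) * ((1 / 2 : ℝ) ^ b) ^ 2 = (d : ℝ) := by
              calc ((2 : ℝ) ^ b) ^ 2 * (d : ℝ) * ((1 / 2 : ℝ) ^ b) ^ 2
                  = (((2 : ℝ) ^ b) ^ 2 * ((1 / 2 : ℝ) ^ b) ^ 2) * (d : ℝ) := by ring
                _ = (d : ℝ) := by rw [h6, one_mul]
            rw [h7]
            push_cast
            ring
    have hL2 : L.ncard ≤ 10 ^ (5 * d) := by
      have h1 : (L.ncard : ℝ) ≤ ((10 ^ (5 * d) : ℕ) : ℝ) := by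
        refine hcard.trans ?_
        push_cast
        rw [pow_mul]
        apply pow_le_pow_left₀ (by positivity)
        have h2 : Real.exp 4 ≤ 81 := by
          have h3 : Real.exp 1 < 3 := Real.exp_one_lt_three
          calc Real.exp 4 = Real.exp 1 ^ 4 := by rw [← Real.exp_nat_mul]; norm_num
            _ ≤ 3 ^ 4 := pow_le_pow_left₀ (Real.exp_pos _).le h3.le 4
            _ = 81 := by norm_num
        nlinarith only [h2]
      exact_mod_cast h1
    calc (y '' closedBall w ((1 / 2) ^ b)).encard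
        ≤ ((fun k : Fin d → ℤ => k + y w) '' L).encard := Set.encard_le_encard hsub
      _ ≤ L.encard := Set.encard_image_le _ _
      _ = (L.ncard : ℕ∞) := (Set.Finite.cast_ncard_eq hfin).symm
      _ ≤ ((10 ^ (5 * d) : ℕ) : ℕ∞) := by exact_mod_cast hL2

end P309
end
end

section

section

/-!
# P309: re-localisation in Euclidean space
-/

open MeasureTheory Metric Set
open scoped ENNReal NNReal

namespace P309

theorem reloc_bd (d : ℕ) (hd : 1 ≤ d) (σ : Measure (EuclideanSpace ℝ (Fin d)))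
    [IsFiniteMeasure σ] (κ : ℕ) (C : ℝ≥0∞) (hC : C ≠ ⊤)
    (hσ : ∀ (w : EuclideanSpace ℝ (Fin d)) (b : ℕ),
      σ (closedBall w ((1 / 2) ^ b)) ≤ C * (1 / 2) ^ ((κ + 1) * b))
    (η : ℝ≥0∞) (hη : 0 < η) (hη1 : η ≤ 1) (w : EuclideanSpace ℝ (Fin d) → ℝ≥0∞)
    (hw : Measurable w) (hw1 : ∀ s, w s ≤ 1) (a B : ℝ≥0∞) (h : BdReg σ κ (κ + 2) w a B) :
    Bd σ (κ + 2) w (a + 2 * η) (4 * 10 ^ (10 * d) * η⁻¹ ^ 3 * B) := by
  obtain ⟨q, h1, h2, h3⟩ := exists_cells d hd
  have h4 := reloc σ κ C hC hσ q h1 h2 (10 ^ (5 * d)) (Nat.one_le_pow _ _ (by norm_num)) h3 η hη hη1 w hw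
    hw1 a B h
  have e : 4 * (((10 ^ (5 * d) : ℕ) : ℝ≥0∞)) ^ 2 * η⁻¹ ^ 3 * B =
      4 * 10 ^ (10 * d) * η⁻¹ ^ 3 * B := by
    push_cast
    rw [← pow_mul, show 5 * d * 2 = 10 * d by ring]
  rwa [e] at h4

end P309
end
end

section

section

/-!
# P309, upper bound: the Kaczmarz update contracts in mean
-/

open MeasureTheory ProbabilityTheory Metric Set Filter
open scoped ENNReal RealInnerProductSpace

namespace P309.Upper

variable {d : ℕ}

/-- Euclidean space. -/
abbrev E (d : ℕ) := EuclideanSpace ℝ (Fin d)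

/-- Kaczmarz update. -/
noncomputable def kac (z x : E d) (y : ℝ) : E d := z + ((y - ⟪x, z⟫) / ‖x‖ ^ 2) • x

lemma kac_sub (z x s : E d) :
    kac z x ⟪x, s⟫ - s = (z - s) - (⟪x, z - s⟫ / ‖x‖ ^ 2) • x := by
  unfold kac
  rw [inner_sub_right]
  have : (⟪x, s⟫ - ⟪x, z⟫) / ‖x‖ ^ 2 = -((⟪x, z⟫ - ⟪x, s⟫) / ‖x‖ ^ 2) := by ring
  rw [this, neg_smul]
  abel

lemma norm_kac_sub_sq (z x s : E d) :
    ‖kac z x ⟪x, s⟫ - s‖ ^ 2 = ‖z - s‖ ^ 2 - ⟪x, z - s⟫ ^ 2 / ‖x‖ ^ 2 := by
  rw [kac_sub]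
  set e := z - s
  rcases eq_or_ne x 0 with rfl | hx
  · simp only [inner_zero_left, norm_zero, ne_eq, OfNat.ofNat_ne_zero, not_false_eq_true, zero_pow, div_zero, smul_zero, sub_zero]
  have hx' : ‖x‖ ^ 2 ≠ 0 := by positivity
  rw [norm_sub_sq_real, inner_smul_right, norm_smul, mul_pow, Real.norm_eq_abs, sq_abs,
    real_inner_comm x e]
  field_simp
  ring

lemma norm_kac_sub_le (z x s : E d) : ‖kac z x ⟪x, s⟫ - s‖ ≤ ‖z - s‖ := by
  apply le_of_sq_le_sq _ (norm_nonneg _)
  rw [norm_kac_sub_sq]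
  have : 0 ≤ ⟪x, z - s⟫ ^ 2 / ‖x‖ ^ 2 := by positivity
  linarith

lemma norm_kac_sub_le' (z x s : E d) (h : z ≠ s) :
    ‖kac z x ⟪x, s⟫ - s‖ ≤ ‖z - s‖ - (⟪x, z - s⟫ ^ 2 / ‖x‖ ^ 2) / (2 * ‖z - s‖) := by
  have h0 : 0 < ‖z - s‖ := norm_pos_iff.mpr (sub_ne_zero.mpr h)
  set a := ‖z - s‖ with ha
  set b := ⟪x, z - s⟫ ^ 2 / ‖x‖ ^ 2 with hb
  have hb0 : 0 ≤ b := by (clear * -; positivity)
  have hsq := norm_kac_sub_sq z x s
  rw [← ha, ← hb] at hsq
  have hba : b ≤ a ^ 2 := by
    have : 0 ≤ ‖kac z x ⟪x, s⟫ - s‖ ^ 2 := by (clear * -; positivity)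
    linarith only [hsq, this]
  have h1 : 0 ≤ a - b / (2 * a) := by
    rw [sub_nonneg, div_le_iff₀ (by positivity)]
    linarith
  apply le_of_sq_le_sq _ h1
  rw [hsq]
  have : (a - b / (2 * a)) ^ 2 = a ^ 2 - b + (b / (2 * a)) ^ 2 := by
    field_simp
    ring
  rw [this]
  have : 0 ≤ (b / (2 * a)) ^ 2 := by (clear * -; positivity)
  linarith only [this]

/-- The standard Gaussian measure has no mass at the origin. -/
lemma gauss_zero (hd : 1 ≤ d) : stdGaussian (E d) {0} = 0 := by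
  rw [← map_pi_eq_stdGaussian, Measure.map_apply (by fun_prop) (measurableSet_singleton _)]
  have : (WithLp.toLp 2 : (Fin d → ℝ) → E d) ⁻¹' {0} = {0} := by
    ext x
    simp
  rw [this, Measure.pi_singleton]
  have h0 : gaussianReal 0 1 {(0 : ℝ)} = 0 := by
    have := nullSingletonClass_gaussianReal (μ := 0) (one_ne_zero : (1 : NNReal) ≠ 0)
    exact measure_singleton _
  simp only [Pi.zero_apply, h0, Finset.prod_const, Finset.card_univ, Fintype.card_fin, ne_eq, (Nat.one_le_iff_ne_zero.mp hd), not_false_eq_true, zero_pow]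

lemma measurable_quot (e : E d) : Measurable (fun x : E d => ⟪x, e⟫ ^ 2 / ‖x‖ ^ 2) := by
  fun_prop

lemma quot_le (e x : E d) : ⟪x, e⟫ ^ 2 / ‖x‖ ^ 2 ≤ ‖e‖ ^ 2 := by
  rcases eq_or_ne x 0 with rfl | hx
  · simp only [inner_zero_left, ne_eq, OfNat.ofNat_ne_zero, not_false_eq_true, zero_pow, norm_zero, div_zero, norm_nonneg, pow_succ_nonneg]
  have hx' : 0 < ‖x‖ ^ 2 := by positivity
  rw [div_le_iff₀ hx', ← mul_pow, mul_comm]
  apply sq_le_sq'
  · have := abs_real_inner_le_norm x e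
    linarith [neg_abs_le ⟪x, e⟫]
  · exact real_inner_le_norm x e

lemma integrable_quot (e : E d) :
    Integrable (fun x : E d => ⟪x, e⟫ ^ 2 / ‖x‖ ^ 2) (stdGaussian (E d)) := by
  refine Integrable.of_bound (measurable_quot e).aestronglyMeasurable (‖e‖ ^ 2) ?_
  refine Eventually.of_forall fun x => ?_
  rw [Real.norm_of_nonneg (by positivity)]
  exact quot_le e x

lemma integral_quot_eq {u v : E d} (h : ‖u‖ = ‖v‖) :
    ∫ x, ⟪x, u⟫ ^ 2 / ‖x‖ ^ 2 ∂(stdGaussian (E d)) =
      ∫ x, ⟪x, v⟫ ^ 2 / ‖x‖ ^ 2 ∂(stdGaussian (E d)) := by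
  set f : E d ≃ₗᵢ[ℝ] E d := (ℝ ∙ (u - v))ᗮ.reflection with hf
  have hfu : f u = v := Submodule.reflection_sub h
  conv_rhs => rw [← stdGaussian_map f]
  rw [integral_map (by fun_prop) (measurable_quot v).aestronglyMeasurable]
  refine integral_congr_ae (Eventually.of_forall fun x => ?_)
  simp only
  rw [← hfu, f.inner_map_map, f.norm_map]

theorem integral_quot (hd : 1 ≤ d) (e : E d) :
    ∫ x, ⟪x, e⟫ ^ 2 / ‖x‖ ^ 2 ∂(stdGaussian (E d)) = ‖e‖ ^ 2 / d := by
  have hd0 : (d : ℝ) ≠ 0 := by positivity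
  -- standard basis vectors
  set b : Fin d → E d := fun i => ‖e‖ • EuclideanSpace.single i (1 : ℝ) with hb
  have hbn : ∀ i, ‖e‖ = ‖b i‖ := by
    intro i
    simp [hb, norm_smul]
  have h1 : ∀ i, ∫ x, ⟪x, b i⟫ ^ 2 / ‖x‖ ^ 2 ∂(stdGaussian (E d)) =
      ∫ x, ⟪x, e⟫ ^ 2 / ‖x‖ ^ 2 ∂(stdGaussian (E d)) := fun i =>
    (integral_quot_eq (hbn i)).symm
  have h2 : ∑ i, ∫ x, ⟪x, b i⟫ ^ 2 / ‖x‖ ^ 2 ∂(stdGaussian (E d)) = ‖e‖ ^ 2 := by
    rw [← integral_finsetSum _ (fun i _ => integrable_quot (b i))]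
    have h3 : ∀ᵐ x ∂(stdGaussian (E d)), ∑ i, ⟪x, b i⟫ ^ 2 / ‖x‖ ^ 2 = ‖e‖ ^ 2 := by
      have h0 : ∀ᵐ x ∂(stdGaussian (E d)), x ≠ 0 := by
        rw [ae_iff]
        simpa only [ne_eq, Decidable.not_not, ofPred_eq_eq_singleton] using gauss_zero hd
      filter_upwards [h0] with x hx
      have hx' : ‖x‖ ^ 2 ≠ 0 := by positivity
      have h4 : ∀ i, ⟪x, b i⟫ ^ 2 = ‖e‖ ^ 2 * ‖x i‖ ^ 2 := by
        intro i
        simp only [hb, inner_smul_right, mul_pow]
        congr 1
        rw [EuclideanSpace.inner_single_right]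
        simp
      simp_rw [h4]
      rw [← Finset.sum_div, ← Finset.mul_sum, ← EuclideanSpace.norm_sq_eq]
      (clear * - hx; field_simp)
    rw [integral_congr_ae h3]
    simp
  simp_rw [h1] at h2
  rw [Finset.sum_const, Finset.card_univ, Fintype.card_fin, nsmul_eq_mul] at h2
  rw [← h2]
  (clear * - hd0; field_simp)

/-- Mean contraction of the Kaczmarz update. -/
theorem kac_mean (hd : 1 ≤ d) (z s : E d) :
    ∫ x, ‖kac z x ⟪x, s⟫ - s‖ ∂(stdGaussian (E d)) ≤ (1 - 1 / (2 * d)) * ‖z - s‖ := by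
  rcases eq_or_ne z s with rfl | h
  · have : ∀ x : E d, ‖kac z x ⟪x, z⟫ - z‖ = 0 := by
      intro x
      have := norm_kac_sub_le z x z
      simp only [sub_self, norm_zero] at this
      exact le_antisymm this (norm_nonneg _)
    simp_rw [this]
    simp only [integral_zero, one_div, mul_inv_rev, sub_self, norm_zero, mul_zero, Std.le_refl]
  · have h0 : 0 < ‖z - s‖ := norm_pos_iff.mpr (sub_ne_zero.mpr h)
    have hd0 : (0 : ℝ) < d := by exact_mod_cast hd
    calc ∫ x, ‖kac z x ⟪x, s⟫ - s‖ ∂(stdGaussian (E d))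
        ≤ ∫ x, (‖z - s‖ - (⟪x, z - s⟫ ^ 2 / ‖x‖ ^ 2) / (2 * ‖z - s‖))
            ∂(stdGaussian (E d)) := by
          apply integral_mono_of_nonneg
          · exact Eventually.of_forall fun x => norm_nonneg _
          · exact (integrable_const _).sub ((integrable_quot _).div_const _)
          · exact Eventually.of_forall fun x => norm_kac_sub_le' z x s h
      _ = ‖z - s‖ - (‖z - s‖ ^ 2 / d) / (2 * ‖z - s‖) := by
          rw [integral_sub (integrable_const _) ((integrable_quot _).div_const _),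
            integral_div, integral_quot hd]
          simp
      _ = (1 - 1 / (2 * d)) * ‖z - s‖ := by
          field_simp

end P309.Upper
end
end

section

section

/-!
# P309, upper bound: measurable rounding to a finite net
-/

open MeasureTheory ProbabilityTheory Metric Set Filter
open scoped ENNReal RealInnerProductSpace

namespace P309.Upper

variable {d : ℕ}

/-- Measurable rounding of the ball of radius 3 to at most `(1 + 6/δ)^d` points. -/
theorem exists_rounding (d : ℕ) {δ : ℝ} (hδ : 0 < δ) {N : ℕ}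
    (hN : (1 + 6 / δ) ^ d ≤ (N : ℝ)) :
    ∃ (pt : Fin N → E d) (rd : E d → Fin N), Measurable rd ∧
      ∀ w : E d, ‖w‖ ≤ 3 → ‖pt (rd w) - w‖ ≤ δ := by
  classical
  obtain ⟨S, hS1, -, hS2⟩ := P309.exists_net (V := E d) 0 3 δ hδ (by norm_num)
  have hne : S.Nonempty := by
    obtain ⟨z, hz, -⟩ := hS2 0 (by simp)
    exact ⟨z, hz⟩
  have hcard : S.card ≤ N := by
    have h1 : (S.card : ℝ) ≤ N := by
      refine hS1.trans ?_
      rw [finrank_euclideanSpace_fin]
      have : (2 : ℝ) * 3 / δ = 6 / δ := by norm_num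
      rw [this]
      exact hN
    exact_mod_cast h1
  have hpos : 0 < S.card := hne.card_pos
  set e : ℕ → E d := fun k => if h : k < S.card then (S.equivFin.symm ⟨k, h⟩ : E d) else 0 with he
  set K : ℕ := S.card - 1 with hK
  have hKN : ∀ w, SimpleFunc.nearestPtInd e K w < N := by
    intro w
    have := SimpleFunc.nearestPtInd_le e K w
    omega
  have hN0 : 0 < N := lt_of_lt_of_le hpos hcard
  refine ⟨fun i => e i, fun w => (⟨SimpleFunc.nearestPtInd e K w, hKN w⟩ : Fin N), ?_, ?_⟩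
  · have h1 : (fun w => (⟨SimpleFunc.nearestPtInd e K w, hKN w⟩ : Fin N)) =
        (fun k : ℕ => if h : k < N then (⟨k, h⟩ : Fin N) else ⟨0, hN0⟩) ∘
          (SimpleFunc.nearestPtInd e K) := by
      funext w
      simp only [Function.comp]
      rw [dif_pos (hKN w)]
    rw [h1]
    exact (measurable_of_countable _).comp (SimpleFunc.measurable _)
  · intro w hw
    obtain ⟨z, hz, hzw⟩ := hS2 w (by simpa only [mem_closedBall, dist_zero_right] using hw)
    have hk : ((S.equivFin ⟨z, hz⟩ : Fin S.card) : ℕ) ≤ K := by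
      have := (S.equivFin ⟨z, hz⟩).2
      omega
    have hek : e ((S.equivFin ⟨z, hz⟩ : Fin S.card) : ℕ) = z := by
      rw [he]
      simp
    have h2 := SimpleFunc.edist_nearestPt_le e w hk
    rw [hek] at h2
    have h3 : SimpleFunc.nearestPt e K w = e (SimpleFunc.nearestPtInd e K w) := by
      simp [SimpleFunc.nearestPt]
    rw [h3] at h2
    have h4 : dist (e (SimpleFunc.nearestPtInd e K w)) w ≤ dist z w := by
      rw [edist_dist, edist_dist] at h2
      exact (ENNReal.ofReal_le_ofReal_iff dist_nonneg).mp h2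
    change ‖e (SimpleFunc.nearestPtInd e K w) - w‖ ≤ δ
    rw [← dist_eq_norm]
    refine h4.trans ?_
    rw [dist_comm]
    exact hzw

end P309.Upper
end
end

section

section

/-!
# P309: abbreviations used in the proofs
-/

namespace P309

/-- The Euclidean space `ℝ^d`. -/
abbrev Vec (d : ℕ) : Type := EuclideanSpace ℝ (Fin d)

/-- The unit sphere of `ℝ^d`. -/
abbrev Sph (d : ℕ) : Type := Metric.sphere (0 : Vec d) 1

end P309
end
end

section

section

/-!
# P309: the block decomposition of a learner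
-/

open MeasureTheory ProbabilityTheory Metric Set
open scoped ENNReal NNReal RealInnerProductSpace

namespace P309

variable {d N : ℕ}

instance (L : Learner (Vec d) N) : IsProbabilityMeasure L.init := L.init_prob
instance (L : Learner (Vec d) N) (t : ℕ) : IsMarkovKernel (L.step t) := L.step_markov t
instance (L : Learner (Vec d) N) (t : ℕ) : IsMarkovKernel (L.out t) := L.out_markov t

lemma measurableSet_near (ε : ℝ) :
    MeasurableSet {p : Vec d × Sph d | Real.arccos ⟪(p.2 : Vec d), p.1⟫ ≤ ε} := by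
  apply IsClosed.measurableSet
  apply isClosed_le _ continuous_const
  exact Real.continuous_arccos.comp (by fun_prop)

lemma Learner.measurable_good (L : Learner (Vec d) N) (ε : ℝ) (t : ℕ) (q : Fin N) :
    Measurable (L.good ε t q) := by
  unfold Learner.good
  exact measurable_measure_prodMk_left (measurableSet_near ε)

lemma Learner.good_le_one (L : Learner (Vec d) N) (ε : ℝ) (t : ℕ) (q : Fin N) (s : Vec d) :
    L.good ε t q s ≤ 1 := by
  unfold Learner.good
  exact prob_le_one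

/-- Transition weights. -/
noncomputable def Learner.wt (L : Learner (Vec d) N) (t : ℕ) (q : Fin N) (o : Bool × Fin N)
    (x : Vec d × ℝ) : ℝ≥0∞ := L.step t (q, x.1, x.2) {o}

lemma Learner.measurable_wt (L : Learner (Vec d) N) (t : ℕ) (q : Fin N) (o : Bool × Fin N) :
    Measurable (L.wt t q o) := by
  unfold Learner.wt
  exact (Kernel.measurable_coe _ (measurableSet_singleton o)).comp (by fun_prop)

lemma Learner.sum_wt (L : Learner (Vec d) N) (t : ℕ) (q : Fin N) (x : Vec d × ℝ) :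
    ∑ o, L.wt t q o x = 1 := by
  unfold Learner.wt
  have h := lintegral_fintype (μ := L.step t (q, x.1, x.2)) (fun _ => (1 : ℝ≥0∞))
  simp only [lintegral_const, measure_univ, one_mul] at h
  rw [← h]

/-- Value after one more step. -/
noncomputable def Learner.nxt (L : Learner (Vec d) N) (ε : ℝ) (k t : ℕ) (o : Bool × Fin N) (s : Vec d) :
    ℝ≥0∞ := if o.1 = true then L.good ε (t + 1) o.2 s else L.win ε k (t + 1) o.2 s

lemma Learner.win_succ (L : Learner (Vec d) N) (ε : ℝ) (k t : ℕ) (q : Fin N) (s : Vec d) :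
    L.win ε (k + 1) t q s =
      ∫⁻ x, ∑ o, L.wt t q o (x, ⟪x, s⟫) * L.nxt ε k t o s ∂(stdGaussian (Vec d)) := by
  rw [Learner.win]
  apply lintegral_congr
  intro x
  rw [lintegral_fintype]
  apply Finset.sum_congr rfl
  intro o _
  rw [mul_comm]
  rfl

lemma Learner.measurable_win (L : Learner (Vec d) N) (ε : ℝ) (k t : ℕ) (q : Fin N) :
    Measurable (L.win ε k t q) := by
  induction k generalizing t q with
  | zero => exact L.measurable_good ε t q
  | succ k ih =>
    have h : L.win ε (k + 1) t q = fun s =>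
        ∫⁻ x, ∑ o, L.wt t q o (x, ⟪x, s⟫) * L.nxt ε k t o s ∂(stdGaussian (Vec d)) := by
      funext s
      exact L.win_succ ε k t q s
    rw [h]
    refine Measurable.lintegral_prod_right' (f := fun p : Vec d × Vec d =>
      ∑ o, L.wt t q o (p.2, ⟪p.2, p.1⟫) * L.nxt ε k t o p.1) ?_
    apply Finset.measurable_sum
    intro o _
    apply Measurable.mul
    · exact (L.measurable_wt t q o).comp (by fun_prop)
    · unfold Learner.nxt
      by_cases ho : o.1 = true
      · simp only [ho, if_true]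
        exact (L.measurable_good ε (t + 1) o.2).comp measurable_fst
      · simp only [ho]
        exact (ih (t + 1) o.2).comp measurable_fst

lemma Learner.win_le_one (L : Learner (Vec d) N) (ε : ℝ) (k t : ℕ) (q : Fin N) (s : Vec d) :
    L.win ε k t q s ≤ 1 := by
  induction k generalizing t q with
  | zero => exact L.good_le_one ε t q s
  | succ k ih =>
    rw [L.win_succ]
    calc ∫⁻ x, ∑ o, L.wt t q o (x, ⟪x, s⟫) * L.nxt ε k t o s ∂(stdGaussian (Vec d))
        ≤ ∫⁻ x, 1 ∂(stdGaussian (Vec d)) := by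
          apply lintegral_mono
          intro x
          calc ∑ o, L.wt t q o (x, ⟪x, s⟫) * L.nxt ε k t o s
              ≤ ∑ o, L.wt t q o (x, ⟪x, s⟫) * 1 := by
                gcongr with o _
                unfold Learner.nxt
                split_ifs
                · exact L.good_le_one ε _ _ s
                · exact ih _ _
            _ = 1 := by simp only [mul_one]; exact L.sum_wt t q _
      _ = 1 := by simp

/-- The continuation values at the end of a block of at most `n` samples which starts at time `t`,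
the time after the block being `t + j`. -/
noncomputable def Learner.fam (L : Learner (Vec d) N) (ε : ℝ) (n k t j : ℕ) :
    (Fin N ⊕ (Fin n × Fin N)) → Vec d → ℝ≥0∞
  | Sum.inl q => L.win ε k (t + j) q
  | Sum.inr (i, q) => L.good ε (t + i + 1) q

lemma Learner.rep_aux (L : Learner (Vec d) N) (ε : ℝ) (n k t j : ℕ) (hj : j ≤ n) (i t' : ℕ)
    (ht : t' + i = t + j) (hi : i ≤ j) (q : Fin N) :
    Rep i (L.fam ε n k t j) (L.win ε (k + i) t' q) := by
  induction i generalizing t' q with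
  | zero =>
    have h : t' = t + j := by omega
    subst h
    exact Rep.zero (L.fam ε n k t j) (Sum.inl q)
  | succ i ih =>
    refine Rep.succ (O := Bool × Fin N) _ (L.nxt ε (k + i) t') ?_ (L.wt t' q)
      (L.measurable_wt t' q) (fun x => (L.sum_wt t' q x).le) _ (L.win_succ ε (k + i) t' q)
    rintro ⟨b, q'⟩
    cases b with
    | true =>
      have h : L.nxt ε (k + i) t' (true, q') =
          L.fam ε n k t j (Sum.inr (⟨t' - t, by omega⟩, q')) := by
        funext s
        have : t + (t' - t) + 1 = t' + 1 := by omega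
        simp only [nxt, ↓reduceIte, fam, this]
      rw [h]
      exact Rep.self i _ _
    | false =>
      have h : L.nxt ε (k + i) t' (false, q') = L.win ε (k + i) (t' + 1) q' := by
        funext s
        simp [Learner.nxt]
      rw [h]
      exact ih (t' + 1) (by omega) (by omega) q'

lemma Learner.rep_win (L : Learner (Vec d) N) (ε : ℝ) (n k t j : ℕ) (hj : j ≤ n) (q : Fin N) :
    Rep n (L.fam ε n k t j) (L.win ε (k + j) t q) :=
  Rep.mono hj _ _ (L.rep_aux ε n k t j hj j t rfl le_rfl q)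

/-- Induction over the blocks. -/
theorem Learner.block_induction (L : Learner (Vec d) N) (ε : ℝ) (n : ℕ)
    (P : ℕ → (Vec d → ℝ≥0∞) → Prop) (hmono : ∀ I w, P I w → P (I + 1) w)
    (hbase : ∀ t q, P 0 (L.good ε t q))
    (hstep : ∀ (I : ℕ) (W : (Fin N ⊕ (Fin n × Fin N)) → Vec d → ℝ≥0∞) (w : Vec d → ℝ≥0∞),
      (∀ z, Measurable (W z)) → (∀ z s, W z s ≤ 1) → Measurable w → (∀ s, w s ≤ 1) →
      (∀ z, P I (W z)) → Rep n W w → P (I + 1) w) :
    ∀ (I k t : ℕ) (q : Fin N), k ≤ I * n → P I (L.win ε k t q) := by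
  intro I
  induction I with
  | zero =>
    intro k t q hk
    have : k = 0 := by omega
    subst this
    exact hbase t q
  | succ I ih =>
    intro k t q hk
    by_cases hk' : k ≤ I * n
    · exact hmono I _ (ih k t q hk')
    · obtain ⟨j, rfl⟩ : ∃ j, k = I * n + j := ⟨k - I * n, by omega⟩
      have hj : j ≤ n := by
        rw [add_mul, one_mul] at hk
        omega
      have hgood : ∀ t q I, P I (L.good ε t q) := by
        intro t q I
        induction I with
        | zero => exact hbase t q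
        | succ I ih' => exact hmono I _ ih'
      refine hstep I (L.fam ε n (I * n) t j) _ ?_ ?_ (L.measurable_win ε _ t q)
        (L.win_le_one ε _ t q) ?_ (L.rep_win ε n (I * n) t j hj q)
      · rintro (q' | ⟨i, q'⟩)
        · exact L.measurable_win ε _ _ q'
        · exact L.measurable_good ε _ q'
      · rintro (q' | ⟨i, q'⟩) s
        · exact L.win_le_one ε _ _ q' s
        · exact L.good_le_one ε _ q' s
      · rintro (q' | ⟨i, q'⟩)
        · exact ih (I * n) _ q' le_rfl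
        · exact hgood _ q' I

lemma sphereProb_eq_map : sphereProb (Vec d) = (unifSphere (Vec d)).map Subtype.val := by
  unfold sphereProb unifSphere
  rw [Measure.map_smul]

lemma lintegral_unifSphere (f : Vec d → ℝ≥0∞) (hf : Measurable f) :
    ∫⁻ s : Sph d, f (s : Vec d) ∂(unifSphere (Vec d)) = ∫⁻ s, f s ∂(sphereProb (Vec d)) := by
  rw [sphereProb_eq_map, lintegral_map hf measurable_subtype_coe]

/-- Upper bound for the success probability. -/
theorem Learner.success_le (L : Learner (Vec d) N) (ε : ℝ) (T : ℕ) (b : ℝ≥0∞)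
    (h : ∀ q, ∫⁻ s, L.win ε T 0 q s ∂(sphereProb (Vec d)) ≤ b) :
    ∫⁻ s : Sph d, ∫⁻ q, L.win ε T 0 q (s : Vec d) ∂L.init ∂(unifSphere (Vec d)) ≤ b := by
  have h1 : ∀ s : Sph d, ∫⁻ q, L.win ε T 0 q (s : Vec d) ∂L.init =
      ∑ q, L.win ε T 0 q (s : Vec d) * L.init {q} := fun s => lintegral_fintype _
  simp_rw [h1]
  rw [lintegral_finsetSum]
  · calc ∑ q, ∫⁻ s : Sph d, L.win ε T 0 q (s : Vec d) * L.init {q} ∂(unifSphere (Vec d))
        = ∑ q, (∫⁻ s, L.win ε T 0 q s ∂(sphereProb (Vec d))) * L.init {q} := by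
          apply Finset.sum_congr rfl
          intro q _
          rw [lintegral_mul_const, lintegral_unifSphere _ (L.measurable_win ε T 0 q)]
          exact (L.measurable_win ε T 0 q).comp measurable_subtype_coe
      _ ≤ ∑ q, b * L.init {q} := by
          gcongr with q _
          exact h q
      _ = b := by
          have h2 := lintegral_fintype (μ := L.init) (fun _ => b)
          rw [← h2]
          simp only [lintegral_const, measure_univ, mul_one]
  · intro q _
    apply Measurable.mul_const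
    exact (L.measurable_win ε T 0 q).comp measurable_subtype_coe

/-- The outputs of all possible stopped states. -/
theorem Learner.win_le_sum (L : Learner (Vec d) N) (ε : ℝ) (k t : ℕ) (q : Fin N) (s : Vec d) :
    L.win ε k t q s ≤ ∑ i ∈ Finset.range (k + 1), ∑ q', L.good ε (t + i) q' s := by
  induction k generalizing t q with
  | zero =>
    simp only [zero_add, Finset.range_one, Finset.sum_singleton, add_zero]
    exact Finset.single_le_sum (f := fun q' => L.good ε t q' s) (fun _ _ => zero_le)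
      (Finset.mem_univ q)
  | succ k ih =>
    rw [L.win_succ]
    set b := ∑ i ∈ Finset.range (k + 1 + 1), ∑ q', L.good ε (t + i) q' s with hb
    calc ∫⁻ x, ∑ o, L.wt t q o (x, ⟪x, s⟫) * L.nxt ε k t o s ∂(stdGaussian (Vec d))
        ≤ ∫⁻ x, b ∂(stdGaussian (Vec d)) := by
          apply lintegral_mono
          intro x
          calc ∑ o, L.wt t q o (x, ⟪x, s⟫) * L.nxt ε k t o s
              ≤ ∑ o, L.wt t q o (x, ⟪x, s⟫) * b := by
                gcongr with o _
                unfold Learner.nxt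
                split_ifs
                · refine le_trans ?_ (Finset.single_le_sum (f := fun i =>
                    ∑ q', L.good ε (t + i) q' s) (fun _ _ => zero_le)
                    (Finset.mem_range.mpr (by omega : 1 < k + 1 + 1)))
                  exact Finset.single_le_sum (f := fun q' => L.good ε (t + 1) q' s)
                    (fun _ _ => zero_le) (Finset.mem_univ o.2)
                · refine (ih (t + 1) o.2).trans ?_
                  rw [hb, Finset.sum_range_succ' _ (k + 1)]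
                  refine le_trans (le_of_eq ?_) le_self_add
                  apply Finset.sum_congr rfl
                  intro i _
                  have : t + 1 + i = t + (i + 1) := by omega
                  rw [this]
            _ = b := by rw [← Finset.sum_mul, L.sum_wt, one_mul]
      _ = b := by simp

end P309
end
end

section

section

/-!
# P309: bound for the output functions
-/

open MeasureTheory ProbabilityTheory Metric Set
open scoped ENNReal NNReal RealInnerProductSpace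

namespace P309

lemma base_dist_le {E : Type*} [NormedAddCommGroup E] [InnerProductSpace ℝ E] {z s : E}
    (hz : ‖z‖ = 1) (hs : ‖s‖ = 1) {ε : ℝ} (h : Real.arccos ⟪z, s⟫ ≤ ε) : dist z s ≤ ε := by
  have h0 : 0 ≤ Real.arccos ⟪z, s⟫ := Real.arccos_nonneg _
  have h1 : |⟪z, s⟫| ≤ 1 := by
    have := abs_real_inner_le_norm z s
    rwa [hz, hs, one_mul] at this
  have h2 : Real.cos (Real.arccos ⟪z, s⟫) = ⟪z, s⟫ :=
    Real.cos_arccos (abs_le.mp h1).1 (abs_le.mp h1).2
  have h3 := Real.one_sub_sq_div_two_le_cos (x := Real.arccos ⟪z, s⟫)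
  rw [h2] at h3
  have h4 : ‖z - s‖ ^ 2 = 2 - 2 * ⟪z, s⟫ := by
    rw [norm_sub_sq_real, hz, hs]
    ring
  rw [dist_eq_norm]
  apply le_of_sq_le_sq _ (h0.trans h)
  nlinarith only [h3, h4, h, h0]

theorem base_bd {d N : ℕ} (hd : 2 ≤ d) (L : Learner (Vec d) N) (ε : ℝ) (hε : 0 < ε)
    (κ₁ : ℕ) (hκ : κ₁ ≤ d - 1) (t : ℕ) (q : Fin N) :
    Bd (sphereProb (Vec d)) κ₁ (L.good ε t q) 0
      (ENNReal.ofReal (6 ^ d * ε ^ (d - 1 - κ₁))) := by
  intro μ b D hD hμ
  have : Nonempty (Fin d) := ⟨⟨0, by omega⟩⟩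
  have hnt : Nontrivial (Vec d) := inferInstance
  have hfin : IsFiniteMeasure μ := by
    constructor
    refine lt_of_le_of_lt (hμ.dens univ) ?_
    simp only [Measure.smul_apply, measure_univ, smul_eq_mul, mul_one]
    exact hD.lt_top
  obtain ⟨c, hc⟩ := hμ.supp
  set r : ℝ := (1 / 2) ^ b with hr
  have hr0 : 0 < r := by positivity
  have hsph : μ (sphere (0 : Vec d) 1)ᶜ = 0 := by
    have h1 := hμ.dens (sphere (0 : Vec d) 1)ᶜ
    rw [Measure.smul_apply, sphereProb_compl_sphere] at h1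
    simpa only [smul_eq_mul, mul_zero, nonpos_iff_eq_zero] using h1
  have key : ∀ z : Sph d, μ {s | Real.arccos ⟪(z : Vec d), s⟫ ≤ ε} ≤
      D * (ENNReal.ofReal (6 ^ d * ε ^ (d - 1 - κ₁)) * (1 / 2) ^ (κ₁ * b)) := by
    intro z
    have hz : ‖(z : Vec d)‖ = 1 := by simp
    have hsub : {s : Vec d | Real.arccos ⟪(z : Vec d), s⟫ ≤ ε} ⊆
        (closedBall (z : Vec d) ε ∩ closedBall c r) ∪ ((sphere (0 : Vec d) 1)ᶜ ∪
          (closedBall c r)ᶜ) := by
      intro s hs
      by_cases h1 : s ∈ sphere (0 : Vec d) 1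
      · by_cases h2 : s ∈ closedBall c r
        · left
          refine ⟨?_, h2⟩
          rw [mem_closedBall, dist_comm]
          exact base_dist_le hz (by simpa using h1) hs
        · right; right; exact h2
      · right; left; exact h1
    have hvol : sphereProb (Vec d) (closedBall (z : Vec d) ε ∩ closedBall c r) ≤
        ENNReal.ofReal (6 ^ d * ε ^ (d - 1 - κ₁)) * (1 / 2) ^ (κ₁ * b) := by
      have h1 : sphereProb (Vec d) (closedBall (z : Vec d) ε ∩ closedBall c r) ≤
          ENNReal.ofReal (6 ^ d * (min ε r) ^ (d - 1)) := by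
        rcases le_total ε r with h | h
        · rw [min_eq_left h]
          have := sphereProb_closedBall_le (z : Vec d) ε hε
          rw [finrank_euclideanSpace_fin] at this
          exact (measure_mono inter_subset_left).trans this
        · rw [min_eq_right h]
          have := sphereProb_closedBall_le c r hr0
          rw [finrank_euclideanSpace_fin] at this
          exact (measure_mono inter_subset_right).trans this
      refine h1.trans ?_
      have h2 : (min ε r) ^ (d - 1) ≤ ε ^ (d - 1 - κ₁) * r ^ κ₁ := by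
        have h3 : d - 1 = (d - 1 - κ₁) + κ₁ := by omega
        rw [h3, pow_add, ← h3]
        have h4 : 0 ≤ min ε r := le_min hε.le hr0.le
        gcongr
        · exact min_le_left _ _
        · exact min_le_right _ _
      have h5 : (6 : ℝ) ^ d * (min ε r) ^ (d - 1) ≤
          6 ^ d * ε ^ (d - 1 - κ₁) * (1 / 2) ^ (κ₁ * b) := by
        rw [mul_assoc, mul_comm κ₁ b, pow_mul, ← hr]
        (clear * - h2; gcongr)
      refine (ENNReal.ofReal_le_ofReal h5).trans (le_of_eq ?_)
      rw [ENNReal.ofReal_mul (by positivity), ENNReal.ofReal_pow (by norm_num : (0:ℝ) ≤ 1 / 2),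
        ENNReal.ofReal_div_of_pos (by norm_num)]
      simp only [Nat.ofNat_nonneg, pow_nonneg, ENNReal.ofReal_mul, ENNReal.ofReal_pow, ENNReal.ofReal_ofNat, ENNReal.ofReal_one, one_div]
    calc μ {s | Real.arccos ⟪(z : Vec d), s⟫ ≤ ε}
        ≤ μ ((closedBall (z : Vec d) ε ∩ closedBall c r) ∪ ((sphere (0 : Vec d) 1)ᶜ ∪
          (closedBall c r)ᶜ)) := measure_mono hsub
      _ ≤ μ (closedBall (z : Vec d) ε ∩ closedBall c r) + μ ((sphere (0 : Vec d) 1)ᶜ ∪
          (closedBall c r)ᶜ) := measure_union_le _ _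
      _ = μ (closedBall (z : Vec d) ε ∩ closedBall c r) := by
          rw [measure_union_null hsph hc, add_zero]
      _ ≤ (D • sphereProb (Vec d)) (closedBall (z : Vec d) ε ∩ closedBall c r) := hμ.dens _
      _ ≤ _ := by
          rw [Measure.smul_apply, smul_eq_mul]
          (clear * - hvol; gcongr)
  have hswap : ∫⁻ s, L.good ε t q s ∂μ =
      ∫⁻ z, μ {s | Real.arccos ⟪(z : Vec d), s⟫ ≤ ε} ∂(L.out t q) := by
    have h1 := Measure.prod_apply (μ := μ) (ν := L.out t q) (measurableSet_near (d := d) ε)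
    have h2 := Measure.prod_apply_symm (μ := μ) (ν := L.out t q) (measurableSet_near (d := d) ε)
    rw [h1] at h2
    exact h2
  rw [hswap, zero_mul, zero_add]
  calc ∫⁻ z, μ {s | Real.arccos ⟪(z : Vec d), s⟫ ≤ ε} ∂(L.out t q)
      ≤ ∫⁻ _, D * (ENNReal.ofReal (6 ^ d * ε ^ (d - 1 - κ₁)) * (1 / 2) ^ (κ₁ * b)) ∂(L.out t q) :=
        lintegral_mono fun z => key z
    _ = ENNReal.ofReal (6 ^ d * ε ^ (d - 1 - κ₁)) * D * (1 / 2) ^ (κ₁ * b) := by
        rw [lintegral_const, measure_univ, mul_one]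
        ring

end P309
end
end

section

section

/-!
# P309: assembly of the block argument
-/

open MeasureTheory ProbabilityTheory Metric Set
open scoped ENNReal NNReal RealInnerProductSpace

namespace P309

lemma nontrivial_vec {d : ℕ} (hd : 2 ≤ d) : Nontrivial (Vec d) := by
  have : Nonempty (Fin d) := ⟨⟨0, by omega⟩⟩
  infer_instance

lemma Bd.mono {E : Type*} [NormedAddCommGroup E] [InnerProductSpace ℝ E] [FiniteDimensional ℝ E]
    [MeasurableSpace E] [BorelSpace E] {σ : Measure E} {κ₁ : ℕ} {w : E → ℝ≥0∞} {a B a' B' : ℝ≥0∞}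
    (h : Bd σ κ₁ w a B) (ha : a ≤ a') (hB : B ≤ B') : Bd σ κ₁ w a' B' := by
  intro μ b D hD hμ
  refine (h μ b D hD hμ).trans ?_
  (clear * - ha hB; gcongr)

/-- The loss factor of one block. -/
noncomputable def gam (d n m : ℕ) (η : ℝ≥0∞) : ℝ≥0∞ :=
  4 * 10 ^ (10 * d + 17 * n) * η⁻¹ ^ 11 * 4 ^ m

lemma one_le_gam (d n m : ℕ) (η : ℝ≥0∞) (hη1 : η ≤ 1) : 1 ≤ gam d n m η := by
  unfold gam
  have h1 : (1 : ℝ≥0∞) ≤ 4 := by norm_num
  have h2 : (1 : ℝ≥0∞) ≤ 10 ^ (10 * d + 17 * n) := one_le_pow₀ (by norm_num)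
  have h3 : (1 : ℝ≥0∞) ≤ η⁻¹ ^ 11 := one_le_pow₀ (ENNReal.one_le_inv.mpr hη1)
  have h4 : (1 : ℝ≥0∞) ≤ 4 ^ m := one_le_pow₀ (by norm_num)
  exact one_le_mul (one_le_mul (one_le_mul h1 h2) h3) h4

/-- One block. -/
theorem one_block {d : ℕ} (hd : 16 ≤ d) (n : ℕ) (hn : n = d / 8) {Z : Type*} [Fintype Z]
    [Nonempty Z] (W : Z → Vec d → ℝ≥0∞) (w : Vec d → ℝ≥0∞) (hW : ∀ z, Measurable (W z))
    (hW1 : ∀ z s, W z s ≤ 1) (hw : Measurable w) (hw1 : ∀ s, w s ≤ 1) (a B : ℝ≥0∞)
    (hB : ∀ z, Bd (sphereProb (Vec d)) (3 * n + 3) (W z) a B) (hrep : Rep n W w)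
    (η : ℝ≥0∞) (hη : 0 < η) (hη1 : η ≤ 1) (m : ℕ) (hm : Fintype.card Z ≤ 2 ^ (m * n)) :
    Bd (sphereProb (Vec d)) (3 * n + 3) w (a + (8 * η + ENNReal.ofReal (Real.exp (-n))))
      (gam d n m η * B) := by
  have hn1 : 1 ≤ n := by omega
  have := nontrivial_vec (d := d) (by omega)
  obtain ⟨k, hk, hk1, hkw⟩ := hrep
  have hηt : η ≠ ⊤ := ne_top_of_le_ne_top ENNReal.one_ne_top hη1
  set θ : ℝ≥0∞ := η ^ 2 * 2⁻¹ ^ m with hθdef
  have hθ0 : 0 < θ := by
    apply ENNReal.mul_pos
    · exact pow_ne_zero _ hη.ne'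
    · exact pow_ne_zero _ (by simp)
  have hθ : θ ^ n * Fintype.card Z ≤ η ^ 2 := by
    have h1 : (Fintype.card Z : ℝ≥0∞) ≤ 2 ^ (m * n) := by exact_mod_cast hm
    calc θ ^ n * Fintype.card Z ≤ θ ^ n * 2 ^ (m * n) := by (clear * - h1; gcongr)
      _ = (η ^ 2) ^ n * ((2⁻¹ * 2) ^ (m * n)) := by
        rw [hθdef, mul_pow, mul_pow (2⁻¹ : ℝ≥0∞) 2, ← pow_mul 2⁻¹ m n, mul_assoc]
      _ = (η ^ 2) ^ n := by
        rw [ENNReal.inv_mul_cancel (by norm_num) (by norm_num), one_pow, mul_one]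
      _ ≤ (η ^ 2) ^ 1 := pow_le_pow_right_of_le_one' (pow_le_one' hη1 2) hn1
      _ = η ^ 2 := pow_one _
  have h1 := block_step n hn1 (sphereProb (Vec d)) k hk hk1 W hW hW1 (3 * n + 3) a B hB η θ hη hη1
    hθ0 hθ
  have hwe : (fun s => ∫⁻ G, ∑ z, k z (G, lab G s) * W z s ∂(rows (Vec d) n)) = w := by
    funext s
    exact (hkw s).symm
  rw [hwe] at h1
  have hσ : ∀ (v : Vec d) (b : ℕ), sphereProb (Vec d) (closedBall v ((1 / 2) ^ b)) ≤
      (6 : ℝ≥0∞) ^ d * (1 / 2) ^ ((3 * n + 1 + 1) * b) := by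
    intro v b
    refine (sphereProb_closedBall_le v ((1 / 2) ^ b) (by positivity)).trans ?_
    rw [finrank_euclideanSpace_fin]
    have h2 : ((1 / 2 : ℝ) ^ b) ^ (d - 1) ≤ ((1 / 2 : ℝ) ^ b) ^ (3 * n + 1 + 1) := by
      apply pow_le_pow_of_le_one (by positivity)
      · exact pow_le_one₀ (by norm_num) (by norm_num)
      · omega
    have h3 : (6 : ℝ) ^ d * ((1 / 2 : ℝ) ^ b) ^ (d - 1) ≤
        (6 : ℝ) ^ d * (1 / 2 : ℝ) ^ ((3 * n + 1 + 1) * b) := by
      rw [mul_comm (3 * n + 1 + 1) b, pow_mul (1 / 2 : ℝ) b]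
      (clear * - h2; gcongr)
    refine (ENNReal.ofReal_le_ofReal h3).trans (le_of_eq ?_)
    rw [ENNReal.ofReal_mul (by positivity), ENNReal.ofReal_pow (by norm_num),
      ENNReal.ofReal_pow (by norm_num), ENNReal.ofReal_div_of_pos (by norm_num)]
    simp
  have h4 := reloc_bd d (by omega) (sphereProb (Vec d)) (3 * n + 1) (6 ^ d)
    (by simp) hσ η hη hη1 w hw hw1 _ _ h1
  refine h4.mono ?_ ?_
  · apply le_of_eq
    ring
  · apply le_of_eq
    have h5 : θ⁻¹ ^ 2 = η⁻¹ ^ 4 * 4 ^ m := by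
      rw [hθdef, ENNReal.mul_inv (Or.inl (pow_ne_zero _ hη.ne')) (Or.inl (ENNReal.pow_ne_top hηt)),
        ENNReal.inv_pow, ENNReal.inv_pow, inv_inv, mul_pow, ← pow_mul, ← pow_mul, mul_comm m 2,
        pow_mul 2 2 m]
      norm_num
    rw [h5]
    unfold gam
    rw [pow_add]
    ring

/-- The bound for the win function of a learner. -/
theorem Learner.bd_win {d N : ℕ} (hd : 16 ≤ d) (n : ℕ) (hn : n = d / 8) (L : Learner (Vec d) N) (ε : ℝ)
    (X : ℝ≥0∞) (hX : ∀ t q, Bd (sphereProb (Vec d)) (3 * n + 3) (L.good ε t q) 0 X)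
    (η : ℝ≥0∞) (hη : 0 < η) (hη1 : η ≤ 1) (m : ℕ) (hm : N * (n + 1) ≤ 2 ^ (m * n)) (hN : 1 ≤ N)
    (J T : ℕ) (hT : T ≤ J * n) (t : ℕ) (q : Fin N) :
    Bd (sphereProb (Vec d)) (3 * n + 3) (L.win ε T t q)
      (J * (8 * η + ENNReal.ofReal (Real.exp (-n)))) (gam d n m η ^ J * X) := by
  have : Nonempty (Fin N) := ⟨⟨0, by omega⟩⟩
  refine L.block_induction ε n (fun I w => Bd (sphereProb (Vec d)) (3 * n + 3) w
    (I * (8 * η + ENNReal.ofReal (Real.exp (-n)))) (gam d n m η ^ I * X)) ?_ ?_ ?_ J T t q hT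
  · intro I w h
    refine h.mono ?_ ?_
    · gcongr
      simp only [le_add_iff_nonneg_right, zero_le]
    · gcongr
      · exact one_le_gam d n m η hη1
      · omega
  · intro t q
    simpa using hX t q
  · intro I W w hW hW1 hw hw1 hB hrep
    have hcard : Fintype.card (Fin N ⊕ (Fin n × Fin N)) ≤ 2 ^ (m * n) := by
      refine le_trans (le_of_eq ?_) hm
      simp only [Fintype.card_sum, Fintype.card_fin, Fintype.card_prod]
      ring
    have h := one_block hd n hn W w hW hW1 hw hw1 _ _ hB hrep η hη hη1 m hcard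
    refine h.mono ?_ ?_
    · apply le_of_eq
      push_cast
      ring
    · apply le_of_eq
      rw [pow_succ]
      ring

lemma piece_sphereProb {d : ℕ} :
    Piece (sphereProb (Vec d)) (sphereProb (Vec d)) 0 1 := by
  refine ⟨⟨0, ?_⟩, by simp⟩
  refine measure_mono_null ?_ (sphereProb_compl_sphere (E := Vec d))
  intro x hx hx'
  apply hx
  simp only [pow_zero]
  exact sphere_subset_closedBall hx'

/-- Volumetric bound. -/
theorem Learner.success_le_vol {d N : ℕ} (hd : 2 ≤ d) (L : Learner (Vec d) N) (ε : ℝ) (hε : 0 < ε)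
    (T : ℕ) :
    ∫⁻ s : Sph d, ∫⁻ q, L.win ε T 0 q (s : Vec d) ∂L.init ∂(unifSphere (Vec d)) ≤
      (T + 1) * (N * ENNReal.ofReal (6 ^ d * ε ^ (d - 1))) := by
  apply L.success_le
  intro q
  have := nontrivial_vec hd
  calc ∫⁻ s, L.win ε T 0 q s ∂(sphereProb (Vec d))
      ≤ ∫⁻ s, ∑ i ∈ Finset.range (T + 1), ∑ q', L.good ε (0 + i) q' s ∂(sphereProb (Vec d)) :=
        lintegral_mono fun s => L.win_le_sum ε T 0 q s
    _ = ∑ i ∈ Finset.range (T + 1), ∑ q', ∫⁻ s, L.good ε (0 + i) q' s ∂(sphereProb (Vec d)) := by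
        rw [lintegral_finsetSum]
        · apply Finset.sum_congr rfl
          intro i _
          rw [lintegral_finsetSum]
          intro q' _
          exact L.measurable_good ε _ q'
        · intro i _
          apply Finset.measurable_sum
          intro q' _
          exact L.measurable_good ε _ q'
    _ ≤ ∑ i ∈ Finset.range (T + 1), ∑ q' : Fin N, ENNReal.ofReal (6 ^ d * ε ^ (d - 1)) := by
        gcongr with i _ q' _
        have h := base_bd hd L ε hε 0 (by omega) (0 + i) q' (sphereProb (Vec d)) 0 1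
          (by simp) piece_sphereProb
        simpa only [zero_add, Nat.ofNat_nonneg, pow_nonneg, ENNReal.ofReal_mul, ENNReal.ofReal_pow,     ENNReal.ofReal_ofNat, ge_iff_le, measure_univ, mul_one, tsub_zero, one_div, mul_zero, pow_zero] using h
    _ = (T + 1) * (N * ENNReal.ofReal (6 ^ d * ε ^ (d - 1))) := by
        simp only [Nat.ofNat_nonneg, pow_nonneg, ENNReal.ofReal_mul, ENNReal.ofReal_pow, ENNReal.ofReal_ofNat, Finset.sum_const, Finset.card_univ, Fintype.card_fin, nsmul_eq_mul, Finset.card_range, Nat.cast_add, Nat.cast_one]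

/-- Bound from the block argument. -/
theorem Learner.success_le_block {d N : ℕ} (hd : 16 ≤ d) (L : Learner (Vec d) N) (ε : ℝ) (hε : 0 < ε)
    (hN : 1 ≤ N) (T J m : ℕ) (hT : T ≤ J * (d / 8)) (η : ℝ≥0∞) (hη : 0 < η)
    (hη1 : η ≤ 1) (hm : N * (d / 8 + 1) ≤ 2 ^ (m * (d / 8))) :
    ∫⁻ s : Sph d, ∫⁻ q, L.win ε T 0 q (s : Vec d) ∂L.init ∂(unifSphere (Vec d)) ≤
      J * (8 * η + ENNReal.ofReal (Real.exp (-((d / 8 : ℕ) : ℝ)))) +
        gam d (d / 8) m η ^ J * ENNReal.ofReal (6 ^ d * ε ^ (d - 1 - (3 * (d / 8) + 3))) := by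
  apply L.success_le
  intro q
  have := nontrivial_vec (d := d) (by omega)
  have h := L.bd_win hd (d / 8) rfl ε _ (base_bd (by omega) L ε hε (3 * (d / 8) + 3) (by omega))
    η hη hη1 m hm hN J T hT 0 q (sphereProb (Vec d)) 0 1 (by simp) piece_sphereProb
  simpa only [Nat.ofNat_nonneg, pow_nonneg, ENNReal.ofReal_mul, ENNReal.ofReal_pow, ENNReal.ofReal_ofNat,     ge_iff_le, measure_univ, mul_one, one_div, mul_zero, pow_zero] using h

/-- The lower bound, for learners with `N` states. -/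
theorem lower_bound (C : ℝ) (hC : 0 < C) : ∃ c : ℝ, 0 < c ∧ ∃ d₀ : ℕ, 16 ≤ d₀ ∧
    ∃ ε₀ : ℝ, 0 < ε₀ ∧ ε₀ < 1 ∧ ∀ d : ℕ, d₀ ≤ d → ∀ ε : ℝ, 0 < ε → ε ≤ ε₀ → ∀ N : ℕ,
      (N : ℝ) ≤ (2:ℝ) ^ (C * (d:ℝ) ^ 2) → ∀ (L : Learner (Vec d) N) (T : ℕ), L.Succeeds T ε →
        c * d * Real.log (1 / ε) ≤ T := by
  obtain ⟨c, hc, d₀, hd₀, ε₀, hε₀, hε₁, h⟩ := numeric C hC
  refine ⟨c, hc, d₀, hd₀, ε₀, hε₀, hε₁, ?_⟩
  intro d hd ε hε hεe N hN L T hL
  have hN1 : 1 ≤ N := by
    rcases Nat.eq_zero_or_pos N with h0 | h0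
    · subst h0
      have h1 : L.init univ = 1 := measure_univ
      have h2 : (univ : Set (Fin 0)) = ∅ := Subsingleton.elim _ _
      rw [h2, measure_empty] at h1
      exact absurd h1 zero_ne_one
    · exact h0
  have h23 : ENNReal.ofReal (2 / 3) = 2 / 3 := by
    rw [ENNReal.ofReal_div_of_pos (by norm_num)]
    simp
  unfold Learner.Succeeds at hL
  rw [← h23] at hL
  refine h d hd ε hε hεe N hN1 hN T ?_ ?_
  · have h1 := hL.trans (L.success_le_vol (by omega) ε hε T)
    have h2 : ((T : ℝ≥0∞) + 1) * (N * ENNReal.ofReal (6 ^ d * ε ^ (d - 1))) =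
        ENNReal.ofReal (N * (T + 1) * (6 ^ d * ε ^ (d - 1))) := by
      have hx : (0 : ℝ) ≤ 6 ^ d * ε ^ (d - 1) := by positivity
      generalize (6 : ℝ) ^ d * ε ^ (d - 1) = x at hx ⊢
      rw [ENNReal.ofReal_mul (by (clear * - hN1; positivity)), ENNReal.ofReal_mul (by positivity),
        ENNReal.ofReal_natCast, ENNReal.ofReal_add (by positivity) (by norm_num),
        ENNReal.ofReal_natCast, ENNReal.ofReal_one]
      ring
    rw [h2] at h1
    exact (ENNReal.ofReal_le_ofReal_iff (by (clear * - hN1 hε; positivity))).mp h1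
  · intro J m η hT hη hη1 hm
    have hm' : N * (d / 8 + 1) ≤ 2 ^ (m * (d / 8)) := by exact_mod_cast hm
    have h1 := hL.trans (L.success_le_block (by omega) ε hε hN1 T J m hT
      (ENNReal.ofReal η) (by simpa using hη) (by simpa using hη1) hm')
    have h2 : (J : ℝ≥0∞) * (8 * ENNReal.ofReal η +
        ENNReal.ofReal (Real.exp (-((d / 8 : ℕ) : ℝ)))) +
        gam d (d / 8) m (ENNReal.ofReal η) ^ J *
          ENNReal.ofReal (6 ^ d * ε ^ (d - 1 - (3 * (d / 8) + 3))) =
        ENNReal.ofReal (J * (8 * η + Real.exp (-((d / 8 : ℕ) : ℝ))) +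
       (4 * 10 ^ (10 * d + 17 * (d / 8)) * (1 / η) ^ 11 * 4 ^ m) ^ J *
        (6 ^ d * ε ^ (d - 1 - (3 * (d / 8) + 3)))) := by
      unfold gam
      have hx : (0 : ℝ) ≤ 6 ^ d * ε ^ (d - 1 - (3 * (d / 8) + 3)) := by positivity
      generalize (6 : ℝ) ^ d * ε ^ (d - 1 - (3 * (d / 8) + 3)) = x at hx ⊢
      have hy : (0 : ℝ) ≤ Real.exp (-((d / 8 : ℕ) : ℝ)) := by positivity
      generalize Real.exp (-((d / 8 : ℕ) : ℝ)) = y at hy ⊢
      rw [ENNReal.ofReal_add (by (clear * - hη hy; positivity)) (by positivity), ENNReal.ofReal_mul (by positivity),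
        ENNReal.ofReal_natCast, ENNReal.ofReal_add (by positivity) (by positivity),
        ENNReal.ofReal_mul (by norm_num), ENNReal.ofReal_mul (by positivity),
        ENNReal.ofReal_pow (by positivity),
        ENNReal.ofReal_mul (by positivity), ENNReal.ofReal_mul (by positivity),
        ENNReal.ofReal_mul (by positivity), ENNReal.ofReal_pow (by positivity),
        ENNReal.ofReal_pow (by positivity), ENNReal.ofReal_pow (by positivity),
        one_div, ENNReal.ofReal_inv_of_pos hη]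
      simp only [ENNReal.ofReal_ofNat]
    rw [h2] at h1
    exact (ENNReal.ofReal_le_ofReal_iff (by (clear * - hη hε; positivity))).mp h1

end P309
end
end

section

section

/-!
# P309, upper bound: the quantized Kaczmarz learner
-/

open MeasureTheory ProbabilityTheory Metric Set Filter
open scoped ENNReal RealInnerProductSpace

namespace P309.Upper

variable {d N : ℕ}

/-- The direction of a vector (with a default value for the zero vector). -/
noncomputable def dirn (u0 : Sph d) (v : Vec d) : Sph d :=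
  if h : v = 0 then u0 else ⟨(‖v‖)⁻¹ • v, by
    rw [mem_sphere_zero_iff_norm, norm_smul, norm_inv, norm_norm,
      inv_mul_cancel₀ (norm_ne_zero_iff.mpr h)]⟩

lemma dirn_good (u0 : Sph d) {v s : Vec d} {ε : ℝ} (hε0 : 0 < ε) (hε1 : ε ≤ 1 / 2)
    (hs : ‖s‖ = 1) (h : ‖v - s‖ ≤ ε / 4) :
    Real.arccos ⟪(dirn u0 v : Vec d), s⟫ ≤ ε := by
  have hv : v ≠ 0 := by
    rintro rfl
    rw [zero_sub, norm_neg, hs] at h
    linarith
  have hv0 : 0 < ‖v‖ := norm_pos_iff.mpr hv
  have h1 : (dirn u0 v : Vec d) = (‖v‖)⁻¹ • v := by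
    unfold dirn
    rw [dif_neg hv]
  set u : Vec d := (‖v‖)⁻¹ • v with hu
  have hun : ‖u‖ = 1 := by
    rw [hu, norm_smul, norm_inv, norm_norm, inv_mul_cancel₀ hv0.ne']
  have h2 : ‖u - v‖ = |1 - ‖v‖| := by
    have : u - v = (1 - ‖v‖) • u := by
      rw [sub_smul, one_smul, hu, smul_smul, mul_inv_cancel₀ hv0.ne', one_smul]
    rw [this, norm_smul, hun, mul_one, Real.norm_eq_abs]
  have h3 : |1 - ‖v‖| ≤ ‖v - s‖ := by
    rw [← hs, abs_sub_comm]
    exact abs_norm_sub_norm_le v s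
  have h4 : ‖u - s‖ ≤ ε / 2 := by
    calc ‖u - s‖ = ‖(u - v) + (v - s)‖ := by congr 1; abel
      _ ≤ ‖u - v‖ + ‖v - s‖ := norm_add_le _ _
      _ ≤ ε / 2 := by linarith only [h, h2, h3]
  have h5 : ‖u - s‖ ^ 2 = 2 - 2 * ⟪u, s⟫ := by
    rw [norm_sub_sq_real, hun, hs]; ring
  have h6 : 1 - ε ^ 2 / 8 ≤ ⟪u, s⟫ := by
    have : ‖u - s‖ ^ 2 ≤ (ε / 2) ^ 2 := pow_le_pow_left₀ (norm_nonneg _) h4 2
    linarith
  have h7 : Real.cos ε ≤ 1 - ε ^ 2 / 8 := by
    have hpi := Real.pi_gt_three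
    have hpi4 := Real.pi_le_four
    have h8 := Real.cos_le_one_sub_mul_cos_sq (x := ε) (by
      rw [abs_of_pos hε0]; linarith only [hε1, hpi])
    have h9 : (1 : ℝ) / 8 ≤ 2 / Real.pi ^ 2 := by
      rw [div_le_div_iff₀ (by norm_num) (by positivity)]
      nlinarith only [hpi4, hpi]
    nlinarith only [h8, h9]
  rw [h1]
  calc Real.arccos ⟪u, s⟫ ≤ Real.arccos (Real.cos ε) :=
        Real.arccos_le_arccos (h7.trans h6)
    _ = ε := Real.arccos_cos hε0.le (by linarith only [hε1, Real.pi_gt_three])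

/-- The transition of the quantized Kaczmarz learner. -/
noncomputable def trans (pt : Fin N → Vec d) (rd : Vec d → Fin N)
    (p : Fin N × Vec d × ℝ) : Bool × Fin N :=
  (false, rd (kac (pt p.1) p.2.1 p.2.2))

lemma measurable_kac : Measurable (fun p : Vec d × Vec d × ℝ => kac p.1 p.2.1 p.2.2) := by
  unfold kac
  fun_prop

lemma measurable_trans (pt : Fin N → Vec d) {rd : Vec d → Fin N} (hrd : Measurable rd) :
    Measurable (trans pt rd) := by
  unfold trans
  refine measurable_const.prodMk (hrd.comp ?_)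
  exact measurable_kac.comp
    (((measurable_of_countable pt).comp measurable_fst).prodMk measurable_snd)

/-- The quantized Kaczmarz learner. -/
noncomputable def kacLearner (pt : Fin N → Vec d) {rd : Vec d → Fin N} (hrd : Measurable rd)
    (u0 : Sph d) : Learner (Vec d) N where
  init := Measure.dirac (rd 0)
  init_prob := by infer_instance
  step := fun _ => Kernel.deterministic (trans pt rd) (measurable_trans pt hrd)
  step_markov := fun _ => by infer_instance
  out := fun _ => Kernel.deterministic (fun q => dirn u0 (pt q)) (measurable_of_countable _)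
  out_markov := fun _ => by infer_instance

lemma measurable_good (s : Vec d) (ε : ℝ) :
    MeasurableSet {z : Sph d | Real.arccos ⟪(z : Vec d), s⟫ ≤ ε} := by
  apply measurableSet_le _ measurable_const
  exact Real.continuous_arccos.measurable.comp (measurable_subtype_coe.inner measurable_const)

lemma win_zero (pt : Fin N → Vec d) {rd : Vec d → Fin N} (hrd : Measurable rd) (u0 : Sph d)
    (ε : ℝ) (t : ℕ) (q : Fin N) (s : Vec d)
    (h : Real.arccos ⟪(dirn u0 (pt q) : Vec d), s⟫ ≤ ε) :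
    (kacLearner pt hrd u0).win ε 0 t q s = 1 := by
  rw [Learner.win, Learner.good]
  change (Kernel.deterministic (fun q => dirn u0 (pt q)) (measurable_of_countable _) q) _ = 1
  rw [Kernel.deterministic_apply' _ _ (measurable_good s ε), indicator_of_mem]
  exact h

lemma win_succ (pt : Fin N → Vec d) {rd : Vec d → Fin N} (hrd : Measurable rd) (u0 : Sph d)
    (ε : ℝ) (k t : ℕ) (q : Fin N) (s : Vec d) :
    (kacLearner pt hrd u0).win ε (k + 1) t q s =
      ∫⁻ x, (kacLearner pt hrd u0).win ε k (t + 1) (rd (kac (pt q) x ⟪x, s⟫)) s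
        ∂(stdGaussian (Vec d)) := by
  rw [Learner.win]
  refine lintegral_congr fun x => ?_
  change ∫⁻ p, _ ∂(Kernel.deterministic (trans pt rd) (measurable_trans pt hrd)
    (q, x, ⟪x, s⟫)) = _
  rw [Kernel.deterministic_apply, lintegral_dirac]
  simp [trans]

/-- The potential. -/
noncomputable def pot (d : ℕ) (δ η : ℝ) (k : ℕ) (r : ℝ) : ℝ :=
  (1 - 1 / (2 * (d : ℝ))) ^ k / η * r +
    2 * d * δ * (1 - (1 - 1 / (2 * (d : ℝ))) ^ k) / η

lemma coef_bounds (hd : 1 ≤ d) : 0 ≤ 1 - 1 / (2 * (d : ℝ)) ∧ 1 - 1 / (2 * (d : ℝ)) ≤ 1 := by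
  have hd1 : (1 : ℝ) ≤ d := by exact_mod_cast hd
  constructor
  · rw [sub_nonneg, div_le_iff₀ (by positivity)]
    linarith only [hd1]
  · have : 0 ≤ 1 / (2 * (d : ℝ)) := by positivity
    linarith only [this]

lemma pot_nonneg (hd : 1 ≤ d) {δ η : ℝ} (hδ : 0 ≤ δ) (hη : 0 < η) (k : ℕ) {r : ℝ}
    (hr : 0 ≤ r) : 0 ≤ pot d δ η k r := by
  obtain ⟨h0, h1⟩ := coef_bounds hd
  have h2 : 0 ≤ 1 - (1 - 1 / (2 * (d : ℝ))) ^ k := by
    have := pow_le_one₀ h0 h1 (n := k)
    linarith only [this]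
  unfold pot
  positivity

lemma pot_mono (hd : 1 ≤ d) {δ η : ℝ} (hη : 0 < η) (k : ℕ) {r r' : ℝ}
    (hr : r ≤ r') : pot d δ η k r ≤ pot d δ η k r' := by
  obtain ⟨h0, h1⟩ := coef_bounds hd
  unfold pot
  gcongr

lemma pot_succ (hd : 1 ≤ d) {δ η : ℝ} (hη : 0 < η) (k : ℕ) {r r' : ℝ}
    (hr : r' ≤ (1 - 1 / (2 * (d : ℝ))) * r) :
    pot d δ η k (r' + δ) ≤ pot d δ η (k + 1) r := by
  obtain ⟨h0, h1⟩ := coef_bounds hd
  have hd0 : (0 : ℝ) < d := by exact_mod_cast hd
  refine (pot_mono hd hη k (add_le_add_left hr δ)).trans (le_of_eq ?_)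
  unfold pot
  set a : ℝ := 1 - 1 / (2 * (d : ℝ)) with ha
  have e2 : δ = 2 * d * δ * (1 - a) := by
    rw [ha]
    field_simp
    ring
  have e3 : a ^ k / η * (a * r + δ) = a ^ k / η * (a * r + 2 * d * δ * (1 - a)) := by
    rw [← e2]
  rw [e3]
  field_simp
  ring

lemma integral_affine {Ω : Type*} [MeasurableSpace Ω] (μ : Measure Ω) [IsProbabilityMeasure μ]
    {f : Ω → ℝ} (hf : Integrable f μ) (δ η : ℝ) (k : ℕ) :
    Integrable (fun ω => pot d δ η k (f ω + δ)) μ ∧
      ∫ ω, pot d δ η k (f ω + δ) ∂μ = pot d δ η k (∫ ω, f ω ∂μ + δ) := by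
  unfold pot
  have h1 : Integrable (fun ω => f ω + δ) μ := hf.add (integrable_const _)
  have h2 : Integrable (fun ω => (1 - 1 / (2 * (d : ℝ))) ^ k / η * (f ω + δ)) μ :=
    h1.const_mul _
  refine ⟨h2.add (integrable_const _), ?_⟩
  rw [integral_add h2 (integrable_const _), integral_const_mul,
    integral_add hf (integrable_const _)]
  simp only [one_div, mul_inv_rev, integral_const, probReal_univ, smul_eq_mul, one_mul]

lemma measurable_pot (δ η : ℝ) (k : ℕ) : Measurable (pot d δ η k) := by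
  unfold pot
  fun_prop

lemma dist_step (pt : Fin N → Vec d) {rd : Vec d → Fin N} {δ : ℝ}
    (hpt : ∀ w : Vec d, ‖w‖ ≤ 3 → ‖pt (rd w) - w‖ ≤ δ)
    {s : Vec d} (hs : ‖s‖ = 1) {z : Vec d} (hz : ‖z - s‖ ≤ 2) (x : Vec d) :
    ‖pt (rd (kac z x ⟪x, s⟫)) - s‖ ≤ ‖kac z x ⟪x, s⟫ - s‖ + δ := by
  have h1 := norm_kac_sub_le z x s
  have h2 : ‖kac z x ⟪x, s⟫‖ ≤ 3 := by
    calc ‖kac z x ⟪x, s⟫‖ = ‖(kac z x ⟪x, s⟫ - s) + s‖ := by congr 1; abel
      _ ≤ ‖kac z x ⟪x, s⟫ - s‖ + ‖s‖ := norm_add_le _ _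
      _ ≤ 3 := by rw [hs]; linarith
  have h3 := hpt _ h2
  calc ‖pt (rd (kac z x ⟪x, s⟫)) - s‖ = ‖(kac z x ⟪x, s⟫ - s) +
        (pt (rd (kac z x ⟪x, s⟫)) - kac z x ⟪x, s⟫)‖ := by congr 1; abel
    _ ≤ ‖kac z x ⟪x, s⟫ - s‖ + ‖pt (rd (kac z x ⟪x, s⟫)) - kac z x ⟪x, s⟫‖ :=
        norm_add_le _ _
    _ ≤ _ := by linarith

theorem win_ge (hd : 1 ≤ d) (pt : Fin N → Vec d) {rd : Vec d → Fin N} (hrd : Measurable rd)
    (u0 : Sph d) {δ : ℝ} (hδ : 0 < δ) (hpt : ∀ w : Vec d, ‖w‖ ≤ 3 → ‖pt (rd w) - w‖ ≤ δ)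
    {ε : ℝ} (hε0 : 0 < ε) (hε1 : ε ≤ 1 / 2) {s : Vec d} (hs : ‖s‖ = 1) (k : ℕ) :
    ∀ (t : ℕ) (q : Fin N), ‖pt q - s‖ + k * δ ≤ 2 →
      1 ≤ (kacLearner pt hrd u0).win ε k t q s +
        ENNReal.ofReal (pot d δ (ε / 4) k ‖pt q - s‖) := by
  have hη : 0 < ε / 4 := by positivity
  induction k with
  | zero =>
    intro t q hq
    rcases le_or_gt ‖pt q - s‖ (ε / 4) with h | h
    · rw [win_zero pt hrd u0 ε t q s (dirn_good u0 hε0 hε1 hs h)]
      exact le_self_add
    · refine le_trans ?_ le_add_self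
      rw [← ENNReal.ofReal_one]
      apply ENNReal.ofReal_le_ofReal
      unfold pot
      simp only [pow_zero, sub_self, mul_zero, zero_div, add_zero]
      rw [div_mul_eq_mul_div, one_mul, le_div_iff₀ hη]
      linarith only [h]
  | succ k ih =>
    intro t q hq
    rw [win_succ]
    have hkm : Measurable (fun x : Vec d => kac (pt q) x ⟪x, s⟫) := by
      unfold kac
      fun_prop
    have hq'm : Measurable (fun x : Vec d => rd (kac (pt q) x ⟪x, s⟫)) := hrd.comp hkm
    have hkδ : 0 ≤ (k : ℝ) * δ := by (clear * - hδ; positivity)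
    push_cast at hq
    have hz2 : ‖pt q - s‖ ≤ 2 := by nlinarith only [hδ, hq]
    have hdist : ∀ x, ‖pt (rd (kac (pt q) x ⟪x, s⟫)) - s‖ ≤
        ‖kac (pt q) x ⟪x, s⟫ - s‖ + δ := dist_step pt hpt hs hz2
    have hstep : ∀ x, 1 ≤ (kacLearner pt hrd u0).win ε k (t + 1)
          (rd (kac (pt q) x ⟪x, s⟫)) s +
        ENNReal.ofReal (pot d δ (ε / 4) k ‖pt (rd (kac (pt q) x ⟪x, s⟫)) - s‖) := by
      intro x
      apply ih
      have h1 := hdist x
      have h2 := norm_kac_sub_le (pt q) x s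
      linarith only [hq, h1, h2]
    have hpm : Measurable (fun x => ‖pt (rd (kac (pt q) x ⟪x, s⟫)) - s‖) :=
      (((measurable_of_countable pt).comp hq'm).sub_const s).norm
    have hpotm := (measurable_pot (d := d) δ (ε / 4) k).comp hpm
    have hint1 : Integrable (fun x => ‖kac (pt q) x ⟪x, s⟫ - s‖) (stdGaussian (Vec d)) := by
      refine Integrable.of_bound ((hkm.sub_const s).norm).aestronglyMeasurable ‖pt q - s‖ ?_
      refine Eventually.of_forall fun x => ?_
      rw [norm_norm]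
      exact norm_kac_sub_le (pt q) x s
    obtain ⟨hint2, hval⟩ := integral_affine (d := d) _ hint1 δ (ε / 4) k
    have hle : ∫⁻ x, ENNReal.ofReal (pot d δ (ε / 4) k ‖pt (rd (kac (pt q) x ⟪x, s⟫)) - s‖)
        ∂(stdGaussian (Vec d)) ≤ ENNReal.ofReal (pot d δ (ε / 4) (k + 1) ‖pt q - s‖) := by
      calc ∫⁻ x, ENNReal.ofReal (pot d δ (ε / 4) k ‖pt (rd (kac (pt q) x ⟪x, s⟫)) - s‖)
            ∂(stdGaussian (Vec d))
          ≤ ∫⁻ x, ENNReal.ofReal (pot d δ (ε / 4) k (‖kac (pt q) x ⟪x, s⟫ - s‖ + δ))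
            ∂(stdGaussian (Vec d)) :=
            lintegral_mono fun x => ENNReal.ofReal_le_ofReal (pot_mono hd hη k (hdist x))
        _ = ENNReal.ofReal (∫ x, pot d δ (ε / 4) k (‖kac (pt q) x ⟪x, s⟫ - s‖ + δ)
            ∂(stdGaussian (Vec d))) := by
            rw [ofReal_integral_eq_lintegral_ofReal hint2]
            exact Eventually.of_forall fun x => pot_nonneg hd hδ.le hη k (by (clear * - hδ; positivity))
        _ ≤ _ := by
            rw [hval]
            apply ENNReal.ofReal_le_ofReal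
            exact pot_succ hd hη k (kac_mean hd (pt q) s)
    calc (1 : ℝ≥0∞) = ∫⁻ _x : Vec d, 1 ∂(stdGaussian (Vec d)) := by simp
      _ ≤ ∫⁻ x, ((kacLearner pt hrd u0).win ε k (t + 1) (rd (kac (pt q) x ⟪x, s⟫)) s +
            ENNReal.ofReal (pot d δ (ε / 4) k ‖pt (rd (kac (pt q) x ⟪x, s⟫)) - s‖))
            ∂(stdGaussian (Vec d)) := lintegral_mono hstep
      _ = ∫⁻ x, (kacLearner pt hrd u0).win ε k (t + 1) (rd (kac (pt q) x ⟪x, s⟫)) s
            ∂(stdGaussian (Vec d)) +
            ∫⁻ x, ENNReal.ofReal (pot d δ (ε / 4) k ‖pt (rd (kac (pt q) x ⟪x, s⟫)) - s‖)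
              ∂(stdGaussian (Vec d)) :=
          lintegral_add_right _ hpotm.ennreal_ofReal
      _ ≤ _ := by (clear * - hrd hle; gcongr)

end P309.Upper
end
end

section

section

/-!
# P309, upper bound: quantized Kaczmarz succeeds with `O(d log(1/ε))` samples
-/

open MeasureTheory ProbabilityTheory Metric Set Filter
open scoped ENNReal RealInnerProductSpace

namespace P309.Upper

lemma isProb_unifSphere {d : ℕ} (hd : 1 ≤ d) : IsProbabilityMeasure (unifSphere (Vec d)) := by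
  have : Nonempty (Fin d) := ⟨⟨0, hd⟩⟩
  constructor
  rw [unifSphere, Measure.smul_apply, smul_eq_mul]
  apply ENNReal.inv_mul_cancel
  · exact (Measure.measure_univ_ne_zero).mpr (Measure.toSphere_ne_zero _)
  · exact measure_ne_top _ _

/-- Success from a potential bound at the initial state. -/
theorem succeeds_of_pot {d N : ℕ} (hd : 1 ≤ d) (pt : Fin N → Vec d) {rd : Vec d → Fin N}
    (hrd : Measurable rd) (u0 : Sph d) {δ : ℝ} (hδ : 0 < δ)
    (hpt : ∀ w : Vec d, ‖w‖ ≤ 3 → ‖pt (rd w) - w‖ ≤ δ)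
    {ε : ℝ} (hε0 : 0 < ε) (hε1 : ε ≤ 1 / 2) (T : ℕ) (hT : 1 + δ + T * δ ≤ 2)
    (hpot : pot d δ (ε / 4) T (1 + δ) ≤ 1 / 3) :
    (kacLearner pt hrd u0).Succeeds T ε := by
  have := isProb_unifSphere hd
  have key : ∀ s : Sph d, 2 / 3 ≤ (kacLearner pt hrd u0).win ε T 0 (rd 0) (s : Vec d) := by
    intro s
    have hs : ‖(s : Vec d)‖ = 1 := by simp
    have h0 : ‖pt (rd 0) - (s : Vec d)‖ ≤ 1 + δ := by
      have h1 := hpt 0 (by simp)
      rw [sub_zero] at h1
      calc ‖pt (rd 0) - (s : Vec d)‖ ≤ ‖pt (rd 0)‖ + ‖(s : Vec d)‖ := norm_sub_le _ _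
        _ ≤ 1 + δ := by rw [hs]; linarith only [h1]
    have h2 := win_ge hd pt hrd u0 hδ hpt hε0 hε1 hs T 0 (rd 0) (by linarith only [hT, h0])
    have h3 : pot d δ (ε / 4) T ‖pt (rd 0) - (s : Vec d)‖ ≤ 1 / 3 :=
      (pot_mono hd (by positivity) T h0).trans hpot
    have h4 : ENNReal.ofReal (pot d δ (ε / 4) T ‖pt (rd 0) - (s : Vec d)‖) ≤ 1 / 3 := by
      calc _ ≤ ENNReal.ofReal (1 / 3) := ENNReal.ofReal_le_ofReal h3
        _ = 1 / 3 := by
          rw [ENNReal.ofReal_div_of_pos (by norm_num)]; simp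
    have h5 : (1 : ℝ≥0∞) ≤ (kacLearner pt hrd u0).win ε T 0 (rd 0) (s : Vec d) + 1 / 3 :=
      h2.trans (by (clear * - hrd h4; gcongr))
    have e1 : (1 : ℝ≥0∞) = 2 / 3 + 1 / 3 := by
      rw [← ENNReal.add_div]
      norm_num
      exact (ENNReal.div_self (by norm_num) (by norm_num)).symm
    have h6 : (2 / 3 : ℝ≥0∞) + 1 / 3 ≤
        (kacLearner pt hrd u0).win ε T 0 (rd 0) (s : Vec d) + 1 / 3 := e1.symm.le.trans h5
    exact (ENNReal.add_le_add_iff_right (by simp)).mp h6
  unfold Learner.Succeeds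
  have hinit : (kacLearner pt hrd u0).init = Measure.dirac (rd 0) := rfl
  rw [hinit]
  simp only [lintegral_dirac]
  calc (2 / 3 : ℝ≥0∞) = ∫⁻ _s : Sph d, 2 / 3 ∂(unifSphere (Vec d)) := by simp only [lintegral_const, measure_univ, mul_one]
    _ ≤ _ := lintegral_mono key

lemma log_ratio_bounds {d : ℕ} (hd : 2 ≤ d) {ε : ℝ} (hε0 : 0 < ε) (hε1 : ε ≤ 1 / 2) :
    1 ≤ Real.log (d / ε) ∧ 1 / 2 ≤ Real.log (1 / ε) := by
  have hd2 : (2 : ℝ) ≤ d := by exact_mod_cast hd
  have hl2 := Real.log_two_gt_d9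
  have h1 : Real.log 2 ≤ Real.log (1 / ε) := by
    apply Real.log_le_log (by norm_num)
    rw [le_div_iff₀ hε0]; linarith only [hε1]
  have h2 : Real.log 4 ≤ Real.log (d / ε) := by
    apply Real.log_le_log (by norm_num)
    rw [le_div_iff₀ hε0]; linarith only [hε1, hd2]
  have h3 : Real.log 4 = 2 * Real.log 2 := by
    rw [show (4 : ℝ) = 2 ^ 2 by norm_num, Real.log_pow]; norm_num
  constructor
  · rw [h3] at h2; linarith only [hl2, h2]
  · linarith only [hl2, h1]

/-- Numeric choice of parameters. -/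
lemma numeric {d : ℕ} (hd : 2 ≤ d) {ε : ℝ} (hε0 : 0 < ε) (hε1 : ε ≤ 1 / 2) :
    ∃ T : ℕ, (T : ℝ) ≤ 20 * d * Real.log (1 / ε) ∧
      1 + ε / (200 * d) + T * (ε / (200 * d)) ≤ 2 ∧
      pot d (ε / (200 * d)) (ε / 4) T (1 + ε / (200 * d)) ≤ 1 / 3 := by
  have hd2 : (2 : ℝ) ≤ d := by exact_mod_cast hd
  have hd0 : (0 : ℝ) < d := by linarith only [hd2]
  obtain ⟨hl1, hl2⟩ := log_ratio_bounds hd hε0 hε1
  set L := Real.log (1 / ε) with hL
  have h48 : Real.log (48 / ε) = Real.log 48 + L := by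
    rw [hL, ← Real.log_mul (by norm_num) (by positivity)]
    congr 1; ring
  have hlog48 : Real.log 48 ≤ 4.2 := by
    have h1 : (48 : ℝ) ≤ 64 := by norm_num
    have h2 : Real.log 48 ≤ Real.log 64 := Real.log_le_log (by norm_num) h1
    have h3 : Real.log 64 = 6 * Real.log 2 := by
      rw [show (64 : ℝ) = 2 ^ 6 by norm_num, Real.log_pow]; norm_num
    have := Real.log_two_lt_d9
    linarith only [h2, h3, this]
  have hlog48' : 0 ≤ Real.log 48 := Real.log_nonneg (by norm_num)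
  set X : ℝ := 2 * d * Real.log (48 / ε) with hX
  have hX0 : 0 ≤ X := by
    rw [hX, h48]; positivity
  refine ⟨⌈X⌉₊, ?_, ?_, ?_⟩
  · have h1 : (⌈X⌉₊ : ℝ) < X + 1 := Nat.ceil_lt_add_one hX0
    have h2 : X ≤ 2 * d * (4.2 + L) := by
      rw [hX, h48]; (clear * - hlog48 hd; gcongr)
    nlinarith only [hd2, h1, h2, hl2]
  · have h1 : (⌈X⌉₊ : ℝ) < X + 1 := Nat.ceil_lt_add_one hX0
    have h2 : Real.log (48 / ε) ≤ 48 / ε - 1 := Real.log_le_sub_one_of_pos (by positivity)
    have h3 : X * (ε / (200 * d)) ≤ 96 / 200 := by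
      calc X * (ε / (200 * d)) ≤ (2 * d * (48 / ε - 1)) * (ε / (200 * d)) := by
            rw [hX]; (clear * - h2 hd hε0; gcongr)
        _ = (2 / 200) * (48 - ε) := by field_simp
        _ ≤ 96 / 200 := by nlinarith only [hε0]
    have h4 : ε / (200 * d) ≤ 1 / 100 := by
      rw [div_le_div_iff₀ (by positivity) (by norm_num)]
      nlinarith only [hε1, hd2]
    have h5 : 0 < ε / (200 * d) := by positivity
    nlinarith only [h1, h3, h4, hX0]
  · -- the potential
    set a : ℝ := 1 - 1 / (2 * (d : ℝ)) with ha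
    obtain ⟨ha0, ha1⟩ := coef_bounds (d := d) (by omega)
    rw [← ha] at ha0 ha1
    have hexp : a ≤ Real.exp (-(1 / (2 * d))) := by
      have := Real.add_one_le_exp (-(1 / (2 * (d : ℝ))))
      rw [ha]; linarith only [this]
    have h1 : a ^ ⌈X⌉₊ ≤ ε / 48 := by
      calc a ^ ⌈X⌉₊ ≤ (Real.exp (-(1 / (2 * d)))) ^ ⌈X⌉₊ := pow_le_pow_left₀ ha0 hexp _
        _ = Real.exp (-(⌈X⌉₊ / (2 * d))) := by
            rw [← Real.exp_nat_mul]; congr 1; ring
        _ ≤ Real.exp (-(Real.log (48 / ε))) := by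
            apply Real.exp_le_exp.mpr
            apply neg_le_neg
            rw [le_div_iff₀ (by positivity)]
            calc Real.log (48 / ε) * (2 * d) = X := by rw [hX]; ring
              _ ≤ ⌈X⌉₊ := Nat.le_ceil X
        _ = ε / 48 := by
            rw [Real.exp_neg, Real.exp_log (by positivity)]; field_simp
    have hak : 0 ≤ a ^ ⌈X⌉₊ := pow_nonneg ha0 _
    have h4 : ε / (200 * d) ≤ 1 := by
      rw [div_le_one (by positivity)]
      nlinarith only [hε1, hd2]
    unfold pot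
    rw [← ha]
    have h5 : a ^ ⌈X⌉₊ / (ε / 4) * (1 + ε / (200 * d)) ≤ 1 / 6 := by
      calc a ^ ⌈X⌉₊ / (ε / 4) * (1 + ε / (200 * d)) ≤ (ε / 48) / (ε / 4) * (1 + 1) := by
            (clear * - h1 hε0 h4 hd; gcongr)
        _ = 1 / 6 := by field_simp; norm_num
    have h6 : 2 * d * (ε / (200 * d)) * (1 - a ^ ⌈X⌉₊) / (ε / 4) ≤ 1 / 25 := by
      calc 2 * d * (ε / (200 * d)) * (1 - a ^ ⌈X⌉₊) / (ε / 4)
          ≤ 2 * d * (ε / (200 * d)) * 1 / (ε / 4) := by
            gcongr; linarith only [hak]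
        _ = 1 / 25 := by field_simp; norm_num
    linarith only [h5, h6]

end P309.Upper
end
end

section

section

/-!
# P309: too few memory states: no learner succeeds, whatever the horizon
-/

open MeasureTheory ProbabilityTheory Metric Set
open scoped ENNReal NNReal RealInnerProductSpace

namespace P309

variable {d N : ℕ}

lemma dist_le_of_arccos_le (z s : Vec d) (hz : ‖z‖ = 1) (hs : ‖s‖ = 1) (ε : ℝ)
    (h : Real.arccos ⟪z, s⟫ ≤ ε) : dist s z ≤ ε := by
  have hε : 0 ≤ ε := (Real.arccos_nonneg _).trans h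
  have h1 : dist s z ^ 2 = 2 - 2 * ⟪z, s⟫ := by
    rw [dist_eq_norm, norm_sub_sq_real, hs, hz, real_inner_comm]
    ring
  have hb : |⟪z, s⟫| ≤ 1 := by
    have := abs_real_inner_le_norm z s
    rwa [hz, hs, mul_one] at this
  have h2 : Real.cos (Real.arccos ⟪z, s⟫) = ⟪z, s⟫ :=
    Real.cos_arccos (abs_le.1 hb).1 (abs_le.1 hb).2
  set t := Real.arccos ⟪z, s⟫ with ht
  have ht0 : 0 ≤ t := Real.arccos_nonneg _
  have h3 := Real.one_sub_sq_div_two_le_cos (x := t)
  have h4 : dist s z ^ 2 ≤ t ^ 2 := by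
    rw [h1, ← h2]
    linarith only [h3]
  have h5 : dist s z ≤ t := by
    exact (sq_le_sq₀ dist_nonneg ht0).1 h4
  exact h5.trans h

/-- Average of the success probability of a random output. -/
theorem lintegral_good_le (hd : 1 ≤ d) (L : Learner (Vec d) N) (ε : ℝ) (hε : 0 < ε) (t : ℕ) (q : Fin N) :
    ∫⁻ s, L.good ε t q s ∂(sphereProb (Vec d)) ≤ ENNReal.ofReal (6 ^ d * ε ^ (d - 1)) := by
  have hne : Nonempty (Fin d) := ⟨⟨0, hd⟩⟩
  have hfin : Module.finrank ℝ (Vec d) = d := by simp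
  have : Nontrivial (Vec d) := by
    apply Module.nontrivial_of_finrank_pos (R := ℝ)
    rw [hfin]; omega
  have hm := measurableSet_near (d := d) ε
  have h1 : ∫⁻ s, L.good ε t q s ∂(sphereProb (Vec d)) =
      ∫⁻ z, (sphereProb (Vec d)) {s | Real.arccos ⟪(z : Vec d), s⟫ ≤ ε} ∂(L.out t q) := by
    have h2 : ∫⁻ s, L.good ε t q s ∂(sphereProb (Vec d)) =
        ((sphereProb (Vec d)).prod (L.out t q)) {p : Vec d × Sph d |
          Real.arccos ⟪(p.2 : Vec d), p.1⟫ ≤ ε} := by
      rw [Measure.prod_apply hm]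
      rfl
    rw [h2, Measure.prod_apply_symm hm]
    rfl
  rw [h1]
  calc ∫⁻ z, (sphereProb (Vec d)) {s | Real.arccos ⟪(z : Vec d), s⟫ ≤ ε} ∂(L.out t q)
      ≤ ∫⁻ _, ENNReal.ofReal (6 ^ d * ε ^ (d - 1)) ∂(L.out t q) := by
        apply lintegral_mono
        intro z
        have hz : ‖(z : Vec d)‖ = 1 := by simp
        have h3 := sphereProb_closedBall_le (E := Vec d) (z : Vec d) ε hε
        rw [hfin] at h3
        refine le_trans ?_ h3
        have h4 : (sphereProb (Vec d)) {s | Real.arccos ⟪(z : Vec d), s⟫ ≤ ε} ≤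
            (sphereProb (Vec d)) (closedBall (z : Vec d) ε ∪ (sphere (0 : Vec d) 1)ᶜ) := by
          apply measure_mono
          intro s hs
          by_cases hs1 : s ∈ sphere (0 : Vec d) 1
          · left
            have hs2 : ‖s‖ = 1 := by simpa using hs1
            exact dist_le_of_arccos_le (z : Vec d) s hz hs2 ε hs
          · right
            exact hs1
        refine h4.trans ((measure_union_le _ _).trans ?_)
        rw [sphereProb_compl_sphere, add_zero]
    _ = ENNReal.ofReal (6 ^ d * ε ^ (d - 1)) := by simp only [Nat.ofNat_nonneg, pow_nonneg, ENNReal.ofReal_mul, ENNReal.ofReal_pow, ENNReal.ofReal_ofNat, lintegral_const, measure_univ, mul_one]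

/-- Output rule depending only on the final state: the success probability is at most the sum over
the states. -/
theorem Learner.win_le_sum_fixed (L : Learner (Vec d) N) (hL : ∀ t, L.out t = L.out 0) (ε : ℝ)
    (k t : ℕ) (q : Fin N) (s : Vec d) :
    L.win ε k t q s ≤ ∑ q', L.good ε 0 q' s := by
  have hgood : ∀ t q, L.good ε t q s ≤ ∑ q', L.good ε 0 q' s := by
    intro t q
    have : L.good ε t q s = L.good ε 0 q s := by
      unfold Learner.good
      rw [hL t]
    rw [this]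
    exact Finset.single_le_sum (f := fun q' => L.good ε 0 q' s) (fun _ _ => zero_le)
      (Finset.mem_univ q)
  induction k generalizing t q with
  | zero => exact hgood t q
  | succ k ih =>
    rw [L.win_succ]
    set b := ∑ q', L.good ε 0 q' s with hb
    calc ∫⁻ x, ∑ o, L.wt t q o (x, ⟪x, s⟫) * L.nxt ε k t o s ∂(stdGaussian (Vec d))
        ≤ ∫⁻ _, b ∂(stdGaussian (Vec d)) := by
          apply lintegral_mono
          intro x
          calc ∑ o, L.wt t q o (x, ⟪x, s⟫) * L.nxt ε k t o s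
              ≤ ∑ o, L.wt t q o (x, ⟪x, s⟫) * b := by
                gcongr with o _
                unfold Learner.nxt
                split_ifs
                · exact hgood _ _
                · exact ih _ _
            _ = b := by rw [← Finset.sum_mul, L.sum_wt, one_mul]
      _ = b := by simp

/-- **Impossibility regime.** -/
theorem Learner.not_succeeds_of_few_states (hd : 1 ≤ d) (L : Learner (Vec d) N)
    (hL : ∀ t, L.out t = L.out 0) (ε : ℝ) (hε : 0 < ε)
    (hN : (N : ℝ) * (6 ^ d * ε ^ (d - 1)) < 2 / 3) (T : ℕ) : ¬ L.Succeeds T ε := by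
  intro h
  have h1 : ∫⁻ s : Sph d, ∫⁻ q, L.win ε T 0 q (s : Vec d) ∂L.init ∂(unifSphere (Vec d)) ≤
      ENNReal.ofReal (N * (6 ^ d * ε ^ (d - 1))) := by
    apply L.success_le
    intro q
    calc ∫⁻ s, L.win ε T 0 q s ∂(sphereProb (Vec d))
        ≤ ∫⁻ s, ∑ q', L.good ε 0 q' s ∂(sphereProb (Vec d)) :=
          lintegral_mono fun s => L.win_le_sum_fixed hL ε T 0 q s
      _ = ∑ q', ∫⁻ s, L.good ε 0 q' s ∂(sphereProb (Vec d)) := by
          rw [lintegral_finsetSum]
          intro q' _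
          exact L.measurable_good ε 0 q'
      _ ≤ ∑ _q' : Fin N, ENNReal.ofReal (6 ^ d * ε ^ (d - 1)) :=
          Finset.sum_le_sum fun q' _ => lintegral_good_le hd L ε hε 0 q'
      _ = ENNReal.ofReal (N * (6 ^ d * ε ^ (d - 1))) := by
          rw [Finset.sum_const, Finset.card_univ, Fintype.card_fin, nsmul_eq_mul,
            ENNReal.ofReal_mul (p := (N : ℝ)) (by positivity), ENNReal.ofReal_natCast]
  have h2 : (2 / 3 : ℝ≥0∞) ≤ ENNReal.ofReal (N * (6 ^ d * ε ^ (d - 1))) := le_trans h h1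
  have h3 : (2 / 3 : ℝ≥0∞) = ENNReal.ofReal (2 / 3) := by
    rw [ENNReal.ofReal_div_of_pos (by norm_num)]
    norm_num
  rw [h3] at h2
  have h4 := (ENNReal.ofReal_le_ofReal_iff (by positivity)).1 h2
  linarith only [hN, h4]

end P309
end
end

section

section

/-!
# P309: the least horizon, upper bound and impossibility
-/

open MeasureTheory ProbabilityTheory Metric Set Filter
open scoped ENNReal RealInnerProductSpace

namespace P309

/-- The least horizon is attained. -/
theorem leastHorizon_spec {d M T : ℕ} {ε : ℝ} (h : leastHorizon d M ε = (T : ℕ∞)) :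
    ∃ L : Learner (EuclideanSpace ℝ (Fin d)) (2 ^ M), L.FixedOutput ∧ L.Succeeds T ε := by
  classical
  by_contra hcon
  have hne : ∃ T', ∃ L : Learner (EuclideanSpace ℝ (Fin d)) (2 ^ M),
      L.FixedOutput ∧ L.Succeeds T' ε := by
    by_contra hno
    push Not at hno
    have : leastHorizon d M ε = ⊤ := by
      unfold leastHorizon
      simp only [iInf_eq_top]
      rintro T' ⟨L, hL, hS⟩
      exact absurd hS (hno T' L hL)
    rw [this] at h
    exact absurd h.symm (ENat.natCast_ne_top T)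
  have h1 : leastHorizon d M ε ≤ (Nat.find hne : ℕ∞) :=
    iInf₂_le (f := fun (T : ℕ) (_ : ∃ L : Learner (EuclideanSpace ℝ (Fin d)) (2 ^ M),
      L.FixedOutput ∧ L.Succeeds T ε) => (T : ℕ∞)) (Nat.find hne) (Nat.find_spec hne)
  have h2 : (Nat.find hne : ℕ∞) ≤ leastHorizon d M ε := by
    unfold leastHorizon
    refine le_iInf₂ fun T' hT' => ?_
    exact_mod_cast Nat.find_min' hne hT'
  have h3 : (Nat.find hne : ℕ∞) = (T : ℕ∞) := (le_antisymm h2 h1).trans h
  have h4 : Nat.find hne = T := by exact_mod_cast h3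
  exact hcon (h4 ▸ Nat.find_spec hne)

namespace Upper

/-- Upper bound with `d log₂ (d/ε) + 11 d` bits. -/
theorem upper_bound_sharp (d : ℕ) (ε : ℝ) (hd : 2 ≤ d) (hε0 : 0 < ε) (hε1 : ε ≤ 1 / 2) (M : ℕ)
    (hM : d * Real.logb 2 (d / ε) + 11 * d ≤ M) :
    ∃ T : ℕ, (T : ℝ) ≤ 20 * d * Real.log (1 / ε) ∧
      ∃ L : Learner (Vec d) (2 ^ M), L.FixedOutput ∧ L.Succeeds T ε := by
  obtain ⟨T, hT1, hT2, hT3⟩ := numeric hd hε0 hε1
  have hd1 : 1 ≤ d := by omega
  have hd2 : (2 : ℝ) ≤ d := by exact_mod_cast hd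
  have hd0 : (0 : ℝ) < d := by linarith only [hd2]
  have hδ : 0 < ε / (200 * d) := by positivity
  have hcard : (1 + 6 / (ε / (200 * d))) ^ d ≤ ((2 ^ M : ℕ) : ℝ) := by
    have hy : (2 : ℝ) ≤ d / ε := by
      rw [le_div_iff₀ hε0]; nlinarith only [hε1, hd2]
    have h1 : 1 + 6 / (ε / (200 * d)) ≤ 2048 * (d / ε) := by
      have : 6 / (ε / (200 * d)) = 1200 * (d / ε) := by field_simp; norm_num
      rw [this]; linarith only [hy]
    have h2 : (1 + 6 / (ε / (200 * d))) ^ d ≤ (2048 * (d / ε)) ^ d :=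
      pow_le_pow_left₀ (by positivity) h1 d
    refine h2.trans ?_
    have h3 : (2048 * (d / ε)) ^ d = (2 : ℝ) ^ (d * Real.logb 2 (d / ε) + 11 * d) := by
      rw [Real.rpow_add (by norm_num), mul_comm (d : ℝ) (Real.logb 2 (d / ε)),
        Real.rpow_mul (by norm_num), Real.rpow_logb (by norm_num) (by norm_num) (by positivity),
        Real.rpow_mul (by norm_num), Real.rpow_natCast, Real.rpow_natCast, mul_pow, mul_comm]
      norm_num
    rw [h3]
    push_cast
    rw [← Real.rpow_natCast 2 M]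
    exact Real.rpow_le_rpow_of_exponent_le (by norm_num) hM
  obtain ⟨pt, rd, hrd, hpt⟩ := exists_rounding d hδ hcard
  have hu0 : ∃ u : Vec d, ‖u‖ = 1 :=
    ⟨EuclideanSpace.single ⟨0, hd1⟩ 1, by simp⟩
  obtain ⟨u, hu⟩ := hu0
  refine ⟨T, hT1, kacLearner pt hrd ⟨u, by simpa using hu⟩, fun t => rfl, ?_⟩
  exact succeeds_of_pot hd1 pt hrd _ hδ hpt hε0 hε1 T hT2 hT3

/-- The least horizon is at most `20 d log (1/ε)`. -/
theorem leastHorizon_le (d : ℕ) (ε : ℝ) (hd : 2 ≤ d) (hε0 : 0 < ε) (hε1 : ε ≤ 1 / 2) (M : ℕ)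
    (hM : d * Real.logb 2 (d / ε) + 11 * d ≤ M) :
    ∃ T : ℕ, leastHorizon d M ε = (T : ℕ∞) ∧ (T : ℝ) ≤ 20 * d * Real.log (1 / ε) := by
  obtain ⟨T, hT, L, hL, hS⟩ := upper_bound_sharp d ε hd hε0 hε1 M hM
  have h1 : leastHorizon d M ε ≤ (T : ℕ∞) := iInf₂_le T ⟨L, hL, hS⟩
  have h2 : leastHorizon d M ε ≠ ⊤ := ne_top_of_le_ne_top (ENat.natCast_ne_top T) h1
  obtain ⟨T', hT'⟩ := ENat.ne_top_iff_exists.mp h2
  refine ⟨T', hT'.symm, ?_⟩
  rw [← hT'] at h1
  have h3 : T' ≤ T := by exact_mod_cast h1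
  have h4 : (T' : ℝ) ≤ T := by exact_mod_cast h3
  exact h4.trans hT

/-- No learner succeeds when `M ≤ (d - 1) log₂ (1/ε) - 4 d`. -/
theorem leastHorizon_eq_top (d : ℕ) (ε : ℝ) (hd : 2 ≤ d) (hε0 : 0 < ε) (M : ℕ)
    (hM : (M : ℝ) ≤ (d - 1) * Real.logb 2 (1 / ε) - 4 * d) : leastHorizon d M ε = ⊤ := by
  unfold leastHorizon
  simp only [iInf_eq_top]
  rintro T ⟨L, hL, hS⟩
  exfalso
  have h1 : ((2 ^ M : ℕ) : ℝ) = (2 : ℝ) ^ (M : ℝ) := by
    rw [Real.rpow_natCast]; push_cast; rfl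
  have h2 : (2 : ℝ) ^ (M : ℝ) ≤ (2 : ℝ) ^ (((d : ℝ) - 1) * Real.logb 2 (1 / ε) - 4 * d) :=
    Real.rpow_le_rpow_of_exponent_le (by norm_num) hM
  have h3 : (2 : ℝ) ^ (((d : ℝ) - 1) * Real.logb 2 (1 / ε) - 4 * d) =
      (1 / ε) ^ (d - 1) * (16 ^ d)⁻¹ := by
    rw [Real.rpow_sub (by norm_num), mul_comm, Real.rpow_mul (by norm_num),
      Real.rpow_logb (by norm_num) (by norm_num) (by positivity), div_eq_mul_inv]
    congr 1
    · have : ((d : ℝ) - 1) = ((d - 1 : ℕ) : ℝ) := by
        rw [Nat.cast_sub (by omega)]; simp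
      rw [this, Real.rpow_natCast]
    · rw [Real.rpow_mul (by norm_num), Real.rpow_natCast]
      norm_num
  have h4 : ((2 ^ M : ℕ) : ℝ) * (6 ^ d * ε ^ (d - 1)) ≤ (6 / 16) ^ d := by
    calc ((2 ^ M : ℕ) : ℝ) * (6 ^ d * ε ^ (d - 1))
        ≤ ((1 / ε) ^ (d - 1) * (16 ^ d)⁻¹) * (6 ^ d * ε ^ (d - 1)) := by
          rw [h1]
          have := h2.trans h3.le
          (clear * - this hε0; gcongr)
      _ = ((1 / ε) * ε) ^ (d - 1) * (6 / 16) ^ d := by
          rw [mul_pow, div_pow 6 16]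
          field_simp
      _ = (6 / 16) ^ d := by
          rw [one_div_mul_cancel hε0.ne', one_pow, one_mul]
  have h5 : ((6 : ℝ) / 16) ^ d ≤ (6 / 16) ^ 1 :=
    pow_le_pow_of_le_one (by norm_num) (by norm_num) (by omega)
  have h6 : ((6 : ℝ) / 16) ^ 1 < 2 / 3 := by norm_num
  exact L.not_succeeds_of_few_states (by omega) hL ε hε0 (by linarith only [h4, h5]) T hS

end Upper

end P309
end
end
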